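import Mathlib
import Vale.Agent.Lib.PolyTime.Lists2
import Vale.Agent.Lib.PolyTime.NatArith2
import Vale.Agent.Lib.PolyTime.Typed
import Vale.Agent.Lib.PolyTime.Bits
import Vale.Agent.P328.RMDefs
import Vale.Agent.P328.CDefs
import Vale.Agent.Lib.PolyTime.Official
import Vale.Agent.Lib.PolyTime.TM2
attribute [-instance] ProperSMul.toContinuousSMul IsTopologicalTorsor.toContinuousSMul IdemSemiring.toCanonicallyOrderedAdd IdemSemiring.toMulLeftMono IdemSemiring.toMulRightMono AddQuantale.instAddLeftMono AddQuantale.instAddRightMono Quantale.instMulLeftMono Quantale.instMulRightMono FiniteDimensional.rclike_to_real IsScalarTower.complexToReal FiniteDimensional.complexToReal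

set_option linter.all false

section

section

/-!
The sampling algorithm for contingency tables: the `2 × 2` heat bath chain, started at the
northwest corner table, driven by a word of random bits. Proof that it runs in polynomial time.
-/

namespace Vale.Agent.P328.Alg

open Vale.Agent.Lib.PolyTime Function

/-- Entry `(i, a)` of a table given as the list of its rows. -/
def ent (T : List (List ℕ)) (i a : ℕ) : ℕ := (T.getD i []).getD a 0

/-- The list of rows of the `m × n` table with entries `g i a`. -/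
def mk (m n : ℕ) (g : ℕ → ℕ → ℕ) : List (List ℕ) :=
  (List.range m).map fun i => (List.range n).map fun a => g i a

/-- Partial sums. -/
def psum (l : List ℕ) (i : ℕ) : ℕ := (l.take i).sum

/-- Entries of the starting table (mixed difference of `min R_i C_a`). -/
def nw (r c : List ℕ) (i a : ℕ) : ℕ :=
  (min (psum r (i + 1)) (psum c (a + 1)) + min (psum r i) (psum c a)) -
    (min (psum r i) (psum c (a + 1)) + min (psum r (i + 1)) (psum c a))

/-- Number of possible values of a `2 × 2` block with the given margins. -/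
def cnt (T : List (List ℕ)) (i i' a b : ℕ) : ℕ :=
  if i = i' ∨ a = b then 1 else
    min (ent T i a + ent T i b) (ent T i a + ent T i' a) + 1 -
      ((ent T i a + ent T i b) + (ent T i a + ent T i' a) -
        (ent T i a + ent T i b + ent T i' a + ent T i' b))

/-- The entries of the table `T` after the `2 × 2` block with rows `i, i'` and columns `a, b` has
been replaced by its `t`-th possible value. -/
def upE (T : List (List ℕ)) (i i' a b t i1 a1 : ℕ) : ℕ :=
  if i = i' ∨ a = b then ent T i1 a1 else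
  let p := ent T i a + ent T i b
  let q := ent T i a + ent T i' a
  let w := ent T i a + ent T i b + ent T i' a + ent T i' b
  let x := (p + q - w) + t
  if i1 = i ∧ a1 = a then x else
  if i1 = i ∧ a1 = b then p - x else
  if i1 = i' ∧ a1 = a then q - x else
  if i1 = i' ∧ a1 = b then w + x - p - q else ent T i1 a1

/-- One step of the chain, driven by the number `U`. -/
def step (r c : List ℕ) (T : List (List ℕ)) (U : ℕ) : List (List ℕ) :=
  let m := r.length
  let n := c.length
  let v := U % (m * (m * (n * n)))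
  let i := v / (m * (n * n))
  let v1 := v % (m * (n * n))
  let i' := v1 / (n * n)
  let v2 := v1 % (n * n)
  let a := v2 / n
  let b := v2 % n
  let t := (U / (m * (m * (n * n)))) % cnt T i i' a b
  mk m n fun i1 a1 => min r.sum (upE T i i' a b t i1 a1)

/-- The step of the algorithm: `ℓ` bits of the tape are read. -/
def stepRaw (r c : List ℕ) (ℓ : ℕ) (s : List (List ℕ) × Raw) : List (List ℕ) × Raw :=
  (step r c s.1 (val (s.2.w.take ℓ)), ⟨s.2.w.drop ℓ⟩)

/-- Inputs: row sums, column sums, and the precision parameter `k` in unary (the error of the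
sampler will be `2⁻ᵏ`). -/
abbrev Input := (List ℕ × List ℕ) × Un

/-- The number of steps (and the number of bits read in every step). -/
def clock (x : Input) : ℕ := (esize x + 2) ^ 8

/-- The algorithm. -/
def sampler (p : Input × Raw) : List (List ℕ) :=
  ((stepRaw p.1.1.1 p.1.1.2 (clock p.1))^[clock p.1]
    (mk p.1.1.1.length p.1.1.2.length (nw p.1.1.1 p.1.1.2), p.2)).1

section PT

variable {A : Set Word} {α : Type*} [Enc α]

theorem PT_ent {T : α → List (List ℕ)} {i a : α → ℕ} (hT : PT A T) (hi : PT A i) (ha : PT A a) :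
    PT A (fun x => ent (T x) (i x) (a x)) :=
  PT.getD (PT.getD hT hi (PT.const [])) ha (PT.const 0)

theorem PT_mk {m n : α → ℕ} {g : α → ℕ → ℕ → ℕ} (hm : PT A m) (hmb : PBd m) (hn : PT A n)
    (hnb : PBd n) (hg : PT A (fun p : (α × ℕ) × ℕ => g p.1.1 p.1.2 p.2)) :
    PT A (fun x => mk (m x) (n x) (g x)) := by
  have h1 : PT A (fun p : α × ℕ => List.range (n p.1)) :=
    PT.range (hn.comp PT.fst') (hnb.comp (PT.fst' (A := A)))
  have h2 : PT A (fun p : α × ℕ => (List.range (n p.1)).map fun a => g p.1 p.2 a) :=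
    PT.map (f := fun (p : α × ℕ) a => g p.1 p.2 a) h1 hg
  exact PT.map (f := fun (x : α) i => (List.range (n x)).map fun a => g x i a)
    (PT.range hm hmb) h2

theorem PT_psum {l : α → List ℕ} {i : α → ℕ} (hl : PT A l) (hi : PT A i) :
    PT A (fun x => psum (l x) (i x)) := PT.sum (PT.take hl hi)

theorem PT_nw {r c : α → List ℕ} {i a : α → ℕ} (hr : PT A r) (hc : PT A c) (hi : PT A i)
    (ha : PT A a) : PT A (fun x => nw (r x) (c x) (i x) (a x)) := by
  have h1 := PT_psum hr (hi.add (PT.const 1))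
  have h2 := PT_psum hr hi
  have h3 := PT_psum hc (ha.add (PT.const 1))
  have h4 := PT_psum hc ha
  exact ((h1.min h3).add (h2.min h4)).sub ((h2.min h3).add (h1.min h4))

theorem PT_cnt {T : α → List (List ℕ)} {i i' a b : α → ℕ} (hT : PT A T) (hi : PT A i)
    (hi' : PT A i') (ha : PT A a) (hb : PT A b) :
    PT A (fun x => cnt (T x) (i x) (i' x) (a x) (b x)) := by
  have h1 := PT_ent hT hi ha
  have h2 := PT_ent hT hi hb
  have h3 := PT_ent hT hi' ha
  have h4 := PT_ent hT hi' hb
  exact PT.ite (PT.decide_or (PT.eqNat hi hi') (PT.eqNat ha hb)) (PT.const 1)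
    ((((h1.add h2).min (h1.add h3)).add (PT.const 1)).sub
      (((h1.add h2).add (h1.add h3)).sub (((h1.add h2).add h3).add h4)))

theorem PT_upE {T : α → List (List ℕ)} {i i' a b t i1 a1 : α → ℕ} (hT : PT A T) (hi : PT A i)
    (hi' : PT A i') (ha : PT A a) (hb : PT A b) (ht : PT A t) (hi1 : PT A i1) (ha1 : PT A a1) :
    PT A (fun x => upE (T x) (i x) (i' x) (a x) (b x) (t x) (i1 x) (a1 x)) := by
  have h1 := PT_ent hT hi ha
  have h2 := PT_ent hT hi hb
  have h3 := PT_ent hT hi' ha
  have h4 := PT_ent hT hi' hb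
  have h5 := PT_ent hT hi1 ha1
  have hp := h1.add h2
  have hq := h1.add h3
  have hw := (hp.add h3).add h4
  have hx := ((hp.add hq).sub hw).add ht
  exact PT.ite (PT.decide_or (PT.eqNat hi hi') (PT.eqNat ha hb)) h5
    (PT.ite (PT.decide_and (PT.eqNat hi1 hi) (PT.eqNat ha1 ha)) hx
      (PT.ite (PT.decide_and (PT.eqNat hi1 hi) (PT.eqNat ha1 hb)) (hp.sub hx)
        (PT.ite (PT.decide_and (PT.eqNat hi1 hi') (PT.eqNat ha1 ha)) (hq.sub hx)
          (PT.ite (PT.decide_and (PT.eqNat hi1 hi') (PT.eqNat ha1 hb))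
            (((hw.add hx).sub hp).sub hq) h5))))

theorem PT_step {r c : α → List ℕ} {T : α → List (List ℕ)} {U : α → ℕ} (hr : PT A r) (hc : PT A c)
    (hT : PT A T) (hU : PT A U) : PT A (fun x => step (r x) (c x) (T x) (U x)) := by
  have hm : PT A (fun x => (r x).length) := hr.length
  have hn : PT A (fun x => (c x).length) := hc.length
  have hnn := hn.mul hn
  have hmnn := hm.mul hnn
  have hB := hm.mul hmnn
  have hv := hU.mod hB
  have hi := hv.div hmnn
  have hv1 := hv.mod hmnn
  have hi' := hv1.div hnn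
  have hv2 := hv1.mod hnn
  have ha := hv2.div hn
  have hb := hv2.mod hn
  have ht := (hU.div hB).mod (PT_cnt hT hi hi' ha hb)
  have c1 : ∀ {β : Type} [Enc β] {f : α → β}, PT A f → PT A (fun p : (α × ℕ) × ℕ => f p.1.1) :=
    fun hf => hf.comp PT.fst'.fst
  exact PT_mk hm (PBd.length hr) hn (PBd.length hc)
    ((PT.sum (c1 hr)).min (PT_upE (c1 hT) (c1 hi) (c1 hi') (c1 ha) (c1 hb) (c1 ht)
      PT.fst'.snd PT.snd'))

theorem PT_stepRaw {r c : α → List ℕ} {ℓ : α → ℕ} {s : α → List (List ℕ) × Raw} (hr : PT A r)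
    (hc : PT A c) (hℓ : PT A ℓ) (hs : PT A s) :
    PT A (fun x => stepRaw (r x) (c x) (ℓ x) (s x)) :=
  (PT_step hr hc hs.fst (PT.rawVal (PT.rawTake hs.snd hℓ))).pair (PT.rawDrop hs.snd hℓ)

theorem PT_clock {x : α → Input} (hx : PT A x) : PT A (fun a => clock (x a)) :=
  (PT.powConst ((PT.size hx).add (PT.const 2)) 8)

theorem PBd_clock {x : α → Input} (hx : PT A x) : PBd (fun a => clock (x a)) :=
  (PBd.add (PBd.esize_comp hx) (PBd.const 2)).pow 8

theorem esize_mk_le (m n N : ℕ) (g : ℕ → ℕ → ℕ) (hg : ∀ i a, g i a ≤ N) :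
    esize (mk m n g) ≤ m * (2 * (n * (2 * esize N + 1)) + 1) := by
  have h1 : ∀ x ∈ mk m n g, esize x ≤ n * (2 * esize N + 1) := by
    intro x hx
    obtain ⟨i, -, rfl⟩ := List.mem_map.1 hx
    refine (esize_list_le (B := esize N) ?_).trans ?_
    · intro y hy
      obtain ⟨a, -, rfl⟩ := List.mem_map.1 hy
      exact esize_nat_mono (hg _ _)
    · rw [List.length_map, List.length_range]
  refine (esize_list_le h1).trans ?_
  rw [mk, List.length_map, List.length_range]

theorem psum_le (l : List ℕ) (i : ℕ) : psum l i ≤ l.sum := by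
  unfold psum
  conv_rhs => rw [← List.take_append_drop i l]
  rw [List.sum_append]
  omega

theorem nw_le (r c : List ℕ) (i a : ℕ) : nw r c i a ≤ 2 * r.sum := by
  unfold nw
  have h1 := psum_le r (i + 1)
  have h2 := psum_le r i
  omega

theorem PT_sampler : PT A sampler := by
  have hx : PT A (fun p : Input × Raw => p.1) := PT.fst'
  have hr : PT A (fun p : Input × Raw => p.1.1.1) := hx.fst.fst
  have hc : PT A (fun p : Input × Raw => p.1.1.2) := hx.fst.snd
  have hk := PT_clock hx
  have hkb := PBd_clock hx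
  have hnw : PT A (fun p : Input × Raw => mk p.1.1.1.length p.1.1.2.length (nw p.1.1.1 p.1.1.2)) :=
    PT_mk hr.length (PBd.length hr) hc.length (PBd.length hc)
      (PT_nw (hr.comp PT.fst'.fst) (hc.comp PT.fst'.fst) PT.fst'.snd PT.snd')
  let c1 : ∀ {β : Type} [Enc β] {f : Input × Raw → β}, PT A f →
    PT A (fun p : (Input × Raw) × (List (List ℕ) × Raw) => f p.1) := fun hf => hf.comp PT.fst'
  have hN : PT A (fun p : Input × Raw => 2 * p.1.1.1.sum) := (PT.const 2).mul (PT.sum hr)
  have hNb := PBd.esize_comp hN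
  have hmb := PBd.length hr
  have hnb := PBd.length hc
  have hρ : PBd (fun p : Input × Raw => esize p.2) :=
    PBd.esize_comp (PT.snd' (A := A))
  refine (PT.iterate' (step := fun (p : Input × Raw) s => stepRaw p.1.1.1 p.1.1.2 (clock p.1) s)
    hk hkb (hnw.pair PT.snd') (PT_stepRaw (c1 hr) (c1 hc) (c1 hk) PT.snd')
    (b := fun p : Input × Raw => 2 * (p.1.1.1.length *
      (2 * (p.1.1.2.length * (2 * esize (2 * p.1.1.1.sum) + 1)) + 1)) + esize p.2 + 1)
    (by fun_prop) ?_).fst
  rintro p j -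
  have key : esize ((stepRaw p.1.1.1 p.1.1.2 (clock p.1))^[j]
      (mk p.1.1.1.length p.1.1.2.length (nw p.1.1.1 p.1.1.2), p.2)).1 ≤
        p.1.1.1.length * (2 * (p.1.1.2.length * (2 * esize (2 * p.1.1.1.sum) + 1)) + 1) ∧
      esize ((stepRaw p.1.1.1 p.1.1.2 (clock p.1))^[j]
      (mk p.1.1.1.length p.1.1.2.length (nw p.1.1.1 p.1.1.2), p.2)).2 ≤ esize p.2 := by
    induction j with
    | zero => exact ⟨esize_mk_le _ _ _ _ (nw_le _ _), le_rfl⟩
    | succ j ih =>
      rw [iterate_succ_apply']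
      refine ⟨esize_mk_le _ _ _ _ fun i a => (min_le_left _ _).trans (by omega), ?_⟩
      refine le_trans ?_ ih.2
      rw [esize_raw, esize_raw]
      simp [stepRaw]
  have := esize_pair ((stepRaw p.1.1.1 p.1.1.2 (clock p.1))^[j]
      (mk p.1.1.1.length p.1.1.2.length (nw p.1.1.1 p.1.1.2), p.2)).1
      ((stepRaw p.1.1.1 p.1.1.2 (clock p.1))^[j]
      (mk p.1.1.1.length p.1.1.2.length (nw p.1.1.1 p.1.1.2), p.2)).2
  simp only [Prod.mk.eta] at this
  rw [this]
  omega

end PT

end Vale.Agent.P328.Alg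
end
end

section

section

/-!
# Abstract approximate tensorization of variance

A finite set `Ω`, symmetric matrices `K p` supported on equivalence relations `r p` with pairwise
trivial intersections, whose sum commutes with all of them.  Then the variance is bounded by the
sum of the conditional variances given the classes of `r p`.
-/

namespace Vale.Agent.P328

open scoped Matrix MatrixOrder Kronecker
open Matrix

/-- Average of `F` over the class of `x` for the relation `s` (uniform measure). -/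
noncomputable def avg {Ω : Type*} [Fintype Ω] (s : Setoid Ω) (F : Ω → ℝ) (x : Ω) : ℝ := by
  classical
  exact (∑ y ∈ Finset.univ.filter (fun y => s x y), F y) /
    ((Finset.univ.filter (fun y => s x y)).card : ℝ)

section Avg

variable {Ω : Type*} [Fintype Ω]

lemma avg_congr {s : Setoid Ω} {F : Ω → ℝ} {x y : Ω} (h : s x y) : avg s F x = avg s F y := by
  classical
  unfold avg
  have : (Finset.univ.filter (fun z => s x z)) = (Finset.univ.filter (fun z => s y z)) := by
    ext z
    simp only [Finset.mem_filter, Finset.mem_univ, true_and]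
    exact ⟨fun hz => s.trans (s.symm h) hz, fun hz => s.trans h hz⟩
  simp only [this]

lemma card_class_ne {s : Setoid Ω} (x : Ω) [DecidablePred fun y => s x y] :
    ((Finset.univ.filter (fun y => s x y)).card : ℝ) ≠ 0 := by
  have : x ∈ Finset.univ.filter (fun y => s x y) := by simp [s.refl x]
  exact_mod_cast (Finset.card_pos.2 ⟨x, this⟩).ne'

/-- Double counting over pairs of related points. -/
lemma sum_class_swap (s : Setoid Ω) (f : Ω → Ω → ℝ) [∀ x, DecidablePred fun y => s x y] :
    ∑ x, ∑ y ∈ Finset.univ.filter (fun y => s x y), f x y =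
      ∑ y, ∑ x ∈ Finset.univ.filter (fun x => s y x), f x y := by
  simp only [Finset.sum_filter]
  rw [Finset.sum_comm]
  refine Finset.sum_congr rfl fun y _ => Finset.sum_congr rfl fun x _ => ?_
  by_cases h : s x y
  · rw [if_pos h, if_pos (s.symm h)]
  · rw [if_neg h, if_neg (fun h' => h (s.symm h'))]

/-- A function constant on classes is orthogonal to a function with vanishing class sums. -/
lemma sum_mul_eq_zero {s : Setoid Ω} {g φ : Ω → ℝ} (hg : ∀ x y, s x y → g x = g y)
    (hφ : ∀ x, avg s φ x = 0) : ∑ x, g x * φ x = 0 := by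
  classical
  have key : ∑ x, ∑ y ∈ Finset.univ.filter (fun y => s x y),
      g x * φ y / ((Finset.univ.filter (fun z => s x z)).card : ℝ) = 0 := by
    refine Finset.sum_eq_zero fun x _ => ?_
    have := hφ x
    unfold avg at this
    rw [div_eq_zero_iff] at this
    rcases this with h | h
    · rw [← Finset.sum_div, ← Finset.mul_sum]
      have : ∑ y ∈ Finset.univ.filter (fun y => s x y), φ y = 0 := by convert h
      rw [this]; simp
    · exact absurd (by convert h) (card_class_ne (s := s) x)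
  rw [sum_class_swap] at key
  rw [← key]
  refine Finset.sum_congr rfl fun y _ => ?_
  have hc : ∀ x ∈ Finset.univ.filter (fun x => s y x),
      g x * φ y / ((Finset.univ.filter (fun z => s x z)).card : ℝ) =
      g y * φ y / ((Finset.univ.filter (fun z => s y z)).card : ℝ) := by
    intro x hx
    simp only [Finset.mem_filter, Finset.mem_univ, true_and] at hx
    have h1 : g x = g y := (hg y x hx).symm
    have h2 : (Finset.univ.filter (fun z => s x z)) = (Finset.univ.filter (fun z => s y z)) := by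
      ext z
      simp only [Finset.mem_filter, Finset.mem_univ, true_and]
      exact ⟨fun hz => s.trans hx hz, fun hz => s.trans (s.symm hx) hz⟩
    rw [h1, h2]
  rw [Finset.sum_congr rfl hc, Finset.sum_const, nsmul_eq_mul]
  have := card_class_ne (s := s) y
  field_simp

/-- `F - avg` has vanishing class averages. -/
lemma avg_sub_avg (s : Setoid Ω) (F : Ω → ℝ) (x : Ω) :
    avg s (fun y => F y - avg s F y) x = 0 := by
  classical
  have h1 : avg s (fun y => F y - avg s F y) x =
      (∑ y ∈ Finset.univ.filter (fun y => s x y), (F y - avg s F y)) /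
    ((Finset.univ.filter (fun y => s x y)).card : ℝ) := by
    rfl
  rw [h1, Finset.sum_sub_distrib]
  have h2 : ∑ y ∈ Finset.univ.filter (fun y => s x y), avg s F y =
      ((Finset.univ.filter (fun y => s x y)).card : ℝ) * avg s F x := by
    rw [← nsmul_eq_mul, ← Finset.sum_const]
    refine Finset.sum_congr rfl fun y hy => ?_
    simp only [Finset.mem_filter, Finset.mem_univ, true_and] at hy
    exact (avg_congr hy).symm
  have h3 : avg s F x = (∑ y ∈ Finset.univ.filter (fun y => s x y), F y) /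
    ((Finset.univ.filter (fun y => s x y)).card : ℝ) := rfl
  rw [h2, h3, mul_div_cancel₀ _ (card_class_ne (s := s) x)]
  simp

end Avg

section Ad

variable {Ω : Type*} [Fintype Ω] [DecidableEq Ω]

/-- The superoperator `B ↦ K B - B K` (for symmetric `K`) as a matrix indexed by pairs. -/
noncomputable def ad (K : Matrix Ω Ω ℝ) : Matrix (Ω × Ω) (Ω × Ω) ℝ := K ⊗ₖ 1 - 1 ⊗ₖ K

lemma ad_apply (K : Matrix Ω Ω ℝ) (a b : Ω × Ω) :
    ad K a b = (if a.2 = b.2 then K a.1 b.1 else 0) - (if a.1 = b.1 then K a.2 b.2 else 0) := by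
  unfold ad
  simp [Matrix.kroneckerMap_apply, Matrix.one_apply]

lemma ad_sum {ι : Type*} (t : Finset ι) (K : ι → Matrix Ω Ω ℝ) :
    ad (∑ p ∈ t, K p) = ∑ p ∈ t, ad (K p) := by
  ext a b
  rw [Matrix.sum_apply]
  simp only [ad_apply, Matrix.sum_apply, Finset.sum_sub_distrib]
  congr 1
  · split_ifs <;> simp
  · split_ifs <;> simp

lemma ad_isSelfAdjoint {K : Matrix Ω Ω ℝ} (hK : K.IsSymm) : IsSelfAdjoint (ad K) := by
  rw [IsSelfAdjoint]
  ext a b
  rw [Matrix.star_apply, ad_apply, ad_apply]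
  simp only [star_trivial]
  rw [hK.apply a.1 b.1, hK.apply a.2 b.2]
  congr 1
  · by_cases h : a.2 = b.2
    · rw [if_pos h, if_pos h.symm]
    · rw [if_neg h, if_neg (fun h' => h h'.symm)]
  · by_cases h : a.1 = b.1
    · rw [if_pos h, if_pos h.symm]
    · rw [if_neg h, if_neg (fun h' => h h'.symm)]

lemma ad_commute {K L : Matrix Ω Ω ℝ} (h : Commute K L) : Commute (ad K) (ad L) := by
  unfold ad Commute SemiconjBy at *
  simp only [sub_mul, mul_sub, ← Matrix.mul_kronecker_mul, one_mul, mul_one]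
  rw [h]
  abel

/-- a function seen as a diagonal operator -/
def dg (u : Ω → ℝ) : Ω × Ω → ℝ := fun a => if a.1 = a.2 then u a.1 else 0

lemma ad_mulVec_dg (K : Matrix Ω Ω ℝ) (hK : K.IsSymm) (u : Ω → ℝ) (a : Ω × Ω) :
    (ad K *ᵥ dg u) a = K a.1 a.2 * (u a.2 - u a.1) := by
  rcases a with ⟨x, y⟩
  simp only [Matrix.mulVec, dotProduct, ad_apply, dg, Fintype.sum_prod_type, sub_mul,
    Finset.sum_sub_distrib, mul_ite, mul_zero, ite_mul, zero_mul, Finset.sum_ite_eq,
    Finset.sum_ite_eq', Finset.mem_univ, if_true]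
  rw [hK.apply]
  ring

/-- multiplication by the indicator of the relation -/
noncomputable def ms (s : Setoid Ω) : Matrix (Ω × Ω) (Ω × Ω) ℝ := by
  classical
  exact Matrix.diagonal (fun a => if s a.1 a.2 then 1 else 0)

lemma ad_commute_ms {K : Matrix Ω Ω ℝ} {s : Setoid Ω} (hK : ∀ x y, ¬ s x y → K x y = 0) :
    Commute (ad K) (ms s) := by
  classical
  unfold Commute SemiconjBy ms
  ext a b
  rw [Matrix.mul_diagonal, Matrix.diagonal_mul, ad_apply]
  rcases a with ⟨a1, a2⟩
  rcases b with ⟨b1, b2⟩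
  simp only
  have h1 : ∀ u v w, s u v → (s u w ↔ s v w) := fun u v w h =>
    ⟨fun h' => s.trans (s.symm h) h', fun h' => s.trans h h'⟩
  have h2 : ∀ u v w, s u v → (s w u ↔ s w v) := fun u v w h =>
    ⟨fun h' => s.trans h' h, fun h' => s.trans h' (s.symm h)⟩
  rw [sub_mul, mul_sub]
  congr 1
  · by_cases h : a2 = b2
    · subst h
      by_cases hs : s a1 b1
      · simp [h1 _ _ _ hs]
      · simp [hK _ _ hs]
    · simp [h]
  · by_cases h : a1 = b1
    · subst h
      by_cases hs : s a2 b2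
      · simp [h2 _ _ _ hs]
      · simp [hK _ _ hs]
    · simp [h]

lemma mulVec_self_nonneg {A : Matrix (Ω × Ω) (Ω × Ω) ℝ} (hA : 0 ≤ A) (v : Ω × Ω → ℝ) :
    0 ≤ v ⬝ᵥ (A *ᵥ v) := by
  have := (Matrix.nonneg_iff_posSemidef.1 hA).dotProduct_mulVec_nonneg v
  simpa using this

end Ad

section Main

variable {Ω ι : Type*} [Fintype Ω] [DecidableEq Ω] [Fintype ι]

/-- `|ad K|`. -/
noncomputable def sa (K : Matrix Ω Ω ℝ) : Matrix (Ω × Ω) (Ω × Ω) ℝ := CFC.abs (ad K)

lemma sa_nonneg (K : Matrix Ω Ω ℝ) : 0 ≤ sa K := CFC.abs_nonneg _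

lemma sa_transpose (K : Matrix Ω Ω ℝ) : (sa K)ᵀ = sa K := by
  have := (Matrix.nonneg_iff_posSemidef.1 (sa_nonneg K)).isHermitian
  rw [Matrix.IsHermitian, Matrix.conjTranspose_eq_transpose_of_trivial] at this
  exact this

lemma sa_mul_self {K : Matrix Ω Ω ℝ} (hK : K.IsSymm) : sa K * sa K = ad K * ad K := by
  unfold sa
  rw [CFC.abs_mul_abs, (ad_isSelfAdjoint hK).star_eq]

lemma le_sa {K : Matrix Ω Ω ℝ} (hK : K.IsSymm) : ad K ≤ sa K := by
  have h := CFC.abs_sub_self (ad K) (ad_isSelfAdjoint hK)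
  rw [← sub_nonneg]
  unfold sa
  rw [h]
  exact nsmul_nonneg (CFC.negPart_nonneg _) 2

lemma neg_sa_le {K : Matrix Ω Ω ℝ} (hK : K.IsSymm) : 0 ≤ sa K + ad K := by
  have h := CFC.abs_add_self (ad K) (ad_isSelfAdjoint hK)
  unfold sa
  rw [h]
  exact nsmul_nonneg (CFC.posPart_nonneg _) 2

lemma sa_commute {K : Matrix Ω Ω ℝ} {B : Matrix (Ω × Ω) (Ω × Ω) ℝ} (h : Commute (ad K) B)
    (hB : star B = B) : Commute (sa K) B := by
  unfold sa
  exact Commute.cfcAbs_left h (by rw [hB]; exact h)

/-- The key inequality: `∑_{p,q} ⟨|A_p| v, |A_q| v⟩ ≥ ∑_{p,q} ⟨A_p v, A_q v⟩`. -/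
lemma key_ineq {K : ι → Matrix Ω Ω ℝ} (hsymm : ∀ p, (K p).IsSymm)
    (hcomm : ∀ p, Commute (∑ q, K q) (K p)) (v : Ω × Ω → ℝ) :
    ∑ p, ∑ q, (ad (K p) *ᵥ v) ⬝ᵥ (ad (K q) *ᵥ v) ≤
      ∑ p, ∑ q, (sa (K p) *ᵥ v) ⬝ᵥ (sa (K q) *ᵥ v) := by
  set A0 := ∑ p, ad (K p) with hA0
  set B := ∑ p, sa (K p) with hB
  have hA0' : A0 = ad (∑ p, K p) := (ad_sum _ _).symm
  have hA0s : A0ᵀ = A0 := by
    rw [hA0, Matrix.transpose_sum]
    refine Finset.sum_congr rfl fun p _ => ?_
    have := (ad_isSelfAdjoint (hsymm p))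
    rw [IsSelfAdjoint, Matrix.star_eq_conjTranspose,
      Matrix.conjTranspose_eq_transpose_of_trivial] at this
    exact this
  have hBs : Bᵀ = B := by
    rw [hB, Matrix.transpose_sum]
    exact Finset.sum_congr rfl fun p _ => sa_transpose _
  have h1 : 0 ≤ B - A0 := by
    rw [hB, hA0, ← Finset.sum_sub_distrib]
    exact Finset.sum_nonneg fun p _ => sub_nonneg.2 (le_sa (hsymm p))
  have h2 : 0 ≤ B + A0 := by
    rw [hB, hA0, ← Finset.sum_add_distrib]
    exact Finset.sum_nonneg fun p _ => neg_sa_le (hsymm p)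
  have hc : Commute B A0 := by
    rw [hB]
    refine Commute.sum_left _ _ _ fun p _ => ?_
    refine sa_commute ?_ ?_
    · rw [hA0']
      exact ad_commute (hcomm p).symm
    · rw [Matrix.star_eq_conjTranspose, Matrix.conjTranspose_eq_transpose_of_trivial, hA0s]
  have h3 : 0 ≤ (B - A0) * (B + A0) := by
    refine Commute.mul_nonneg h1 h2 ?_
    exact ((Commute.refl B).sub_left hc.symm).add_right (hc.sub_left (Commute.refl A0))
  have h4 := mulVec_self_nonneg h3 v
  have h5 : (B - A0) * (B + A0) = B * B - A0 * A0 := by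
    rw [sub_mul, mul_add, mul_add, hc.eq]; abel
  rw [h5, Matrix.sub_mulVec, dotProduct_sub] at h4
  have e1 : ∀ C : Matrix (Ω × Ω) (Ω × Ω) ℝ, Cᵀ = C →
      v ⬝ᵥ ((C * C) *ᵥ v) = (C *ᵥ v) ⬝ᵥ (C *ᵥ v) := by
    intro C hC
    rw [← Matrix.mulVec_mulVec, Matrix.dotProduct_mulVec, ← Matrix.mulVec_transpose, hC]
  rw [e1 B hBs, e1 A0 hA0s] at h4
  have e2 : ∀ f : ι → Matrix (Ω × Ω) (Ω × Ω) ℝ,
      ((∑ p, f p) *ᵥ v) ⬝ᵥ ((∑ p, f p) *ᵥ v) = ∑ p, ∑ q, (f p *ᵥ v) ⬝ᵥ (f q *ᵥ v) := by
    intro f
    rw [Matrix.sum_mulVec, sum_dotProduct]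
    exact Finset.sum_congr rfl fun p _ => dotProduct_sum _ _ _
  rw [hB, hA0, e2, e2] at h4
  linarith

/-- `L_p u`, the diagonal part of `|A_p| (diag u)`. -/
noncomputable def lop (K : Matrix Ω Ω ℝ) (u : Ω → ℝ) (x : Ω) : ℝ := (sa K *ᵥ dg u) (x, x)

lemma ms_mulVec (s : Setoid Ω) (v : Ω × Ω → ℝ) (a : Ω × Ω) [Decidable (s a.1 a.2)] :
    (ms s *ᵥ v) a = if s a.1 a.2 then v a else 0 := by
  classical
  unfold ms
  rw [Matrix.mulVec_diagonal]
  by_cases h : s a.1 a.2
  · rw [if_pos h, if_pos h, one_mul]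
  · rw [if_neg h, if_neg h, zero_mul]

lemma ms_mulVec_dg (s : Setoid Ω) (u : Ω → ℝ) : ms s *ᵥ dg u = dg u := by
  classical
  ext a
  rw [ms_mulVec]
  unfold dg
  by_cases h : a.1 = a.2
  · rw [if_pos (h ▸ s.refl _)]
  · simp [h]

lemma ms_star (s : Setoid Ω) : star (ms s) = ms s := by
  classical
  unfold ms
  rw [Matrix.star_eq_conjTranspose, Matrix.diagonal_conjTranspose]
  congr 1

/-- `|A|(diag u)` is supported on the relation. -/
lemma sa_supp {K : Matrix Ω Ω ℝ} {s : Setoid Ω} (hK : ∀ x y, ¬ s x y → K x y = 0)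
    (u : Ω → ℝ) (a : Ω × Ω) (ha : ¬ s a.1 a.2) : (sa K *ᵥ dg u) a = 0 := by
  classical
  have hc : Commute (sa K) (ms s) := sa_commute (ad_commute_ms hK) (ms_star s)
  have h : ms s *ᵥ (sa K *ᵥ dg u) = sa K *ᵥ dg u := by
    rw [Matrix.mulVec_mulVec, ← hc.eq, ← Matrix.mulVec_mulVec, ms_mulVec_dg]
  rw [← h, ms_mulVec, if_neg ha]

lemma dot_eq_diag {v w : Ω × Ω → ℝ} (h : ∀ a : Ω × Ω, a.1 ≠ a.2 → v a * w a = 0) :
    v ⬝ᵥ w = ∑ x, v (x, x) * w (x, x) := by
  classical
  unfold dotProduct
  rw [Fintype.sum_prod_type]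
  refine Finset.sum_congr rfl fun x _ => ?_
  rw [Finset.sum_eq_single x]
  · intro y _ hy
    exact h (x, y) (by simpa using hy.symm)
  · simp

lemma sa_mulVec_eq_zero {K : Matrix Ω Ω ℝ} (hK : K.IsSymm) {v : Ω × Ω → ℝ}
    (h : ad K *ᵥ v = 0) : sa K *ᵥ v = 0 := by
  have h1 : (sa K *ᵥ v) ⬝ᵥ (sa K *ᵥ v) = 0 := by
    have : (sa K *ᵥ v) ⬝ᵥ (sa K *ᵥ v) = v ⬝ᵥ ((sa K * sa K) *ᵥ v) := by
      rw [← Matrix.mulVec_mulVec, Matrix.dotProduct_mulVec v, ← Matrix.mulVec_transpose,
        sa_transpose]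
    rw [this, sa_mul_self hK, ← Matrix.mulVec_mulVec, h]
    simp
  exact dotProduct_self_eq_zero.1 h1

lemma ad_mulVec_eq_zero {K : Matrix Ω Ω ℝ} (hK : K.IsSymm) {v : Ω × Ω → ℝ}
    (h : v ⬝ᵥ (sa K *ᵥ v) = 0) : ad K *ᵥ v = 0 := by
  have hs : sa K *ᵥ v = 0 := by
    have := (Matrix.PosSemidef.dotProduct_mulVec_zero_iff
      (Matrix.nonneg_iff_posSemidef.1 (sa_nonneg K)) v).1
    simp only [star_trivial] at this
    exact this h
  have ht : (ad K)ᵀ = ad K := by
    have := (ad_isSelfAdjoint hK)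
    rw [IsSelfAdjoint, Matrix.star_eq_conjTranspose,
      Matrix.conjTranspose_eq_transpose_of_trivial] at this
    exact this
  have h1 : (ad K *ᵥ v) ⬝ᵥ (ad K *ᵥ v) = 0 := by
    have : (ad K *ᵥ v) ⬝ᵥ (ad K *ᵥ v) = v ⬝ᵥ ((ad K * ad K) *ᵥ v) := by
      rw [← Matrix.mulVec_mulVec, Matrix.dotProduct_mulVec v, ← Matrix.mulVec_transpose, ht]
    rw [this, ← sa_mul_self hK, ← Matrix.mulVec_mulVec, hs]
    simp
  exact dotProduct_self_eq_zero.1 h1

lemma sum_mul_lop (K : Matrix Ω Ω ℝ) (f u : Ω → ℝ) :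
    ∑ x, f x * lop K u x = dg f ⬝ᵥ (sa K *ᵥ dg u) := by
  rw [dot_eq_diag]
  · simp [dg, lop]
  · intro a ha
    simp [dg, ha]

/-- The class averages of `L_p u` vanish. -/
lemma avg_lop {K : Matrix Ω Ω ℝ} {s : Setoid Ω} (hsymm : K.IsSymm)
    (hK : ∀ x y, ¬ s x y → K x y = 0) (u : Ω → ℝ) (x : Ω) : avg s (lop K u) x = 0 := by
  classical
  set f : Ω → ℝ := fun y => if s x y then 1 else 0 with hf
  have h1 : ad K *ᵥ dg f = 0 := by
    ext a
    rw [ad_mulVec_dg K hsymm]
    by_cases h : s a.1 a.2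
    · have : f a.2 = f a.1 := by
        simp only [hf]
        by_cases h' : s x a.1
        · rw [if_pos h', if_pos (s.trans h' h)]
        · rw [if_neg h', if_neg (fun h'' => h' (s.trans h'' (s.symm h)))]
      simp [this]
    · simp [hK _ _ h]
  have h2 : ∑ y, f y * lop K u y = 0 := by
    rw [sum_mul_lop, Matrix.dotProduct_mulVec, ← Matrix.mulVec_transpose, sa_transpose,
      sa_mulVec_eq_zero hsymm h1]
    simp
  have h3 : ∑ y, f y * lop K u y = ∑ y ∈ Finset.univ.filter (fun y => s x y), lop K u y := by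
    rw [Finset.sum_filter]
    refine Finset.sum_congr rfl fun y _ => ?_
    simp only [hf]
    split_ifs <;> simp
  rw [h3] at h2
  have h4 : avg s (lop K u) x = (∑ y ∈ Finset.univ.filter (fun y => s x y), lop K u y) /
    ((Finset.univ.filter (fun y => s x y)).card : ℝ) := rfl
  rw [h4, h2, zero_div]

/-- Cross terms: `∑_{p ≠ q} ⟨L_p u, L_q u⟩ ≥ 0`, in the form `∑_p |L_p u|² ≤ |∑_p L_p u|²`. -/
lemma sum_sq_lop_le {K : ι → Matrix Ω Ω ℝ} {r : ι → Setoid Ω}
    (hsymm : ∀ p, (K p).IsSymm)
    (hsupp : ∀ p x y, ¬ r p x y → K p x y = 0)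
    (hdisj : ∀ p q, p ≠ q → ∀ x y, r p x y → r q x y → x = y)
    (hcomm : ∀ p, Commute (∑ q, K q) (K p)) (u : Ω → ℝ) :
    ∑ p, ∑ x, (lop (K p) u x) ^ 2 ≤ ∑ x, (∑ p, lop (K p) u x) ^ 2 := by
  classical
  have h := key_ineq hsymm hcomm (dg u)
  -- off-diagonal terms on the left vanish
  have hl : ∀ p q, p ≠ q → (ad (K p) *ᵥ dg u) ⬝ᵥ (ad (K q) *ᵥ dg u) = 0 := by
    intro p q hpq
    unfold dotProduct
    refine Finset.sum_eq_zero fun a _ => ?_
    rw [ad_mulVec_dg _ (hsymm p), ad_mulVec_dg _ (hsymm q)]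
    by_cases h1 : r p a.1 a.2
    · by_cases h2 : r q a.1 a.2
      · have := hdisj p q hpq _ _ h1 h2
        rw [this]; simp
      · rw [hsupp q _ _ h2]; simp
    · rw [hsupp p _ _ h1]; simp
  have hr : ∀ p q, p ≠ q → (sa (K p) *ᵥ dg u) ⬝ᵥ (sa (K q) *ᵥ dg u) =
      ∑ x, lop (K p) u x * lop (K q) u x := by
    intro p q hpq
    rw [dot_eq_diag]
    · rfl
    · intro a ha
      by_cases h1 : r p a.1 a.2
      · by_cases h2 : r q a.1 a.2
        · exact absurd (hdisj p q hpq _ _ h1 h2) ha
        · rw [sa_supp (hsupp q) u a h2]; simp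
      · rw [sa_supp (hsupp p) u a h1]; simp
  have hd : ∀ p, (sa (K p) *ᵥ dg u) ⬝ᵥ (sa (K p) *ᵥ dg u) =
      (ad (K p) *ᵥ dg u) ⬝ᵥ (ad (K p) *ᵥ dg u) := by
    intro p
    have ht : (ad (K p))ᵀ = ad (K p) := by
      have := (ad_isSelfAdjoint (hsymm p))
      rw [IsSelfAdjoint, Matrix.star_eq_conjTranspose,
        Matrix.conjTranspose_eq_transpose_of_trivial] at this
      exact this
    have e1 : (sa (K p) *ᵥ dg u) ⬝ᵥ (sa (K p) *ᵥ dg u) =
        dg u ⬝ᵥ ((sa (K p) * sa (K p)) *ᵥ dg u) := by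
      rw [← Matrix.mulVec_mulVec, Matrix.dotProduct_mulVec (dg u), ← Matrix.mulVec_transpose,
        sa_transpose]
    have e2 : (ad (K p) *ᵥ dg u) ⬝ᵥ (ad (K p) *ᵥ dg u) =
        dg u ⬝ᵥ ((ad (K p) * ad (K p)) *ᵥ dg u) := by
      rw [← Matrix.mulVec_mulVec, Matrix.dotProduct_mulVec (dg u), ← Matrix.mulVec_transpose, ht]
    rw [e1, e2, sa_mul_self (hsymm p)]
  -- split both sides
  have hL : ∑ p, ∑ q, (ad (K p) *ᵥ dg u) ⬝ᵥ (ad (K q) *ᵥ dg u) =
      ∑ p, (ad (K p) *ᵥ dg u) ⬝ᵥ (ad (K p) *ᵥ dg u) := by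
    refine Finset.sum_congr rfl fun p _ => ?_
    exact Finset.sum_eq_single p (fun q _ hq => hl p q (Ne.symm hq)) (by simp)
  have hR : ∑ p, ∑ q, (sa (K p) *ᵥ dg u) ⬝ᵥ (sa (K q) *ᵥ dg u) =
      ∑ p, (ad (K p) *ᵥ dg u) ⬝ᵥ (ad (K p) *ᵥ dg u) +
      (∑ p, ∑ q, ∑ x, lop (K p) u x * lop (K q) u x - ∑ p, ∑ x, (lop (K p) u x) ^ 2) := by
    rw [← Finset.sum_sub_distrib, ← Finset.sum_add_distrib]
    refine Finset.sum_congr rfl fun p _ => ?_
    rw [← Finset.add_sum_erase _ _ (Finset.mem_univ p), hd p, add_right_inj]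
    rw [← Finset.add_sum_erase Finset.univ (fun q => ∑ x, lop (K p) u x * lop (K q) u x)
      (Finset.mem_univ p)]
    have : ∑ x, lop (K p) u x * lop (K p) u x = ∑ x, (lop (K p) u x) ^ 2 :=
      Finset.sum_congr rfl fun x _ => by ring
    rw [this, add_sub_cancel_left]
    exact Finset.sum_congr rfl fun q hq => hr p q (Finset.ne_of_mem_erase hq).symm
  rw [hL, hR] at h
  have hF : ∑ x, (∑ p, lop (K p) u x) ^ 2 = ∑ p, ∑ q, ∑ x, lop (K p) u x * lop (K q) u x := by
    have : ∀ x, (∑ p, lop (K p) u x) ^ 2 = ∑ p, ∑ q, lop (K p) u x * lop (K q) u x := by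
      intro x
      rw [sq, Finset.sum_mul_sum]
    simp only [this]
    rw [Finset.sum_comm]
    refine Finset.sum_congr rfl fun p _ => ?_
    rw [Finset.sum_comm]
  rw [hF]
  linarith

/-- Surjectivity: functions orthogonal to the functions constant on `R`-classes are of the form
`∑ L_p u`. -/
lemma exists_solution {K : ι → Matrix Ω Ω ℝ} {R : Setoid Ω}
    (hsymm : ∀ p, (K p).IsSymm)
    (hconn : ∀ D : Ω → ℝ, (∀ p x y, K p x y ≠ 0 → D x = D y) → ∀ x y, R x y → D x = D y)
    {F : Ω → ℝ} (hF : ∀ x, avg R F x = 0) :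
    ∃ u : Ω → ℝ, ∀ x, ∑ p, lop (K p) u x = F x := by
  classical
  -- the matrix of `∑ L_p`
  set M : Matrix Ω Ω ℝ := fun x y => ∑ p, sa (K p) (x, x) (y, y) with hM
  have hMu : ∀ u x, (M *ᵥ u) x = ∑ p, lop (K p) u x := by
    intro u x
    simp only [Matrix.mulVec, dotProduct, hM, lop, dg, Fintype.sum_prod_type, mul_ite, mul_zero,
      Finset.sum_ite_eq, Finset.mem_univ, if_true, Finset.sum_mul]
    rw [Finset.sum_comm]
  have hMs : M.IsHermitian := by
    rw [Matrix.IsHermitian, Matrix.conjTranspose_eq_transpose_of_trivial]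
    ext x y
    simp only [Matrix.transpose_apply, hM]
    refine Finset.sum_congr rfl fun p _ => ?_
    have := congrFun (congrFun (sa_transpose (K p)) (x, x)) (y, y)
    simpa using this
  have hker : ∀ u, M *ᵥ u = 0 → ∀ x y, R x y → u x = u y := by
    intro u hu
    have h0 : ∑ p, dg u ⬝ᵥ (sa (K p) *ᵥ dg u) = 0 := by
      have : ∑ p, dg u ⬝ᵥ (sa (K p) *ᵥ dg u) = ∑ x, u x * (M *ᵥ u) x := by
        simp only [hMu, Finset.mul_sum]
        rw [Finset.sum_comm]
        exact Finset.sum_congr rfl fun p _ => (sum_mul_lop (K p) u u).symm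
      rw [this, hu]; simp
    have h1 := (Finset.sum_eq_zero_iff_of_nonneg
      (fun p _ => mulVec_self_nonneg (sa_nonneg (K p)) (dg u))).1 h0
    refine hconn u fun p x y hxy => ?_
    have h2 := ad_mulVec_eq_zero (hsymm p) (h1 p (Finset.mem_univ p))
    have h3 := congrFun h2 (x, y)
    rw [ad_mulVec_dg _ (hsymm p)] at h3
    simp only [Pi.zero_apply, mul_eq_zero] at h3
    rcases h3 with h3 | h3
    · exact absurd h3 hxy
    · linarith
  have hsym : (Matrix.toEuclideanLin M).IsSymmetric := Matrix.isHermitian_iff_isSymmetric.1 hMs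
  have hrange : LinearMap.range (Matrix.toEuclideanLin M) =
      (LinearMap.ker (Matrix.toEuclideanLin M))ᗮ := by
    rw [← hsym.orthogonal_range, Submodule.orthogonal_orthogonal]
  have hmem : WithLp.toLp 2 F ∈ LinearMap.range (Matrix.toEuclideanLin M) := by
    rw [hrange, Submodule.mem_orthogonal]
    intro w hw
    rw [LinearMap.mem_ker] at hw
    have hw' : M *ᵥ (WithLp.ofLp w) = 0 := by
      have := congrArg WithLp.ofLp hw
      simpa [Matrix.toEuclideanLin_apply] using this
    have h1 := hker _ hw'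
    have h2 := sum_mul_eq_zero h1 hF
    rw [EuclideanSpace.inner_eq_star_dotProduct]
    simp only [star_trivial, dotProduct]
    rw [← h2]
    exact Finset.sum_congr rfl fun x _ => by ring
  obtain ⟨w, hw⟩ := hmem
  refine ⟨WithLp.ofLp w, fun x => ?_⟩
  rw [← hMu]
  have := congrArg WithLp.ofLp hw
  have := congrFun this x
  simpa [Matrix.toEuclideanLin_apply] using this

/-- **Abstract tensorization theorem.** -/
theorem variance_tensorization {K : ι → Matrix Ω Ω ℝ} {R : Setoid Ω} {r : ι → Setoid Ω}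
    (hsymm : ∀ p, (K p).IsSymm)
    (hsupp : ∀ p x y, ¬ r p x y → K p x y = 0)
    (hdisj : ∀ p q, p ≠ q → ∀ x y, r p x y → r q x y → x = y)
    (hcomm : ∀ p, Commute (∑ q, K q) (K p))
    (hrR : ∀ p x y, r p x y → R x y)
    (hconn : ∀ D : Ω → ℝ, (∀ p x y, K p x y ≠ 0 → D x = D y) → ∀ x y, R x y → D x = D y)
    (F : Ω → ℝ) :
    ∑ x, (F x - avg R F x) ^ 2 ≤ ∑ p, ∑ x, (F x - avg (r p) F x) ^ 2 := by
  classical
  set G : Ω → ℝ := fun x => F x - avg R F x with hG
  obtain ⟨u, hu⟩ := exists_solution (R := R) hsymm hconn (avg_sub_avg R F)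
  have hsq := sum_sq_lop_le (r := r) hsymm hsupp hdisj hcomm u
  have hGG : ∑ x, (∑ p, lop (K p) u x) ^ 2 = ∑ x, G x ^ 2 :=
    Finset.sum_congr rfl fun x _ => by rw [hu x]
  rw [hGG] at hsq
  -- `|G|² = ∑_p ⟨F - avg_p F, L_p u⟩`
  have h1 : ∑ x, G x ^ 2 = ∑ p, ∑ x, (F x - avg (r p) F x) * lop (K p) u x := by
    have e1 : ∑ x, G x ^ 2 = ∑ p, ∑ x, G x * lop (K p) u x := by
      rw [Finset.sum_comm]
      refine Finset.sum_congr rfl fun x _ => ?_
      rw [← Finset.mul_sum, hu x]
      simp only [hG]; ring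
    rw [e1]
    refine Finset.sum_congr rfl fun p _ => ?_
    have z1 : ∑ x, avg R F x * lop (K p) u x = 0 :=
      sum_mul_eq_zero (s := r p) (fun x y h => avg_congr (hrR p x y h))
        (avg_lop (hsymm p) (hsupp p) u)
    have z2 : ∑ x, avg (r p) F x * lop (K p) u x = 0 :=
      sum_mul_eq_zero (s := r p) (fun x y h => avg_congr h) (avg_lop (hsymm p) (hsupp p) u)
    simp only [hG, sub_mul, Finset.sum_sub_distrib, z1, z2]
  -- Cauchy-Schwarz
  have hcs : (∑ p, ∑ x, (F x - avg (r p) F x) * lop (K p) u x) ^ 2 ≤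
      (∑ p, ∑ x, (F x - avg (r p) F x) ^ 2) * (∑ p, ∑ x, (lop (K p) u x) ^ 2) := by
    have := Finset.sum_mul_sq_le_sq_mul_sq (Finset.univ : Finset (ι × Ω))
      (fun a => F a.2 - avg (r a.1) F a.2) (fun a => lop (K a.1) u a.2)
    simpa only [Fintype.sum_prod_type] using this
  rw [← h1] at hcs
  set a := ∑ x, G x ^ 2 with ha
  set b := ∑ p, ∑ x, (F x - avg (r p) F x) ^ 2 with hb
  have ha0 : 0 ≤ a := Finset.sum_nonneg fun x _ => sq_nonneg _
  have hb0 : 0 ≤ b := Finset.sum_nonneg fun p _ => Finset.sum_nonneg fun x _ => sq_nonneg _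
  have h2 : a ^ 2 ≤ b * a := hcs.trans (mul_le_mul_of_nonneg_left hsq hb0)
  rcases ha0.eq_or_lt with h | h
  · rw [← h]; exact hb0
  · nlinarith

end Main

end Vale.Agent.P328
end
end

section

section

/-!
# Boson operators on finitely supported functions of occupation numbers

`Fock α` has the basis `|T⟩`, `T : α → ℕ`.  `ann x` and `cre x` are the usual annihilation and
creation operators, and they satisfy the canonical commutation relations.
-/

namespace Vale.Agent.P328

open Finset

variable {α : Type*} [DecidableEq α]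

/-- finitely supported real functions of occupation numbers -/
abbrev Fock (α : Type*) := (α → ℕ) →₀ ℝ

/-- the unit vector at `x` -/
abbrev un (x : α) : α → ℕ := Pi.single x 1

/-- annihilation operator -/
noncomputable def ann (x : α) : Module.End ℝ (Fock α) :=
  Finsupp.lsum ℝ (fun T : α → ℕ => (Real.sqrt (T x)) • Finsupp.lsingle (T - un x))

/-- creation operator -/
noncomputable def cre (x : α) : Module.End ℝ (Fock α) :=
  Finsupp.lsum ℝ (fun T : α → ℕ => (Real.sqrt ((T x : ℝ) + 1)) • Finsupp.lsingle (T + un x))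

/-- basis vector -/
noncomputable abbrev ket (T : α → ℕ) : Fock α := Finsupp.single T 1

theorem ann_ket (x : α) (T : α → ℕ) :
    ann x (ket T) = (Real.sqrt (T x)) • ket (T - un x) := by
  simp [ann, ket]

theorem cre_ket (x : α) (T : α → ℕ) :
    cre x (ket T) = (Real.sqrt ((T x : ℝ) + 1)) • ket (T + un x) := by
  simp [cre, ket]

theorem end_ext {A B : Module.End ℝ (Fock α)} (h : ∀ T, A (ket T) = B (ket T)) : A = B := by
  apply Finsupp.lhom_ext
  intro T c
  have := h T
  have e : (Finsupp.single T c : Fock α) = c • ket T := by simp [ket]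
  rw [e, map_smul, map_smul, this]

theorem cre_comm (x y : α) : cre x * cre y = cre y * cre x := by
  by_cases hxy : x = y
  · rw [hxy]
  apply end_ext
  intro T
  simp only [Module.End.mul_apply, cre_ket, map_smul, smul_smul]
  have h1 : (T + un y) x = T x := by simp [un, hxy]
  have h2 : (T + un x) y = T y := by simp [un, Ne.symm hxy]
  rw [h1, h2, mul_comm, add_right_comm]

theorem ann_comm (x y : α) : ann x * ann y = ann y * ann x := by
  by_cases hxy : x = y
  · rw [hxy]
  apply end_ext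
  intro T
  simp only [Module.End.mul_apply, ann_ket, map_smul, smul_smul]
  have h1 : (T - un y) x = T x := by simp [un, hxy]
  have h2 : (T - un x) y = T y := by simp [un, Ne.symm hxy]
  rw [h1, h2, mul_comm, tsub_right_comm]

theorem ccr_ne {x y : α} (hxy : x ≠ y) : ann x * cre y = cre y * ann x := by
  apply end_ext
  intro T
  simp only [Module.End.mul_apply, ann_ket, cre_ket, map_smul, smul_smul]
  have h1 : (T + un y) x = T x := by simp [un, hxy]
  have h2 : (T - un x) y = T y := by simp [un, Ne.symm hxy]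
  have h3 : T + un y - un x = T - un x + un y := by
    funext z
    simp only [Pi.sub_apply, Pi.add_apply, un, Pi.single_apply]
    split_ifs with hy hx
    · exact absurd (hx.symm.trans hy) hxy
    · simp
    · simp
    · simp
  rw [h1, h2, h3, mul_comm]

theorem ccr_eq (x : α) : ann x * cre x = cre x * ann x + 1 := by
  apply end_ext
  intro T
  simp only [Module.End.mul_apply, LinearMap.add_apply, Module.End.one_apply, ann_ket, cre_ket,
    map_smul, smul_smul]
  have h1 : (T + un x) x = T x + 1 := by simp [un]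
  have h2 : T + un x - un x = T := by
    funext z; simp
  rw [h1, h2]
  by_cases h0 : T x = 0
  · rw [h0]
    simp
  · have h3 : (T - un x) x = T x - 1 := by simp [un]
    have h4 : T - un x + un x = T := by
      funext z
      simp only [Pi.sub_apply, Pi.add_apply, un, Pi.single_apply]
      split_ifs with hz
      · subst hz; omega
      · simp
    rw [h3, h4]
    have h5 : ((T x - 1 : ℕ) : ℝ) + 1 = T x := by
      rw [Nat.cast_sub (by omega)]; simp
    rw [h5]
    have h6 : Real.sqrt ((T x : ℝ) + 1) * Real.sqrt (((T x + 1 : ℕ)) : ℝ) = T x + 1 := by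
      push_cast
      exact Real.mul_self_sqrt (by positivity)
    have h7 : Real.sqrt (T x : ℝ) * Real.sqrt (T x : ℝ) = T x := Real.mul_self_sqrt (by positivity)
    rw [h6, h7, add_smul, one_smul]

theorem ccr (x y : α) : ann x * cre y = cre y * ann x + if x = y then 1 else 0 := by
  by_cases h : x = y
  · subst h
    rw [if_pos rfl]
    exact ccr_eq x
  · rw [if_neg h, add_zero]
    exact ccr_ne h

end Vale.Agent.P328
end
end

section

section

/-!
# The Casimir element of `gl_n` commutes with the pair operators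

Everything is an identity in an arbitrary ring.
-/

namespace Vale.Agent.P328

open Finset

section CCR

variable {R : Type*} [Ring R] {ι κ : Type*} [DecidableEq ι] [DecidableEq κ]

/-- `E j k = ∑ i ∈ S, b (i, j) * a (i, k)`, the `gl_n` generators in boson form -/
def bilin (S : Finset ι) (a b : ι × κ → R) (j k : κ) : R := ∑ i ∈ S, b (i, j) * a (i, k)

theorem bilin_comm (S : Finset ι) (a b : ι × κ → R)
    (haa : ∀ x y, a x * a y = a y * a x) (hbb : ∀ x y, b x * b y = b y * b x)
    (hab : ∀ x y, a x * b y = b y * a x + if x = y then 1 else 0) (p q s t : κ) :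
    bilin S a b p q * bilin S a b s t - bilin S a b s t * bilin S a b p q =
      (if q = s then bilin S a b p t else 0) - (if p = t then bilin S a b s q else 0) := by
  have key : ∀ i i' : ι, (b (i, p) * a (i, q)) * (b (i', s) * a (i', t))
      - (b (i', s) * a (i', t)) * (b (i, p) * a (i, q)) =
      (if i = i' then (if q = s then b (i, p) * a (i, t) else 0) else 0)
        - (if i = i' then (if p = t then b (i, s) * a (i, q) else 0) else 0) := by
    intro i i'
    have h1 : (b (i, p) * a (i, q)) * (b (i', s) * a (i', t)) =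
        b (i, p) * (a (i, q) * b (i', s)) * a (i', t) := by noncomm_ring
    have h2 : (b (i', s) * a (i', t)) * (b (i, p) * a (i, q)) =
        b (i', s) * (a (i', t) * b (i, p)) * a (i, q) := by noncomm_ring
    rw [h1, h2, hab, hab]
    have h3 : b (i, p) * (b (i', s) * a (i, q) + if (i, q) = (i', s) then 1 else 0) * a (i', t) =
        (b (i, p) * b (i', s)) * (a (i, q) * a (i', t)) +
          (b (i, p) * (if (i, q) = (i', s) then 1 else 0) * a (i', t)) := by noncomm_ring
    have h4 : b (i', s) * (b (i, p) * a (i', t) + if (i', t) = (i, p) then 1 else 0) * a (i, q) =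
        (b (i', s) * b (i, p)) * (a (i', t) * a (i, q)) +
          (b (i', s) * (if (i', t) = (i, p) then 1 else 0) * a (i, q)) := by noncomm_ring
    rw [h3, h4, hbb (i', s) (i, p), haa (i', t) (i, q)]
    by_cases hi : i = i'
    · subst hi
      by_cases hq : q = s
      · subst hq
        by_cases hp : p = t
        · subst hp; simp
        · have : ¬ t = p := fun h => hp h.symm
          simp [hp, this]
      · by_cases hp : p = t
        · subst hp; simp [hq]
        · have : ¬ t = p := fun h => hp h.symm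
          simp [hp, hq, this]
    · have hi' : ¬ i' = i := fun h => hi h.symm
      simp [hi, hi']
  calc bilin S a b p q * bilin S a b s t - bilin S a b s t * bilin S a b p q
      = ∑ i ∈ S, ∑ i' ∈ S, ((b (i, p) * a (i, q)) * (b (i', s) * a (i', t))
          - (b (i', s) * a (i', t)) * (b (i, p) * a (i, q))) := by
        unfold bilin
        rw [Finset.sum_mul_sum, Finset.sum_mul_sum, Finset.sum_comm (s := S) (t := S)
          (f := fun i' i => (b (i', s) * a (i', t)) * (b (i, p) * a (i, q))),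
          ← Finset.sum_sub_distrib]
        refine Finset.sum_congr rfl fun i _ => ?_
        rw [← Finset.sum_sub_distrib]
    _ = ∑ i ∈ S, ∑ i' ∈ S, ((if i = i' then (if q = s then b (i, p) * a (i, t) else 0) else 0)
        - (if i = i' then (if p = t then b (i, s) * a (i, q) else 0) else 0)) := by
        refine Finset.sum_congr rfl fun i _ => Finset.sum_congr rfl fun i' _ => key i i'
    _ = ∑ i ∈ S, ((if q = s then b (i, p) * a (i, t) else 0)
        - (if p = t then b (i, s) * a (i, q) else 0)) := by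
        refine Finset.sum_congr rfl fun i hi => ?_
        simp only [Finset.sum_sub_distrib, Finset.sum_ite_eq, hi, if_true]
    _ = _ := by
        simp only [Finset.sum_sub_distrib]
        unfold bilin
        split_ifs <;> simp

end CCR

section GlPart

variable {R : Type*} [Ring R] {κ : Type*} [Fintype κ] [LinearOrder κ]

/-- pair operator -/
def pairOp (E : κ → κ → R) (p : κ × κ) : R := E p.2 p.1 * E p.1 p.2

/-- the full quadratic Casimir -/
def casimirFull (E : κ → κ → R) : R := ∑ a, ∑ b, E a b * E b a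

/-- commutation relations of `gl_n` -/
def IsGL (E : κ → κ → R) : Prop := ∀ a b c d, E a b * E c d - E c d * E a b =
  (if b = c then E a d else 0) - (if a = d then E c b else 0)

theorem casimirFull_comm {E : κ → κ → R} (h : IsGL E) (c d : κ) :
    Commute (casimirFull E) (E c d) := by
  have key : ∀ a b : κ, (E a b * E b a) * E c d - E c d * (E a b * E b a) =
      (if a = c then E a b * E b d else 0) - (if b = d then E a b * E c a else 0)
      + (if b = c then E a d * E b a else 0) - (if a = d then E c b * E b a else 0) := by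
    intro a b
    have e1 : (E a b * E b a) * E c d - E c d * (E a b * E b a) =
        E a b * (E b a * E c d - E c d * E b a) + (E a b * E c d - E c d * E a b) * E b a := by
      noncomm_ring
    rw [e1, h b a c d, h a b c d]
    split_ifs <;> noncomm_ring
  have : casimirFull E * E c d - E c d * casimirFull E = 0 := by
    unfold casimirFull
    simp only [Finset.sum_mul, Finset.mul_sum]
    simp only [← Finset.sum_sub_distrib]
    calc ∑ a, ∑ b, ((E a b * E b a) * E c d - E c d * (E a b * E b a))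
        = ∑ a, ∑ b, ((if a = c then E a b * E b d else 0) - (if b = d then E a b * E c a else 0)
            + (if b = c then E a d * E b a else 0) - (if a = d then E c b * E b a else 0)) :=
          Finset.sum_congr rfl fun a _ => Finset.sum_congr rfl fun b _ => key a b
      _ = 0 := by
          simp only [Finset.sum_add_distrib, Finset.sum_sub_distrib, Finset.sum_ite_eq',
            Finset.mem_univ, if_true]
          rw [Finset.sum_comm (s := univ) (t := univ)
            (f := fun a b => if a = c then E a b * E b d else 0),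
            Finset.sum_comm (s := univ) (t := univ)
            (f := fun a b => if a = d then E c b * E b a else 0)]
          simp only [Finset.sum_ite_eq', Finset.mem_univ, if_true]
          abel
  exact sub_eq_zero.mp this

theorem diag_comm_pair {E : κ → κ → R} (h : IsGL E) (a : κ) (p : κ × κ) :
    Commute (E a a) (pairOp E p) := by
  obtain ⟨j, k⟩ := p
  have h1 := h a a k j
  have h2 := h a a j k
  have e : E a a * (E k j * E j k) - (E k j * E j k) * E a a =
      (E a a * E k j - E k j * E a a) * E j k + E k j * (E a a * E j k - E j k * E a a) := by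
    noncomm_ring
  have : E a a * (E k j * E j k) - (E k j * E j k) * E a a = 0 := by
    rw [e, h1, h2]
    by_cases hj : a = j
    · by_cases hk : a = k
      · subst hj; subst hk; simp
      · subst hj; simp [hk]
    · by_cases hk : a = k
      · subst hk; simp [hj]
      · simp [hj, hk]
  exact sub_eq_zero.mp this

/-- the set of increasing pairs -/
def incPairs (κ : Type*) [Fintype κ] [LinearOrder κ] : Finset (κ × κ) :=
  univ.filter fun p => p.1 < p.2

theorem casimirFull_eq {E : κ → κ → R} (h : IsGL E) :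
    casimirFull E = (∑ p ∈ incPairs κ, pairOp E p) + (∑ p ∈ incPairs κ, pairOp E p)
      + (∑ p ∈ incPairs κ, (E p.1 p.1 - E p.2 p.2)) + ∑ a, E a a * E a a := by
  have h0 : casimirFull E = ∑ q : κ × κ, E q.1 q.2 * E q.2 q.1 := by
    unfold casimirFull
    rw [← Finset.univ_product_univ, Finset.sum_product]
  have hsplit : ∑ q : κ × κ, E q.1 q.2 * E q.2 q.1 =
      ∑ q ∈ univ.filter (fun q : κ × κ => q.1 < q.2), E q.1 q.2 * E q.2 q.1
      + ∑ q ∈ univ.filter (fun q : κ × κ => q.2 < q.1), E q.1 q.2 * E q.2 q.1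
      + ∑ q ∈ univ.filter (fun q : κ × κ => q.1 = q.2), E q.1 q.2 * E q.2 q.1 := by
    simp only [Finset.sum_filter]
    rw [← Finset.sum_add_distrib, ← Finset.sum_add_distrib]
    refine Finset.sum_congr rfl fun q _ => ?_
    rcases lt_trichotomy q.1 q.2 with hlt | heq | hgt
    · simp [hlt, hlt.ne, hlt.not_gt]
    · simp [heq]
    · simp [hgt, hgt.ne', hgt.not_gt]
  have hswap : ∑ q ∈ univ.filter (fun q : κ × κ => q.2 < q.1), E q.1 q.2 * E q.2 q.1 =
      ∑ p ∈ incPairs κ, pairOp E p := by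
    unfold incPairs pairOp
    refine Finset.sum_bij' (fun q _ => (q.2, q.1)) (fun q _ => (q.2, q.1)) ?_ ?_ ?_ ?_ ?_
    · intro q hq; simpa using hq
    · intro q hq; simpa using hq
    · intro q _; rfl
    · intro q _; rfl
    · intro q _; rfl
  have hdiag : ∑ q ∈ univ.filter (fun q : κ × κ => q.1 = q.2), E q.1 q.2 * E q.2 q.1 =
      ∑ a, E a a * E a a := by
    rw [Finset.sum_filter, ← Finset.univ_product_univ, Finset.sum_product]
    refine Finset.sum_congr rfl fun a _ => ?_
    simp
  have hinc : ∑ q ∈ univ.filter (fun q : κ × κ => q.1 < q.2), E q.1 q.2 * E q.2 q.1 =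
      (∑ p ∈ incPairs κ, pairOp E p) + ∑ p ∈ incPairs κ, (E p.1 p.1 - E p.2 p.2) := by
    unfold incPairs pairOp
    rw [← Finset.sum_add_distrib]
    refine Finset.sum_congr rfl fun q _ => ?_
    have := h q.1 q.2 q.2 q.1
    simp only [if_true] at this
    rw [← this]; abel
  rw [h0, hsplit, hswap, hdiag, hinc]
  abel

theorem two_sum_pair_comm {E : κ → κ → R} (h : IsGL E) (p : κ × κ) :
    Commute ((∑ q ∈ incPairs κ, pairOp E q) + ∑ q ∈ incPairs κ, pairOp E q) (pairOp E p) := by
  have h1 : Commute (casimirFull E) (pairOp E p) :=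
    (casimirFull_comm h _ _).mul_right (casimirFull_comm h _ _)
  have h2 : Commute (∑ q ∈ incPairs κ, (E q.1 q.1 - E q.2 q.2)) (pairOp E p) := by
    apply Commute.sum_left
    intro q _
    exact (diag_comm_pair h _ p).sub_left (diag_comm_pair h _ p)
  have h3 : Commute (∑ a, E a a * E a a) (pairOp E p) := by
    apply Commute.sum_left
    intro a _
    exact (diag_comm_pair h a p).mul_left (diag_comm_pair h a p)
  have e := casimirFull_eq h
  have e' : (∑ q ∈ incPairs κ, pairOp E q) + ∑ q ∈ incPairs κ, pairOp E q =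
      casimirFull E - (∑ q ∈ incPairs κ, (E q.1 q.1 - E q.2 q.2)) - ∑ a, E a a * E a a := by
    rw [e]; abel
  rw [e']
  exact (h1.sub_left h2).sub_left h3

end GlPart

end Vale.Agent.P328
end
end

section

section

/-!
# The pair operators on contingency tables

A table is a function `T : α → ℕ` on cells; the cells are identified with `ι × κ` by an
equivalence `e`.  The elements of `κ` are the *lines* (the objects that come in pairs) and the
elements of `ι` are the *cross-lines*; `S` is a set of cross-lines.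
-/

namespace Vale.Agent.P328

open Finset

variable {ι κ α : Type*} [Fintype ι] [DecidableEq ι] [Fintype κ] [LinearOrder κ] [DecidableEq α]

/-- the `gl` generator `E j k = ∑ i ∈ S, a†(i,j) a(i,k)` -/
noncomputable def EE (e : ι × κ ≃ α) (S : Finset ι) (j k : κ) : Module.End ℝ (Fock α) :=
  bilin S (fun x => ann (e x)) (fun x => cre (e x)) j k

omit [Fintype ι] [Fintype κ] in
theorem EE_isGL (e : ι × κ ≃ α) (S : Finset ι) : IsGL (EE e S) := by
  intro a b c d
  refine bilin_comm S _ _ (fun x y => ann_comm _ _) (fun x y => cre_comm _ _) ?_ a b c d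
  intro x y
  have := ccr (e x) (e y)
  simpa [e.injective.eq_iff] using this

/-- matrix elements of `E j k` -/
noncomputable def mv (e : ι × κ ≃ α) (S : Finset ι) (j k : κ) (U T : α → ℕ) : ℝ :=
  (EE e S j k (ket T)) U

open scoped Classical in
omit [Fintype ι] [Fintype κ] in
theorem mv_eq (e : ι × κ ≃ α) (S : Finset ι) {j k : κ} (hjk : j ≠ k) (U T : α → ℕ) :
    mv e S j k U T = ∑ i ∈ S, if U + un (e (i, k)) = T + un (e (i, j)) then
      Real.sqrt (T (e (i, k))) * Real.sqrt (U (e (i, j))) else 0 := by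
  unfold mv EE bilin
  rw [LinearMap.sum_apply, Finsupp.finsetSum_apply]
  refine Finset.sum_congr rfl fun i _ => ?_
  have hne : e (i, j) ≠ e (i, k) := by
    intro h
    have := e.injective h
    simp only [Prod.mk.injEq, true_and] at this
    exact hjk this
  rw [Module.End.mul_apply, ann_ket, map_smul, cre_ket, smul_smul, Finsupp.smul_apply,
    Finsupp.single_apply]
  have h1 : (T - un (e (i, k))) (e (i, j)) = T (e (i, j)) := by
    simp [un, hne]
  rw [h1]
  by_cases h0 : T (e (i, k)) = 0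
  · simp [h0]
  · by_cases hU : T - un (e (i, k)) + un (e (i, j)) = U
    · have hc : U + un (e (i, k)) = T + un (e (i, j)) := by
        rw [← hU]
        funext x
        simp only [Pi.sub_apply, Pi.add_apply, un, Pi.single_apply]
        split_ifs with h2 h3 h3
        · exact absurd (h3.symm.trans h2) hne
        · subst h2; omega
        · omega
        · omega
      have hv : U (e (i, j)) = T (e (i, j)) + 1 := by
        rw [← hU]
        simp [un, hne]
      rw [if_pos hU, if_pos hc, hv]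
      simp
    · have hc : ¬ (U + un (e (i, k)) = T + un (e (i, j))) := by
        intro hc
        apply hU
        funext x
        have hx := congrFun hc x
        simp only [Pi.sub_apply, Pi.add_apply, un, Pi.single_apply] at hx ⊢
        split_ifs at hx ⊢ with h2 h3 h3
        · exact absurd (h3.symm.trans h2) hne
        · omega
        · omega
        · omega
      rw [if_neg hU, if_neg hc]
      simp

omit [Fintype ι] [Fintype κ] in
theorem mv_symm (e : ι × κ ≃ α) (S : Finset ι) {j k : κ} (hjk : j ≠ k) (U T : α → ℕ) :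
    mv e S j k U T = mv e S k j T U := by
  rw [mv_eq e S hjk, mv_eq e S hjk.symm]
  refine Finset.sum_congr rfl fun i _ => ?_
  by_cases h : U + un (e (i, k)) = T + un (e (i, j))
  · rw [if_pos h, if_pos h.symm, mul_comm]
  · rw [if_neg h, if_neg (fun h' => h h'.symm)]

omit [Fintype ι] [Fintype κ] in
theorem mv_nonneg (e : ι × κ ≃ α) (S : Finset ι) {j k : κ} (hjk : j ≠ k) (U T : α → ℕ) :
    0 ≤ mv e S j k U T := by
  rw [mv_eq e S hjk]
  refine Finset.sum_nonneg fun i _ => ?_
  split_ifs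
  · positivity
  · exact le_rfl

omit [Fintype ι] [Fintype κ] in
theorem mv_pos (e : ι × κ ≃ α) (S : Finset ι) {j k : κ} (hjk : j ≠ k) {U T : α → ℕ} {i : ι}
    (hi : i ∈ S) (h : U + un (e (i, k)) = T + un (e (i, j)))
    (hT : 0 < T (e (i, k))) (hU : 0 < U (e (i, j))) : 0 < mv e S j k U T := by
  rw [mv_eq e S hjk]
  refine Finset.sum_pos' (fun i _ => ?_) ⟨i, hi, ?_⟩
  · split_ifs
    · positivity
    · exact le_rfl
  · rw [if_pos h]
    have h1 : (0 : ℝ) < T (e (i, k)) := by exact_mod_cast hT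
    have h2 : (0 : ℝ) < U (e (i, j)) := by exact_mod_cast hU
    positivity

omit [Fintype ι] [Fintype κ] in
theorem mv_ne_zero (e : ι × κ ≃ α) (S : Finset ι) {j k : κ} (hjk : j ≠ k) {U T : α → ℕ}
    (h : mv e S j k U T ≠ 0) : ∃ i ∈ S, U + un (e (i, k)) = T + un (e (i, j)) := by
  rw [mv_eq e S hjk] at h
  obtain ⟨i, hi, hne⟩ := Finset.exists_ne_zero_of_sum_ne_zero h
  refine ⟨i, hi, ?_⟩
  by_contra hc
  rw [if_neg hc] at hne
  exact hne rfl

omit [DecidableEq α] in
theorem end_apply (A : Module.End ℝ (Fock α)) (f : Fock α) (T : α → ℕ) :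
    (A f) T = ∑ U ∈ f.support, f U * (A (ket U)) T := by
  conv_lhs => rw [← Finsupp.sum_single f]
  rw [Finsupp.sum, map_sum, Finsupp.finsetSum_apply]
  refine Finset.sum_congr rfl fun U _ => ?_
  have e : (Finsupp.single U (f U) : Fock α) = f U • ket U := by simp [ket]
  rw [e, map_smul, Finsupp.smul_apply, smul_eq_mul]

/-- matrix elements of the pair operator -/
noncomputable def KK (e : ι × κ ≃ α) (S : Finset ι) (p : κ × κ) (T T' : α → ℕ) : ℝ :=
  (pairOp (EE e S) p (ket T')) T

omit [Fintype ι] [Fintype κ] in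
theorem KK_eq (e : ι × κ ≃ α) (S : Finset ι) {p : κ × κ} (hp : p.1 ≠ p.2) (T T' : α → ℕ) :
    KK e S p T T' = ∑ U ∈ (EE e S p.1 p.2 (ket T')).support,
      mv e S p.1 p.2 U T' * mv e S p.1 p.2 U T := by
  unfold KK pairOp
  rw [Module.End.mul_apply, end_apply]
  refine Finset.sum_congr rfl fun U _ => ?_
  have : (EE e S p.2 p.1 (ket U)) T = mv e S p.1 p.2 U T := by
    rw [mv_symm e S hp U T]; rfl
  rw [this]; rfl

omit [Fintype ι] [Fintype κ] in
theorem KK_symm (e : ι × κ ≃ α) (S : Finset ι) {p : κ × κ} (hp : p.1 ≠ p.2) (T T' : α → ℕ) :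
    KK e S p T T' = KK e S p T' T := by
  classical
  rw [KK_eq e S hp, KK_eq e S hp]
  have h1 : ∑ U ∈ (EE e S p.1 p.2 (ket T')).support, mv e S p.1 p.2 U T' * mv e S p.1 p.2 U T =
      ∑ U ∈ (EE e S p.1 p.2 (ket T')).support ∪ (EE e S p.1 p.2 (ket T)).support,
        mv e S p.1 p.2 U T' * mv e S p.1 p.2 U T := by
    refine Finset.sum_subset subset_union_left fun U _ hU => ?_
    have : mv e S p.1 p.2 U T' = 0 := by
      simpa [mv] using hU
    rw [this, zero_mul]
  have h2 : ∑ U ∈ (EE e S p.1 p.2 (ket T)).support, mv e S p.1 p.2 U T * mv e S p.1 p.2 U T' =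
      ∑ U ∈ (EE e S p.1 p.2 (ket T')).support ∪ (EE e S p.1 p.2 (ket T)).support,
        mv e S p.1 p.2 U T * mv e S p.1 p.2 U T' := by
    refine Finset.sum_subset subset_union_right fun U _ hU => ?_
    have : mv e S p.1 p.2 U T = 0 := by
      simpa [mv] using hU
    rw [this, zero_mul]
  rw [h1, h2]
  exact Finset.sum_congr rfl fun U _ => mul_comm _ _

omit [Fintype ι] [Fintype κ] in
theorem KK_ne_zero (e : ι × κ ≃ α) (S : Finset ι) {p : κ × κ} (hp : p.1 ≠ p.2) {T T' : α → ℕ}
    (h : KK e S p T T' ≠ 0) : ∃ i ∈ S, ∃ i' ∈ S,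
      T + un (e (i', p.1)) + un (e (i, p.2)) = T' + un (e (i, p.1)) + un (e (i', p.2)) := by
  rw [KK_eq e S hp] at h
  obtain ⟨U, _, hne⟩ := Finset.exists_ne_zero_of_sum_ne_zero h
  obtain ⟨i, hi, h1⟩ := mv_ne_zero e S hp (left_ne_zero_of_mul hne)
  obtain ⟨i', hi', h2⟩ := mv_ne_zero e S hp (right_ne_zero_of_mul hne)
  refine ⟨i, hi, i', hi', ?_⟩
  rw [← h1, ← h2]
  abel

omit [Fintype ι] [Fintype κ] in
theorem KK_pos (e : ι × κ ≃ α) (S : Finset ι) {p : κ × κ} (hp : p.1 ≠ p.2) {T T' U : α → ℕ}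
    (h1 : 0 < mv e S p.1 p.2 U T') (h2 : 0 < mv e S p.1 p.2 U T) : 0 < KK e S p T T' := by
  rw [KK_eq e S hp]
  refine Finset.sum_pos' (fun V _ => mul_nonneg (mv_nonneg e S hp _ _) (mv_nonneg e S hp _ _))
    ⟨U, ?_, mul_pos h1 h2⟩
  rw [Finsupp.mem_support_iff]
  exact h1.ne'

/-- the margins of a table -/
def Marg (e : ι × κ ≃ α) (a : ι → ℕ) (b : κ → ℕ) (T : α → ℕ) : Prop :=
  (∀ i, ∑ j, T (e (i, j)) = a i) ∧ (∀ j, ∑ i, T (e (i, j)) = b j)

omit [DecidableEq ι] in
theorem sum_un_row (e : ι × κ ≃ α) (i i' : ι) (j : κ) [DecidableEq ι] :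
    ∑ l, un (e (i, j)) (e (i', l)) = if i = i' then 1 else 0 := by
  by_cases h : i = i'
  · subst h
    rw [if_pos rfl, Finset.sum_eq_single j]
    · simp [un]
    · intro l _ hl
      have : e (i, l) ≠ e (i, j) := by
        intro h; have := e.injective h; simp only [Prod.mk.injEq, true_and] at this; exact hl this
      simp [un, Pi.single_apply, this]
    · simp
  · rw [if_neg h]
    refine Finset.sum_eq_zero fun l _ => ?_
    have : e (i', l) ≠ e (i, j) := by
      intro h'; have := e.injective h'; simp only [Prod.mk.injEq] at this; exact h this.1.symm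
    simp [un, Pi.single_apply, this]

theorem sum_un_col (e : ι × κ ≃ α) (i : ι) (j l : κ) :
    ∑ i', un (e (i, j)) (e (i', l)) = if j = l then 1 else 0 := by
  by_cases h : j = l
  · subst h
    rw [if_pos rfl, Finset.sum_eq_single i]
    · simp [un]
    · intro i' _ hl
      have : e (i', j) ≠ e (i, j) := by
        intro h; have := e.injective h; simp only [Prod.mk.injEq, and_true] at this; exact hl this
      simp [un, Pi.single_apply, this]
    · simp
  · rw [if_neg h]
    refine Finset.sum_eq_zero fun i' _ => ?_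
    have : e (i', l) ≠ e (i, j) := by
      intro h'; have := e.injective h'; simp only [Prod.mk.injEq] at this; exact h this.2.symm
    simp [un, Pi.single_apply, this]

theorem marg_of_rel (e : ι × κ ≃ α) {a : ι → ℕ} {b : κ → ℕ} {T T' : α → ℕ} {i i' : ι} {j k : κ}
    (h : T + un (e (i', j)) + un (e (i, k)) = T' + un (e (i, j)) + un (e (i', k)))
    (hT : Marg e a b T') : Marg e a b T := by
  constructor
  · intro r
    have h1 : ∑ l, (T + un (e (i', j)) + un (e (i, k))) (e (r, l)) =
        ∑ l, (T' + un (e (i, j)) + un (e (i', k))) (e (r, l)) := by rw [h]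
    simp only [Pi.add_apply, Finset.sum_add_distrib, sum_un_row] at h1
    rw [hT.1 r] at h1
    omega
  · intro l
    have h1 : ∑ r, (T + un (e (i', j)) + un (e (i, k))) (e (r, l)) =
        ∑ r, (T' + un (e (i, j)) + un (e (i', k))) (e (r, l)) := by rw [h]
    simp only [Pi.add_apply, Finset.sum_add_distrib, sum_un_col] at h1
    rw [hT.2 l] at h1
    omega

/-- agreement outside the lines `p.1`, `p.2` restricted to the cross-lines in `S` -/
def Agree (e : ι × κ ≃ α) (S : Finset ι) (p : κ × κ) (T T' : α → ℕ) : Prop :=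
  ∀ x, (∀ i ∈ S, x ≠ e (i, p.1) ∧ x ≠ e (i, p.2)) → T x = T' x

/-- agreement outside the cross-lines in `S` -/
def AgreeOut (e : ι × κ ≃ α) (S : Finset ι) (T T' : α → ℕ) : Prop :=
  ∀ x, (∀ i ∈ S, ∀ j, x ≠ e (i, j)) → T x = T' x

omit [Fintype ι] [Fintype κ] in
theorem agree_of_rel (e : ι × κ ≃ α) (S : Finset ι) {p : κ × κ} {T T' : α → ℕ} {i i' : ι}
    (hi : i ∈ S) (hi' : i' ∈ S)
    (h : T + un (e (i', p.1)) + un (e (i, p.2)) = T' + un (e (i, p.1)) + un (e (i', p.2))) :
    Agree e S p T T' := by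
  intro x hx
  have h1 := congrFun h x
  obtain ⟨h2, h3⟩ := hx i hi
  obtain ⟨h4, h5⟩ := hx i' hi'
  simpa [un, Pi.single_apply, h2, h3, h4, h5] using h1

section Omega

variable (e : ι × κ ≃ α) (S : Finset ι) (a : ι → ℕ) (b : κ → ℕ)
  (P : (α → ℕ) → Prop) (hP : ∀ T, P T ↔ Marg e a b T)

/-- the pair operator as a matrix on the tables with given margins -/
noncomputable def Kmat (p : κ × κ) : Matrix {T // P T} {T // P T} ℝ :=
  fun T T' => KK e S p T.1 T'.1

omit [Fintype ι] [Fintype κ] in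
theorem Kmat_symm {p : κ × κ} (hp : p.1 < p.2) (T T' : {T // P T}) :
    Kmat e S P p T T' = Kmat e S P p T' T := KK_symm e S hp.ne _ _

omit [Fintype ι] [Fintype κ] in
theorem Kmat_supp {p : κ × κ} (hp : p.1 < p.2) {T T' : {T // P T}}
    (h : Kmat e S P p T T' ≠ 0) : Agree e S p T.1 T'.1 := by
  obtain ⟨i, hi, i', hi', h1⟩ := KK_ne_zero e S hp.ne h
  exact agree_of_rel e S hi hi' h1

include hP in
theorem Kmat_mul [Fintype {T // P T}] {p q : κ × κ} (hq : q.1 < q.2) (T T'' : {T // P T}) :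
    (Kmat e S P p * Kmat e S P q) T T'' =
      ((pairOp (EE e S) p * pairOp (EE e S) q) (ket T''.1)) T.1 := by
  rw [Matrix.mul_apply, Module.End.mul_apply, end_apply]
  have hsub : ((pairOp (EE e S) q) (ket T''.1)).support ⊆
      (univ : Finset {T // P T}).map (Function.Embedding.subtype P) := by
    intro U hU
    rw [Finsupp.mem_support_iff] at hU
    obtain ⟨i, hi, i', hi', h1⟩ := KK_ne_zero e S hq.ne hU
    have : P U := (hP U).2 (marg_of_rel e h1 ((hP _).1 T''.2))
    simp only [Finset.mem_map, Finset.mem_univ, true_and, Function.Embedding.subtype_apply]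
    exact ⟨⟨U, this⟩, rfl⟩
  rw [Finset.sum_subset hsub (f := fun U => ((pairOp (EE e S) q) (ket T''.1)) U *
    ((pairOp (EE e S) p) (ket U)) T.1)]
  · rw [Finset.sum_map]
    refine Finset.sum_congr rfl fun U _ => ?_
    simp only [Kmat, KK, Function.Embedding.subtype_apply]
    rw [mul_comm]
  · intro U _ hU
    have : ((pairOp (EE e S) q) (ket T''.1)) U = 0 := by simpa using hU
    rw [this, zero_mul]

include hP in
theorem Kmat_comm [Fintype {T // P T}] {p : κ × κ} (hp : p.1 < p.2) :
    (∑ q ∈ incPairs κ, Kmat e S P q) * Kmat e S P p =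
      Kmat e S P p * ∑ q ∈ incPairs κ, Kmat e S P q := by
  ext T T''
  rw [Finset.sum_mul, Finset.mul_sum, Matrix.sum_apply, Matrix.sum_apply]
  have h1 : ∑ q ∈ incPairs κ, (Kmat e S P q * Kmat e S P p) T T'' =
      (((∑ q ∈ incPairs κ, pairOp (EE e S) q) * pairOp (EE e S) p) (ket T''.1)) T.1 := by
    rw [Finset.sum_mul, LinearMap.sum_apply, Finsupp.finsetSum_apply]
    refine Finset.sum_congr rfl fun q _ => ?_
    exact Kmat_mul e S a b P hP hp T T''
  have h2 : ∑ q ∈ incPairs κ, (Kmat e S P p * Kmat e S P q) T T'' =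
      ((pairOp (EE e S) p * (∑ q ∈ incPairs κ, pairOp (EE e S) q)) (ket T''.1)) T.1 := by
    rw [Finset.mul_sum, LinearMap.sum_apply, Finsupp.finsetSum_apply]
    refine Finset.sum_congr rfl fun q hq => ?_
    have hq' : q.1 < q.2 := by simpa [incPairs] using hq
    exact Kmat_mul e S a b P hP hq' T T''
  rw [h1, h2]
  have h3 := (two_sum_pair_comm (EE_isGL e S) p).eq
  rw [add_mul, mul_add] at h3
  have h4 := congrArg (fun A : Module.End ℝ (Fock α) => (A (ket T''.1)) T.1) h3
  simp only [LinearMap.add_apply, Finsupp.add_apply] at h4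
  linarith

include hP in
theorem agree_inter {p q : κ × κ} (hp : p.1 < p.2) (hq : q.1 < q.2) (hpq : p ≠ q)
    {T T' : {T // P T}} (h1 : Agree e S p T.1 T'.1) (h2 : Agree e S q T.1 T'.1) : T = T' := by
  have hT := (hP _).1 T.2
  have hT' := (hP _).1 T'.2
  -- equality at cells not in the common lines
  have hcell : ∀ i l, (i ∉ S ∨ (l ≠ p.1 ∧ l ≠ p.2) ∨ (l ≠ q.1 ∧ l ≠ q.2)) →
      T.1 (e (i, l)) = T'.1 (e (i, l)) := by
    intro i l h
    rcases h with h | h | h
    · apply h1
      intro i' hi'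
      refine ⟨?_, ?_⟩ <;>
      · intro hc
        have := e.injective hc
        simp only [Prod.mk.injEq] at this
        exact h (this.1 ▸ hi')
    · apply h1
      intro i' _
      refine ⟨?_, ?_⟩
      · intro hc
        have := e.injective hc
        simp only [Prod.mk.injEq] at this
        exact h.1 this.2
      · intro hc
        have := e.injective hc
        simp only [Prod.mk.injEq] at this
        exact h.2 this.2
    · apply h2
      intro i' _
      refine ⟨?_, ?_⟩
      · intro hc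
        have := e.injective hc
        simp only [Prod.mk.injEq] at this
        exact h.1 this.2
      · intro hc
        have := e.injective hc
        simp only [Prod.mk.injEq] at this
        exact h.2 this.2
  apply Subtype.ext
  funext x
  obtain ⟨⟨i, l⟩, rfl⟩ := e.surjective x
  by_cases hc : (i ∉ S ∨ (l ≠ p.1 ∧ l ≠ p.2) ∨ (l ≠ q.1 ∧ l ≠ q.2))
  · exact hcell i l hc
  · have hsum : ∑ j, T.1 (e (i, j)) = ∑ j, T'.1 (e (i, j)) := by rw [hT.1 i, hT'.1 i]
    have hothers : ∀ j, j ≠ l → T.1 (e (i, j)) = T'.1 (e (i, j)) := by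
      intro j hj
      apply hcell
      by_contra hc'
      push Not at hc hc'
      obtain ⟨_, hlp, hlq⟩ := hc
      obtain ⟨_, hjp, hjq⟩ := hc'
      apply hpq
      have hp' : p.1 ≠ p.2 := hp.ne
      have hq' : q.1 ≠ q.2 := hq.ne
      by_cases a1 : l = p.1
      · have a2 : j = p.2 := hjp (fun h => hj (h.trans a1.symm))
        by_cases b1 : l = q.1
        · have b2 : j = q.2 := hjq (fun h => hj (h.trans b1.symm))
          exact Prod.ext (a1.symm.trans b1) (a2.symm.trans b2)
        · have b1' := hlq b1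
          have b2 : j = q.1 := by
            by_contra h
            exact hj ((hjq h).trans b1'.symm)
          exfalso
          rw [← a1, ← a2] at hp
          rw [← b1', ← b2] at hq
          exact lt_asymm hp hq
      · have a1' := hlp a1
        have a2 : j = p.1 := by
          by_contra h
          exact hj ((hjp h).trans a1'.symm)
        by_cases b1 : l = q.1
        · have b2 : j = q.2 := hjq (fun h => hj (h.trans b1.symm))
          exfalso
          rw [← a1', ← a2] at hp
          rw [← b1, ← b2] at hq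
          exact lt_asymm hp hq
        · have b1' := hlq b1
          have b2 : j = q.1 := by
            by_contra h
            exact hj ((hjq h).trans b1'.symm)
          exact Prod.ext (a2.symm.trans b2) (a1'.symm.trans b1')
    rw [← Finset.add_sum_erase univ (fun j => T.1 (e (i, j))) (Finset.mem_univ l),
      ← Finset.add_sum_erase univ (fun j => T'.1 (e (i, j))) (Finset.mem_univ l)] at hsum
    have : ∑ j ∈ univ.erase l, T.1 (e (i, j)) = ∑ j ∈ univ.erase l, T'.1 (e (i, j)) :=
      Finset.sum_congr rfl fun j hj => hothers j (Finset.ne_of_mem_erase hj)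
    rw [this] at hsum
    exact Nat.add_right_cancel hsum

end Omega

end Vale.Agent.P328
end
end

section

section

/-!
# Connectivity of contingency tables under unit switches
-/

namespace Vale.Agent.P328

open Finset

variable {ι κ α : Type*} [Fintype ι] [DecidableEq ι] [Fintype κ] [LinearOrder κ] [DecidableEq α]
variable (e : ι × κ ≃ α) (S : Finset ι) (a : ι → ℕ) (b : κ → ℕ)
  (P : (α → ℕ) → Prop) (hP : ∀ T, P T ↔ Marg e a b T)

/-- a unit switch gives a positive matrix element -/
theorem KK_switch_pos {i i' : ι} (hi : i ∈ S) (hi' : i' ∈ S) {j k : κ} (hjk : j ≠ k)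
    {T T1 U : α → ℕ} (h1 : U + un (e (i', k)) = T + un (e (i', j)))
    (h2 : U + un (e (i, k)) = T1 + un (e (i, j)))
    (p1 : 0 < T (e (i', k))) (p2 : 0 < U (e (i', j)))
    (p3 : 0 < T1 (e (i, k))) (p4 : 0 < U (e (i, j))) : 0 < KK e S (j, k) T1 T :=
  KK_pos e S (p := (j, k)) hjk (mv_pos e S hjk hi' h1 p1 p2) (mv_pos e S hjk hi h2 p3 p4)

include hP in
theorem Kmat_conn (D : {T // P T} → ℝ)
    (hD : ∀ p : κ × κ, p.1 < p.2 → ∀ T T' : {T // P T}, Kmat e S P p T T' ≠ 0 → D T = D T')
    (T T' : {T // P T}) (hTT : AgreeOut e S T.1 T'.1) : D T = D T' := by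
  suffices H : ∀ N : ℕ, ∀ T : {T // P T}, AgreeOut e S T.1 T'.1 →
      ∑ x : ι × κ, (T.1 (e x) - T'.1 (e x)) ≤ N → D T = D T' from H _ T hTT le_rfl
  intro N
  induction N with
  | zero =>
    intro T hA hN
    have hz : ∀ x : ι × κ, T.1 (e x) - T'.1 (e x) = 0 := by
      intro x
      have := (Finset.sum_eq_zero_iff.mp (Nat.le_zero.mp hN)) x (Finset.mem_univ x)
      exact this
    have hle : ∀ x : ι × κ, T.1 (e x) ≤ T'.1 (e x) := fun x => Nat.sub_eq_zero_iff_le.mp (hz x)
    have hT := (hP _).1 T.2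
    have hT' := (hP _).1 T'.2
    have heq : T = T' := by
      apply Subtype.ext
      funext x
      obtain ⟨⟨i, l⟩, rfl⟩ := e.surjective x
      have hs : ∑ j, T.1 (e (i, j)) = ∑ j, T'.1 (e (i, j)) := by rw [hT.1 i, hT'.1 i]
      exact (Finset.sum_eq_sum_iff_of_le (fun j _ => hle (i, j))).mp hs l (Finset.mem_univ l)
    rw [heq]
  | succ N ih =>
    intro T hA hN
    by_cases hTe : T = T'
    · rw [hTe]
    have hT := (hP _).1 T.2
    have hT' := (hP _).1 T'.2
    -- a cell where T is larger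
    obtain ⟨i, j, hij⟩ : ∃ i j, T'.1 (e (i, j)) < T.1 (e (i, j)) := by
      by_contra hc
      push Not at hc
      apply hTe
      apply Subtype.ext
      funext x
      obtain ⟨⟨i, l⟩, rfl⟩ := e.surjective x
      have hs : ∑ j, T.1 (e (i, j)) = ∑ j, T'.1 (e (i, j)) := by rw [hT.1 i, hT'.1 i]
      exact (Finset.sum_eq_sum_iff_of_le (fun j _ => hc i j)).mp hs l (Finset.mem_univ l)
    have hiS : i ∈ S := by
      by_contra h
      have := hA (e (i, j)) (fun i' hi' j' hc => by
        have := e.injective hc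
        simp only [Prod.mk.injEq] at this
        exact h (this.1 ▸ hi'))
      omega
    obtain ⟨i', hi'j⟩ : ∃ i', T.1 (e (i', j)) < T'.1 (e (i', j)) := by
      by_contra hc
      push Not at hc
      have hs : ∑ r, T'.1 (e (r, j)) = ∑ r, T.1 (e (r, j)) := by rw [hT.2 j, hT'.2 j]
      have := (Finset.sum_eq_sum_iff_of_le (fun r _ => hc r)).mp hs i (Finset.mem_univ i)
      omega
    have hi'S : i' ∈ S := by
      by_contra h
      have := hA (e (i', j)) (fun i'' hi'' j' hc => by
        have := e.injective hc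
        simp only [Prod.mk.injEq] at this
        exact h (this.1 ▸ hi''))
      omega
    obtain ⟨k, hi'k⟩ : ∃ k, T'.1 (e (i', k)) < T.1 (e (i', k)) := by
      by_contra hc
      push Not at hc
      have hs : ∑ r, T.1 (e (i', r)) = ∑ r, T'.1 (e (i', r)) := by rw [hT.1 i', hT'.1 i']
      have := (Finset.sum_eq_sum_iff_of_le (fun r _ => hc r)).mp hs j (Finset.mem_univ j)
      omega
    have hjk : j ≠ k := by
      rintro rfl; omega
    have hii : i ≠ i' := by
      rintro rfl; omega
    -- distinctness of the four cells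
    have d1 : e (i, j) ≠ e (i, k) := fun h => hjk (by simpa using e.injective h)
    have d2 : e (i', j) ≠ e (i', k) := fun h => hjk (by simpa using e.injective h)
    have d3 : e (i, j) ≠ e (i', j) := fun h => hii (by simpa using e.injective h)
    have d4 : e (i, k) ≠ e (i', k) := fun h => hii (by simpa using e.injective h)
    have d5 : e (i, j) ≠ e (i', k) := fun h => hii (by
      have := e.injective h; simp only [Prod.mk.injEq] at this; exact this.1)
    have d6 : e (i, k) ≠ e (i', j) := fun h => hii (by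
      have := e.injective h; simp only [Prod.mk.injEq] at this; exact this.1)
    -- the switched table
    set T1 : α → ℕ := fun x => T.1 x + un (e (i', j)) x + un (e (i, k)) x
      - un (e (i, j)) x - un (e (i', k)) x with hT1
    have v1 : T1 (e (i, j)) = T.1 (e (i, j)) - 1 := by
      simp [hT1, un, d1, d3, d5]
    have v2 : T1 (e (i', j)) = T.1 (e (i', j)) + 1 := by
      simp [hT1, un, d2, d3.symm, d6.symm]
    have v3 : T1 (e (i', k)) = T.1 (e (i', k)) - 1 := by
      simp [hT1, un, d2.symm, d4.symm, d5.symm]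
    have v4 : T1 (e (i, k)) = T.1 (e (i, k)) + 1 := by
      simp [hT1, un, d1.symm, d4, d6]
    have v5 : ∀ x, x ≠ e (i, j) → x ≠ e (i', j) → x ≠ e (i', k) → x ≠ e (i, k) →
        T1 x = T.1 x := by
      intro x h1 h2 h3 h4
      simp [hT1, un, h1, h2, h3, h4]
    have hrel : T1 + un (e (i, j)) + un (e (i', k)) = T.1 + un (e (i', j)) + un (e (i, k)) := by
      funext x
      simp only [hT1, Pi.add_apply]
      by_cases x1 : x = e (i, j)
      · subst x1
        simp only [un, Pi.single_apply, d1, d3, d5, if_true, if_false]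
        omega
      · by_cases x2 : x = e (i', k)
        · subst x2
          simp only [un, Pi.single_apply, d2.symm, d4.symm, d5.symm, if_true, if_false]
          omega
        · simp only [un, Pi.single_apply, x1, x2, if_false]
          omega
    have hPT1 : P T1 := by
      apply (hP _).2
      refine marg_of_rel e (i := i') (i' := i) (j := j) (k := k) (T' := T.1) ?_ hT
      exact hrel
    have hDT : D ⟨T1, hPT1⟩ = D T := by
      rcases lt_or_gt_of_ne hjk with hlt | hgt
      · apply hD (j, k) hlt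
        have hpos : 0 < KK e S (j, k) T1 T.1 := by
          refine KK_switch_pos e S hiS hi'S hjk
            (U := fun x => T.1 x + un (e (i', j)) x - un (e (i', k)) x) ?_ ?_ ?_ ?_ ?_ ?_
          · funext x
            simp only [Pi.add_apply]
            by_cases x2 : x = e (i', k)
            · subst x2
              simp only [un, Pi.single_apply, d2.symm, if_true, if_false]
              omega
            · simp only [un, Pi.single_apply, x2, if_false]
              omega
          · funext x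
            simp only [hT1, Pi.add_apply]
            by_cases x1 : x = e (i, j)
            · subst x1
              simp only [un, Pi.single_apply, d1, d3, d5, if_true, if_false]
              omega
            · by_cases x2 : x = e (i', k)
              · subst x2
                simp only [un, Pi.single_apply, d2.symm, d4.symm, d5.symm, if_true, if_false]
                omega
              · simp only [un, Pi.single_apply, x1, x2, if_false]
                omega
          · omega
          · simp [un, d2]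
          · omega
          · simp only [un, Pi.single_apply, d3, d5, if_false]
            omega
        exact hpos.ne'
      · apply hD (k, j) hgt
        have hpos : 0 < KK e S (k, j) T1 T.1 := by
          refine KK_switch_pos e S hi'S hiS hjk.symm
            (U := fun x => T.1 x + un (e (i, k)) x - un (e (i, j)) x) ?_ ?_ ?_ ?_ ?_ ?_
          · funext x
            simp only [Pi.add_apply]
            by_cases x2 : x = e (i, j)
            · subst x2
              simp only [un, Pi.single_apply, d1, if_true, if_false]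
              omega
            · simp only [un, Pi.single_apply, x2, if_false]
              omega
          · funext x
            simp only [hT1, Pi.add_apply]
            by_cases x1 : x = e (i, j)
            · subst x1
              simp only [un, Pi.single_apply, d1, d3, d5, if_true, if_false]
              omega
            · by_cases x2 : x = e (i', k)
              · subst x2
                simp only [un, Pi.single_apply, d2.symm, d4.symm, d5.symm, if_true, if_false]
                omega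
              · simp only [un, Pi.single_apply, x1, x2, if_false]
                omega
          · omega
          · simp [un, d1.symm]
          · omega
          · simp only [un, Pi.single_apply, d4.symm, d5.symm, if_false]
            omega
        exact hpos.ne'
    rw [← hDT]
    apply ih ⟨T1, hPT1⟩
    · intro x hx
      have hx' := hA x hx
      rw [← hx']
      exact v5 x (hx i hiS j) (hx i' hi'S j) (hx i' hi'S k) (hx i hiS k)
    · -- the distance decreases
      have hpt : ∀ x : ι × κ, (T1 (e x) - T'.1 (e x)) + (if x = (i, j) then 1 else 0)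
          + (if x = (i', k) then 1 else 0) ≤
          (T.1 (e x) - T'.1 (e x)) + (if x = (i, k) then 1 else 0) := by
        intro x
        by_cases x1 : x = (i, j)
        · subst x1
          have n1 : ¬ ((i, j) = (i', k)) := fun h => d5 (by rw [h])
          have n2 : ¬ ((i, j) = (i, k)) := fun h => d1 (by rw [h])
          rw [v1, if_pos rfl, if_neg n1, if_neg n2]
          omega
        · by_cases x2 : x = (i', k)
          · subst x2
            have n2 : ¬ ((i', k) = (i, k)) := fun h => d4 (by rw [h])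
            rw [v3, if_neg x1, if_pos rfl, if_neg n2]
            omega
          · by_cases x3 : x = (i, k)
            · subst x3
              rw [v4, if_neg x1, if_neg x2, if_pos rfl]
              omega
            · by_cases x4 : x = (i', j)
              · subst x4
                rw [v2, if_neg x1, if_neg x2, if_neg x3]
                omega
              · rw [v5 (e x) (fun h => x1 (e.injective h)) (fun h => x4 (e.injective h))
                  (fun h => x2 (e.injective h)) (fun h => x3 (e.injective h)),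
                  if_neg x1, if_neg x2, if_neg x3]
      have hsum := Finset.sum_le_sum (fun x (_ : x ∈ (univ : Finset (ι × κ))) => hpt x)
      simp only [Finset.sum_add_distrib, Finset.sum_ite_eq', Finset.mem_univ, if_true] at hsum
      simp only
      omega

end Vale.Agent.P328
end
end

section

section

/-!
Mixing time of a reversible chain on a finite set (uniform stationary law) from its spectral gap,
averaging kernels of equivalence relations, and perturbation by small errors in every step.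
-/

namespace Vale.Agent.P328

open Finset Matrix

section Mixing

set_option linter.unusedSectionVars false

variable {Ω : Type*} [Fintype Ω] [DecidableEq Ω]

/-- Total variation distance of two laws on a finite set, given by their weights. -/
noncomputable def tv (μ ν : Ω → ℝ) : ℝ := (1 / 2) * ∑ x, |μ x - ν x|

theorem tv_triangle (μ ν ξ : Ω → ℝ) : tv μ ξ ≤ tv μ ν + tv ν ξ := by
  unfold tv
  rw [← mul_add, ← Finset.sum_add_distrib]
  gcongr with x _
  have := abs_sub_le (μ x) (ν x) (ξ x)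
  exact this

theorem tv_self (μ : Ω → ℝ) : tv μ μ = 0 := by simp [tv]

/-- Cauchy-Schwarz for a positive semidefinite symmetric matrix. -/
theorem psd_cs (K : Matrix Ω Ω ℝ) (hpsd : ∀ F : Ω → ℝ, 0 ≤ F ⬝ᵥ K *ᵥ F)
    (hsymm : Kᵀ = K) (F G : Ω → ℝ) :
    (F ⬝ᵥ K *ᵥ G) ^ 2 ≤ (F ⬝ᵥ K *ᵥ F) * (G ⬝ᵥ K *ᵥ G) := by
  have hs : ∀ u v : Ω → ℝ, u ⬝ᵥ K *ᵥ v = v ⬝ᵥ K *ᵥ u := by
    intro u v
    rw [dotProduct_mulVec, ← mulVec_transpose, hsymm, dotProduct_comm]
  have key : ∀ s : ℝ, 0 ≤ (G ⬝ᵥ K *ᵥ G) * (s * s) + (2 * (F ⬝ᵥ K *ᵥ G)) * s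
      + (F ⬝ᵥ K *ᵥ F) := by
    intro s
    have h := hpsd (F + s • G)
    rw [mulVec_add, mulVec_smul, dotProduct_add, add_dotProduct, add_dotProduct,
      smul_dotProduct, smul_dotProduct, dotProduct_smul, dotProduct_smul, hs G F] at h
    simp only [smul_eq_mul] at h
    nlinarith [h]
  have := discrim_le_zero key
  unfold discrim at this
  nlinarith [this]

/-- One step of a chain with spectral gap `γ` contracts mean zero functions. -/
theorem contract_one (K : Matrix Ω Ω ℝ) (hsymm : Kᵀ = K)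
    (hpsd : ∀ F : Ω → ℝ, 0 ≤ F ⬝ᵥ K *ᵥ F) (hrow : ∀ x, ∑ y, K x y = 1) {γ : ℝ} (hγ : γ ≤ 1)
    (hgap : ∀ F : Ω → ℝ, ∑ x, F x = 0 → F ⬝ᵥ K *ᵥ F ≤ (1 - γ) * (F ⬝ᵥ F))
    (F : Ω → ℝ) (hF : ∑ x, F x = 0) :
    (∑ x, (K *ᵥ F) x = 0) ∧ (K *ᵥ F) ⬝ᵥ (K *ᵥ F) ≤ (1 - γ) ^ 2 * (F ⬝ᵥ F) := by
  have hmean : ∑ x, (K *ᵥ F) x = 0 := by
    simp only [mulVec, dotProduct]
    rw [Finset.sum_comm]
    rw [← hF]
    refine Finset.sum_congr rfl fun y _ => ?_
    rw [← Finset.sum_mul]
    have : ∑ i, K i y = 1 := by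
      rw [← hrow y]
      refine Finset.sum_congr rfl fun i _ => ?_
      conv_lhs => rw [← hsymm]
      rfl
    rw [this, one_mul]
  refine ⟨hmean, ?_⟩
  have h1 := psd_cs K hpsd hsymm F (K *ᵥ F)
  have h2 : F ⬝ᵥ K *ᵥ (K *ᵥ F) = (K *ᵥ F) ⬝ᵥ (K *ᵥ F) := by
    rw [dotProduct_mulVec F K (K *ᵥ F), ← mulVec_transpose, hsymm]
  have h3 := hgap F hF
  have h4 := hgap (K *ᵥ F) hmean
  have h5 := hpsd F
  have h6 := hpsd (K *ᵥ F)
  rw [h2] at h1
  set d := (K *ᵥ F) ⬝ᵥ (K *ᵥ F) with hd
  set a := F ⬝ᵥ F with ha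
  have ha0 : 0 ≤ a := by
    rw [ha]; simp only [dotProduct]; exact Finset.sum_nonneg fun x _ => mul_self_nonneg _
  have hd0 : 0 ≤ d := by
    rw [hd]; simp only [dotProduct]; exact Finset.sum_nonneg fun x _ => mul_self_nonneg _
  rcases hd0.eq_or_lt with h | h
  · rw [← h]; positivity
  · have hγ' : 0 ≤ 1 - γ := by linarith
    have h7 : d ^ 2 ≤ ((1 - γ) * a) * ((1 - γ) * d) :=
      h1.trans (mul_le_mul h3 h4 h6 (by positivity))
    have h8 : d * d ≤ ((1 - γ) ^ 2 * a) * d := by nlinarith [h7]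
    exact le_of_mul_le_mul_right h8 h

theorem contract_pow (K : Matrix Ω Ω ℝ) (hsymm : Kᵀ = K)
    (hpsd : ∀ F : Ω → ℝ, 0 ≤ F ⬝ᵥ K *ᵥ F) (hrow : ∀ x, ∑ y, K x y = 1) {γ : ℝ} (hγ : γ ≤ 1)
    (hgap : ∀ F : Ω → ℝ, ∑ x, F x = 0 → F ⬝ᵥ K *ᵥ F ≤ (1 - γ) * (F ⬝ᵥ F))
    (F : Ω → ℝ) (hF : ∑ x, F x = 0) (t : ℕ) :
    (∑ x, ((K ^ t) *ᵥ F) x = 0) ∧
      ((K ^ t) *ᵥ F) ⬝ᵥ ((K ^ t) *ᵥ F) ≤ ((1 - γ) ^ t) ^ 2 * (F ⬝ᵥ F) := by
  induction t with
  | zero => simp [hF]
  | succ t ih =>
    have h := contract_one K hsymm hpsd hrow hγ hgap _ ih.1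
    rw [mulVec_mulVec, ← pow_succ'] at h
    refine ⟨h.1, h.2.trans ?_⟩
    calc (1 - γ) ^ 2 * (((K ^ t) *ᵥ F) ⬝ᵥ ((K ^ t) *ᵥ F))
        ≤ (1 - γ) ^ 2 * (((1 - γ) ^ t) ^ 2 * (F ⬝ᵥ F)) := by
          gcongr
          exact ih.2
      _ = ((1 - γ) ^ (t + 1)) ^ 2 * (F ⬝ᵥ F) := by ring

/-- **Mixing from the spectral gap.** -/
theorem tv_pow_le [Nonempty Ω] (K : Matrix Ω Ω ℝ) (hsymm : Kᵀ = K)
    (hpsd : ∀ F : Ω → ℝ, 0 ≤ F ⬝ᵥ K *ᵥ F) (hrow : ∀ x, ∑ y, K x y = 1) {γ : ℝ} (hγ : γ ≤ 1)
    (hgap : ∀ F : Ω → ℝ, ∑ x, F x = 0 → F ⬝ᵥ K *ᵥ F ≤ (1 - γ) * (F ⬝ᵥ F))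
    (x₀ : Ω) (t : ℕ) :
    tv (fun y => (K ^ t) x₀ y) (fun _ => 1 / (Fintype.card Ω : ℝ)) ≤
      (1 / 2) * (√(Fintype.card Ω) * (1 - γ) ^ t) := by
  have hN : (0 : ℝ) < Fintype.card Ω := by exact_mod_cast Fintype.card_pos
  set N : ℝ := (Fintype.card Ω : ℝ) with hNdef
  let F : Ω → ℝ := fun x => (if x = x₀ then 1 else 0) - 1 / N
  have hF : ∑ x, F x = 0 := by
    simp only [F, Finset.sum_sub_distrib, Finset.sum_ite_eq', Finset.mem_univ, if_true,
      Finset.sum_const, Finset.card_univ, nsmul_eq_mul]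
    rw [← hNdef]; field_simp; ring
  have hFF : F ⬝ᵥ F ≤ 1 := by
    have : F ⬝ᵥ F = 1 - 1 / N := by
      simp only [dotProduct, F]
      have : ∀ x : Ω, ((if x = x₀ then (1:ℝ) else 0) - 1 / N) * ((if x = x₀ then 1 else 0) - 1 / N)
          = (if x = x₀ then 1 - 2 / N else 0) + 1 / N ^ 2 := by
        intro x; split_ifs <;> field_simp <;> ring
      simp only [this, Finset.sum_add_distrib, Finset.sum_ite_eq', Finset.mem_univ, if_true,
        Finset.sum_const, Finset.card_univ, nsmul_eq_mul]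
      rw [← hNdef]; field_simp; ring
    rw [this]
    have : 0 < 1 / N := by positivity
    linarith
  have hrowt : ∀ t : ℕ, ∀ x, ∑ y, (K ^ t) x y = 1 := by
    intro t
    induction t with
    | zero => intro x; simp [Matrix.one_apply]
    | succ t ih =>
      intro x
      simp only [pow_succ', Matrix.mul_apply]
      rw [Finset.sum_comm]
      simp only [← Finset.mul_sum, ih, mul_one]
      exact hrow x
  have hsymmt : ∀ x y, (K ^ t) x y = (K ^ t) y x := by
    intro x y
    have : (K ^ t)ᵀ = K ^ t := by rw [Matrix.transpose_pow, hsymm]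
    conv_lhs => rw [← this]
    rfl
  have hval : ∀ y, ((K ^ t) *ᵥ F) y = (K ^ t) x₀ y - 1 / N := by
    intro y
    simp only [mulVec, dotProduct, F, mul_sub, Finset.sum_sub_distrib, mul_ite, mul_one, mul_zero,
      Finset.sum_ite_eq', Finset.mem_univ, if_true, ← Finset.sum_mul, hrowt, one_mul]
    rw [hsymmt]
  have hc := (contract_pow K hsymm hpsd hrow hγ hgap F hF t).2
  have h1 : ∑ y, ((K ^ t) x₀ y - 1 / N) ^ 2 ≤ ((1 - γ) ^ t) ^ 2 := by
    calc ∑ y, ((K ^ t) x₀ y - 1 / N) ^ 2 = ((K ^ t) *ᵥ F) ⬝ᵥ ((K ^ t) *ᵥ F) := by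
          simp only [dotProduct, hval]
          exact Finset.sum_congr rfl fun y _ => by ring
      _ ≤ ((1 - γ) ^ t) ^ 2 * (F ⬝ᵥ F) := hc
      _ ≤ ((1 - γ) ^ t) ^ 2 * 1 := by gcongr
      _ = _ := by ring
  have h2 : (∑ y, |(K ^ t) x₀ y - 1 / N|) ^ 2 ≤ N * ∑ y, ((K ^ t) x₀ y - 1 / N) ^ 2 := by
    have := sq_sum_le_card_mul_sum_sq (s := (univ : Finset Ω))
      (f := fun y => |(K ^ t) x₀ y - 1 / N|)
    simpa [sq_abs, Finset.card_univ, hNdef] using this
  have hγ' : 0 ≤ 1 - γ := by linarith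
  have h3 : ∑ y, |(K ^ t) x₀ y - 1 / N| ≤ √N * (1 - γ) ^ t := by
    apply le_of_sq_le_sq _ (by positivity)
    calc (∑ y, |(K ^ t) x₀ y - 1 / N|) ^ 2 ≤ N * ∑ y, ((K ^ t) x₀ y - 1 / N) ^ 2 := h2
      _ ≤ N * ((1 - γ) ^ t) ^ 2 := by gcongr
      _ = (√N * (1 - γ) ^ t) ^ 2 := by
          rw [mul_pow, Real.sq_sqrt hN.le]
  unfold tv
  gcongr

end Mixing

section Average

set_option linter.unusedSectionVars false

variable {Ω : Type*} [Fintype Ω] [DecidableEq Ω]

open Classical in
/-- The equivalence class of `x`. -/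
noncomputable def cls (r : Setoid Ω) (x : Ω) : Finset Ω := univ.filter fun z => r x z

theorem mem_cls {r : Setoid Ω} {x y : Ω} : y ∈ cls r x ↔ r x y := by
  classical
  simp [cls]

open Classical in
/-- The transition matrix of resampling uniformly in the equivalence class. -/
noncomputable def avgKer (r : Setoid Ω) : Matrix Ω Ω ℝ := fun x y =>
  if y ∈ cls r x then 1 / ((cls r x).card : ℝ) else 0

theorem card_class_pos (r : Setoid Ω) (x : Ω) :
    (0 : ℝ) < ((cls r x).card : ℝ) := by
  exact_mod_cast Finset.card_pos.2 ⟨x, mem_cls.2 (r.refl' x)⟩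

theorem cls_eq (r : Setoid Ω) {x y : Ω} (h : r x y) :
    cls r x = cls r y := by
  ext z
  simp only [mem_cls]
  exact ⟨fun hz => r.trans' (r.symm' h) hz, fun hz => r.trans' h hz⟩

theorem avgKer_symm (r : Setoid Ω) : (avgKer r)ᵀ = avgKer r := by
  classical
  ext x y
  simp only [transpose_apply, avgKer, mem_cls]
  by_cases h : r x y
  · rw [if_pos h, if_pos (r.symm' h), cls_eq r h]
  · rw [if_neg h, if_neg (fun h' => h (r.symm' h'))]

theorem avgKer_row (r : Setoid Ω) (x : Ω) : ∑ y, avgKer r x y = 1 := by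
  classical
  have := card_class_pos r x
  simp only [avgKer]
  rw [← Finset.sum_filter, Finset.filter_mem_eq_inter, Finset.univ_inter, Finset.sum_const,
    nsmul_eq_mul]
  field_simp

theorem avgKer_nonneg (r : Setoid Ω) (x y : Ω) : 0 ≤ avgKer r x y := by
  unfold avgKer; split_ifs <;> positivity

theorem avgKer_mulVec (r : Setoid Ω) (F : Ω → ℝ) (x : Ω) :
    (avgKer r *ᵥ F) x = (∑ y ∈ cls r x, F y) /
      ((cls r x).card : ℝ) := by
  classical
  simp only [mulVec, dotProduct, avgKer, ite_mul, zero_mul]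
  rw [← Finset.sum_filter, Finset.filter_mem_eq_inter, Finset.univ_inter, Finset.sum_div]
  refine Finset.sum_congr rfl fun y _ => by ring

theorem avgKer_mulVec_congr (r : Setoid Ω) (F : Ω → ℝ) {x y : Ω} (h : r x y) :
    (avgKer r *ᵥ F) x = (avgKer r *ᵥ F) y := by
  rw [avgKer_mulVec, avgKer_mulVec, cls_eq r h]

theorem avgKer_idem (r : Setoid Ω) (F : Ω → ℝ) :
    avgKer r *ᵥ (avgKer r *ᵥ F) = avgKer r *ᵥ F := by
  classical
  ext x
  rw [avgKer_mulVec]
  have : ∀ y ∈ cls r x, (avgKer r *ᵥ F) y = (avgKer r *ᵥ F) x := by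
    intro y hy
    exact (avgKer_mulVec_congr r F (mem_cls.1 hy)).symm
  rw [Finset.sum_congr rfl this, Finset.sum_const, nsmul_eq_mul]
  have := card_class_pos r x
  field_simp

/-- `⟨F, M F⟩ = ‖M F‖²` for an averaging kernel. -/
theorem avgKer_form (r : Setoid Ω) (F : Ω → ℝ) :
    F ⬝ᵥ avgKer r *ᵥ F = (avgKer r *ᵥ F) ⬝ᵥ (avgKer r *ᵥ F) := by
  conv_lhs => rw [← avgKer_idem]
  rw [dotProduct_mulVec F (avgKer r) (avgKer r *ᵥ F), ← mulVec_transpose, avgKer_symm]

theorem avgKer_psd (r : Setoid Ω) (F : Ω → ℝ) : 0 ≤ F ⬝ᵥ avgKer r *ᵥ F := by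
  rw [avgKer_form]
  exact Finset.sum_nonneg fun x _ => mul_self_nonneg _

/-- `∑ (F - M F)² = ∑ F² - ⟨F, M F⟩`. -/
theorem avgKer_dirichlet (r : Setoid Ω) (F : Ω → ℝ) :
    ∑ x, (F x - (avgKer r *ᵥ F) x) ^ 2 = F ⬝ᵥ F - F ⬝ᵥ avgKer r *ᵥ F := by
  have h := avgKer_form r F
  have e : ∑ x, (F x - (avgKer r *ᵥ F) x) ^ 2 =
      F ⬝ᵥ F - 2 * (F ⬝ᵥ avgKer r *ᵥ F) + (avgKer r *ᵥ F) ⬝ᵥ (avgKer r *ᵥ F) := by
    simp only [dotProduct]
    rw [Finset.mul_sum, ← Finset.sum_sub_distrib, ← Finset.sum_add_distrib]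
    exact Finset.sum_congr rfl fun x _ => by ring
  rw [e, ← h]; ring

variable {ι : Type*} [Fintype ι]

/-- The transition matrix of: choose `i : ι` uniformly, then resample uniformly in the class of
`r i`. -/
noncomputable def mixKer (r : ι → Setoid Ω) : Matrix Ω Ω ℝ := fun x y =>
  (1 / (Fintype.card ι : ℝ)) * ∑ i, avgKer (r i) x y

theorem mixKer_symm (r : ι → Setoid Ω) : (mixKer r)ᵀ = mixKer r := by
  ext x y
  simp only [transpose_apply, mixKer]
  congr 1
  refine Finset.sum_congr rfl fun i _ => ?_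
  conv_lhs => rw [← avgKer_symm]
  rfl

theorem mixKer_nonneg (r : ι → Setoid Ω) (x y : Ω) : 0 ≤ mixKer r x y := by
  unfold mixKer
  exact mul_nonneg (by positivity) (Finset.sum_nonneg fun i _ => avgKer_nonneg _ _ _)

theorem mixKer_row [Nonempty ι] (r : ι → Setoid Ω) (x : Ω) : ∑ y, mixKer r x y = 1 := by
  simp only [mixKer]
  rw [← Finset.mul_sum, Finset.sum_comm]
  simp only [avgKer_row, Finset.sum_const, Finset.card_univ, nsmul_eq_mul, mul_one]
  have : (Fintype.card ι : ℝ) ≠ 0 := by exact_mod_cast Fintype.card_ne_zero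
  field_simp

theorem mixKer_form (r : ι → Setoid Ω) (F : Ω → ℝ) :
    F ⬝ᵥ mixKer r *ᵥ F = (1 / (Fintype.card ι : ℝ)) * ∑ i, F ⬝ᵥ avgKer (r i) *ᵥ F := by
  have : mixKer r *ᵥ F = (1 / (Fintype.card ι : ℝ)) • ∑ i, avgKer (r i) *ᵥ F := by
    ext x
    simp only [mulVec, dotProduct, mixKer, Pi.smul_apply, smul_eq_mul, Finset.sum_apply,
      Finset.mul_sum, Finset.sum_mul]
    rw [Finset.sum_comm]
    refine Finset.sum_congr rfl fun i _ => Finset.sum_congr rfl fun y _ => by ring
  rw [this, dotProduct_smul, smul_eq_mul, dotProduct_sum]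

theorem mixKer_psd (r : ι → Setoid Ω) (F : Ω → ℝ) : 0 ≤ F ⬝ᵥ mixKer r *ᵥ F := by
  rw [mixKer_form]
  exact mul_nonneg (by positivity) (Finset.sum_nonneg fun i _ => avgKer_psd _ _)

/-- **Mixing of the resampling chain.** If the variance of every mean zero function is at most
`(1/c)` times the sum over `i` of the mean conditional variances given the class of `r i`, then the
chain that chooses `i` uniformly and resamples uniformly in the class of `r i` satisfies
`TV ≤ ½ √|Ω| (1 - c/|ι|)^t`. -/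
theorem tv_mixKer_pow_le [Nonempty Ω] [Nonempty ι] (r : ι → Setoid Ω) {c : ℝ}
    (hc : c ≤ Fintype.card ι)
    (hgap : ∀ F : Ω → ℝ, ∑ x, F x = 0 →
      c * ∑ x, F x ^ 2 ≤ ∑ i, ∑ x, (F x - (avgKer (r i) *ᵥ F) x) ^ 2)
    (x₀ : Ω) (t : ℕ) :
    tv (fun y => (mixKer r ^ t) x₀ y) (fun _ => 1 / (Fintype.card Ω : ℝ)) ≤
      (1 / 2) * (√(Fintype.card Ω) * (1 - c / Fintype.card ι) ^ t) := by
  have hι : (0 : ℝ) < Fintype.card ι := by exact_mod_cast Fintype.card_pos
  refine tv_pow_le (mixKer r) (mixKer_symm r) (mixKer_psd r) (mixKer_row r) ?_ ?_ x₀ t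
  · rw [div_le_one hι]; exact hc
  · intro F hF
    have h := hgap F hF
    simp only [avgKer_dirichlet, Finset.sum_sub_distrib, Finset.sum_const, Finset.card_univ,
      nsmul_eq_mul] at h
    have e : F ⬝ᵥ F = ∑ x, F x ^ 2 := by
      simp only [dotProduct]; exact Finset.sum_congr rfl fun x _ => by ring
    rw [← e] at h
    rw [mixKer_form]
    have : (1 / (Fintype.card ι : ℝ)) * ∑ i, F ⬝ᵥ avgKer (r i) *ᵥ F ≤
        (1 / (Fintype.card ι : ℝ)) * ((Fintype.card ι : ℝ) * (F ⬝ᵥ F) - c * (F ⬝ᵥ F)) := by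
      gcongr
      linarith
    refine this.trans (le_of_eq ?_)
    field_simp

end Average

end Vale.Agent.P328
end
end

section

section

/-!
# Spectral gap of the 2 × 2 heat-bath chain on contingency tables
-/

namespace Vale.Agent.P328

open Finset

section General

variable {ι κ α : Type*} [Fintype ι] [DecidableEq ι] [Fintype κ] [LinearOrder κ] [DecidableEq α]
variable (e : ι × κ ≃ α) (S : Finset ι) (a : ι → ℕ) (b : κ → ℕ)
  (P : (α → ℕ) → Prop) (hP : ∀ T, P T ↔ Marg e a b T)

/-- agreement outside the cross-lines in `S`, as a setoid on tables -/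
def outSetoid (e : ι × κ ≃ α) (S : Finset ι) (P : (α → ℕ) → Prop) : Setoid {T // P T} where
  r T T' := AgreeOut e S T.1 T'.1
  iseqv := ⟨fun _ _ _ => rfl, fun h x hx => (h x hx).symm,
    fun h h' x hx => (h x hx).trans (h' x hx)⟩

/-- agreement outside two lines restricted to `S`, as a setoid on tables -/
def pairSetoid (e : ι × κ ≃ α) (S : Finset ι) (P : (α → ℕ) → Prop) (p : κ × κ) :
    Setoid {T // P T} where
  r T T' := Agree e S p T.1 T'.1
  iseqv := ⟨fun _ _ _ => rfl, fun h x hx => (h x hx).symm,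
    fun h h' x hx => (h x hx).trans (h' x hx)⟩

theorem sum_incPairs {M : Type*} [AddCommMonoid M] (f : κ × κ → M) :
    ∑ p : {p : κ × κ // p.1 < p.2}, f p.1 = ∑ p ∈ incPairs κ, f p := by
  unfold incPairs
  rw [Finset.sum_subtype (p := fun p : κ × κ => p.1 < p.2)]
  intro p
  simp

include hP in
/-- one step of the tensorization: lines in pairs, cross-lines restricted to `S` -/
theorem step_ineq [Fintype {T // P T}] (F : {T // P T} → ℝ) :
    ∑ x, (F x - avg (outSetoid e S P) F x) ^ 2 ≤
      ∑ p : {p : κ × κ // p.1 < p.2}, ∑ x, (F x - avg (pairSetoid e S P p.1) F x) ^ 2 := by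
  classical
  refine variance_tensorization (K := fun p : {p : κ × κ // p.1 < p.2} => Kmat e S P p.1)
    (R := outSetoid e S P) (r := fun p => pairSetoid e S P p.1) ?_ ?_ ?_ ?_ ?_ ?_ F
  · intro p
    ext T T'
    exact Kmat_symm e S P p.2 T' T
  · intro p T T' h
    by_contra hc
    exact h (Kmat_supp e S P p.2 hc)
  · intro p q hpq T T' h1 h2
    exact agree_inter e S a b P hP p.2 q.2 (fun h => hpq (Subtype.ext h)) h1 h2
  · intro p
    rw [sum_incPairs (fun q => Kmat e S P q)]
    exact Kmat_comm e S a b P hP p.2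
  · intro p T T' h x hx
    exact h x (fun i hi => ⟨hx i hi _, hx i hi _⟩)
  · intro D hD T T' h
    exact Kmat_conn e S a b P hP D (fun p hp T T' hne => hD ⟨p, hp⟩ T T' hne) T T' h

end General

section Tables

variable {m n : ℕ}

/-- contingency tables with row sums `r` and column sums `c` -/
def Tables (r : Fin m → ℕ) (c : Fin n → ℕ) : Type :=
  {X : Fin m → Fin n → ℕ // (∀ i, ∑ j, X i j = r i) ∧ (∀ j, ∑ i, X i j = c j)}

theorem tables_finite (r : Fin m → ℕ) (c : Fin n → ℕ) :
    {X : Fin m → Fin n → ℕ | (∀ i, ∑ j, X i j = r i) ∧ (∀ j, ∑ i, X i j = c j)}.Finite := by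
  apply (Set.finite_Iic (fun (i : Fin m) (_ : Fin n) => r i)).subset
  intro X hX i j
  show X i j ≤ r i
  rw [← hX.1 i]
  exact Finset.single_le_sum (f := fun j => X i j) (fun _ _ => Nat.zero_le _) (Finset.mem_univ j)

noncomputable instance (r : Fin m → ℕ) (c : Fin n → ℕ) : Fintype (Tables r c) :=
  (tables_finite r c).fintype

noncomputable instance (r : Fin m → ℕ) (c : Fin n → ℕ) : DecidableEq (Tables r c) :=
  Classical.decEq _

/-- agreement outside the `2 × 2` minor with rows `i, i'` and columns `j, k` -/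
def boxSetoid (r : Fin m → ℕ) (c : Fin n → ℕ) (i i' : Fin m) (j k : Fin n) :
    Setoid (Tables r c) where
  r X Y := ∀ a b, ¬ ((a = i ∨ a = i') ∧ (b = j ∨ b = k)) → X.1 a b = Y.1 a b
  iseqv := ⟨fun _ _ _ _ => rfl, fun h a b hx => (h a b hx).symm,
    fun h h' a b hx => (h a b hx).trans (h' a b hx)⟩

/-- agreement outside the columns `j, k` -/
def colSetoid (r : Fin m → ℕ) (c : Fin n → ℕ) (j k : Fin n) : Setoid (Tables r c) where
  r X Y := ∀ a b, b ≠ j → b ≠ k → X.1 a b = Y.1 a b
  iseqv := ⟨fun _ _ _ _ _ => rfl, fun h a b h1 h2 => (h a b h1 h2).symm,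
    fun h h' a b h1 h2 => (h a b h1 h2).trans (h' a b h1 h2)⟩

theorem avg_equiv {Ω Ω' : Type*} [Fintype Ω] [Fintype Ω'] (φ : Ω ≃ Ω') (s : Setoid Ω)
    (s' : Setoid Ω') (h : ∀ x y, s x y ↔ s' (φ x) (φ y)) (F : Ω → ℝ) (x : Ω) :
    avg s F x = avg s' (F ∘ φ.symm) (φ x) := by
  classical
  have hcls : (Finset.univ.filter (fun y => s' (φ x) y)) =
      (Finset.univ.filter (fun y => s x y)).map φ.toEmbedding := by
    ext y
    simp only [Finset.mem_filter, Finset.mem_univ, true_and, Finset.mem_map,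
      Equiv.coe_toEmbedding]
    constructor
    · intro hy
      refine ⟨φ.symm y, ?_, by simp⟩
      rw [h]
      simpa using hy
    · rintro ⟨z, hz, rfl⟩
      exact (h _ _).1 hz
  unfold avg
  rw [hcls, Finset.sum_map, Finset.card_map]
  simp

variable (r : Fin m → ℕ) (c : Fin n → ℕ)

/-- the uncurried margin predicate -/
def PU (T : Fin m × Fin n → ℕ) : Prop :=
  (∀ i, ∑ j, T (i, j) = r i) ∧ (∀ j, ∑ i, T (i, j) = c j)

/-- uncurrying tables -/
def uncurryEquiv : Tables r c ≃ {T : Fin m × Fin n → ℕ // PU r c T} where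
  toFun X := ⟨fun p => X.1 p.1 p.2, X.2⟩
  invFun T := ⟨fun i j => T.1 (i, j), T.2⟩
  left_inv _ := rfl
  right_inv _ := rfl

noncomputable instance : Fintype {T : Fin m × Fin n → ℕ // PU r c T} :=
  Fintype.ofEquiv _ (uncurryEquiv r c)

theorem sum_transport (s : Setoid (Tables r c)) (s' : Setoid {T : Fin m × Fin n → ℕ // PU r c T})
    (h : ∀ x y, s x y ↔ s' (uncurryEquiv r c x) (uncurryEquiv r c y)) (F : Tables r c → ℝ) :
    ∑ x, (F x - avg s F x) ^ 2 =
      ∑ y, ((F ∘ (uncurryEquiv r c).symm) y - avg s' (F ∘ (uncurryEquiv r c).symm) y) ^ 2 := by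
  rw [← Equiv.sum_comp (uncurryEquiv r c)]
  refine Finset.sum_congr rfl fun x _ => ?_
  rw [avg_equiv (uncurryEquiv r c) s s' h F x]
  simp

/-- first step: pairs of columns -/
theorem cols_ineq (F : Tables r c → ℝ) :
    ∑ x, (F x - avg ⊤ F x) ^ 2 ≤
      ∑ p : {p : Fin n × Fin n // p.1 < p.2}, ∑ x, (F x - avg (colSetoid r c p.1.1 p.1.2) F x) ^ 2 := by
  have h := step_ineq (Equiv.refl (Fin m × Fin n)) univ r c (PU r c) (fun T => Iff.rfl)
    (F ∘ (uncurryEquiv r c).symm)
  rw [sum_transport r c ⊤ (outSetoid (Equiv.refl _) univ (PU r c))]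
  · refine h.trans (le_of_eq ?_)
    refine Finset.sum_congr rfl fun p _ => ?_
    rw [sum_transport r c (colSetoid r c p.1.1 p.1.2)
      (pairSetoid (Equiv.refl _) univ (PU r c) p.1)]
    intro x y
    constructor
    · intro hxy z hz
      obtain ⟨i, l⟩ := z
      have := hz i (Finset.mem_univ i)
      refine hxy i l ?_ ?_
      · rintro rfl; exact this.1 rfl
      · rintro rfl; exact this.2 rfl
    · intro hxy i l h1 h2
      refine hxy (i, l) fun i' _ => ⟨?_, ?_⟩
      · intro hc; simp only [Equiv.refl_apply, Prod.mk.injEq] at hc; exact h1 hc.2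
      · intro hc; simp only [Equiv.refl_apply, Prod.mk.injEq] at hc; exact h2 hc.2
  · intro x y
    constructor
    · intro _ z hz
      obtain ⟨i, l⟩ := z
      exact absurd rfl (hz i (Finset.mem_univ i) l)
    · intro _; trivial

/-- second step: pairs of rows inside two columns -/
theorem rows_ineq (j k : Fin n) (F : Tables r c → ℝ) :
    ∑ x, (F x - avg (colSetoid r c j k) F x) ^ 2 ≤
      ∑ q : {q : Fin m × Fin m // q.1 < q.2},
        ∑ x, (F x - avg (boxSetoid r c q.1.1 q.1.2 j k) F x) ^ 2 := by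
  have h := step_ineq (Equiv.prodComm (Fin n) (Fin m)) {j, k} c r (PU r c)
    (fun T => by
      unfold PU Marg
      simp only [Equiv.prodComm_apply, Prod.swap_prod_mk]
      exact and_comm)
    (F ∘ (uncurryEquiv r c).symm)
  rw [sum_transport r c (colSetoid r c j k) (outSetoid (Equiv.prodComm _ _) {j, k} (PU r c))]
  · refine h.trans (le_of_eq ?_)
    refine Finset.sum_congr rfl fun q _ => ?_
    rw [sum_transport r c (boxSetoid r c q.1.1 q.1.2 j k)
      (pairSetoid (Equiv.prodComm _ _) {j, k} (PU r c) q.1)]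
    intro x y
    constructor
    · intro hxy z hz
      obtain ⟨i, l⟩ := z
      refine hxy i l ?_
      rintro ⟨h1, h2⟩
      have hl : l ∈ ({j, k} : Finset (Fin n)) := by simpa using h2
      have := hz l hl
      rcases h1 with rfl | rfl
      · exact this.1 rfl
      · exact this.2 rfl
    · intro hxy i l hil
      refine hxy (i, l) fun l' hl' => ⟨?_, ?_⟩
      · intro hc
        simp only [Equiv.prodComm_apply, Prod.swap_prod_mk, Prod.mk.injEq] at hc
        apply hil
        obtain ⟨h1, h2⟩ := hc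
        subst h2
        exact ⟨Or.inl h1, by simpa using hl'⟩
      · intro hc
        simp only [Equiv.prodComm_apply, Prod.swap_prod_mk, Prod.mk.injEq] at hc
        apply hil
        obtain ⟨h1, h2⟩ := hc
        subst h2
        exact ⟨Or.inr h1, by simpa using hl'⟩
  · intro x y
    constructor
    · intro hxy z hz
      obtain ⟨i, l⟩ := z
      refine hxy i l ?_ ?_
      · rintro rfl; exact hz l (by simp) i rfl
      · rintro rfl; exact hz l (by simp) i rfl
    · intro hxy i l h1 h2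
      refine hxy (i, l) fun l' hl' i' hc => ?_
      simp only [Equiv.prodComm_apply, Prod.swap_prod_mk, Prod.mk.injEq] at hc
      rw [← hc.2] at hl'
      simp only [Finset.mem_insert, Finset.mem_singleton] at hl'
      rcases hl' with h | h
      · exact h1 h
      · exact h2 h

/-- **Variance inequality** for the `2 × 2` heat-bath dynamics, for all margins. -/
theorem variance_box (F : Tables r c → ℝ) :
    ∑ x, (F x - avg ⊤ F x) ^ 2 ≤
      ∑ p : {p : Fin n × Fin n // p.1 < p.2}, ∑ q : {q : Fin m × Fin m // q.1 < q.2},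
        ∑ x, (F x - avg (boxSetoid r c q.1.1 q.1.2 p.1.1 p.1.2) F x) ^ 2 :=
  (cols_ineq r c F).trans (Finset.sum_le_sum fun p _ => rows_ineq r c p.1.1 p.1.2 F)

theorem avg_eq_avgKer {Ω : Type*} [Fintype Ω] [DecidableEq Ω] (s : Setoid Ω) (F : Ω → ℝ) (x : Ω) :
    avg s F x = (avgKer s).mulVec F x := by
  rw [avgKer_mulVec]
  unfold avg cls
  congr

theorem avg_top_eq_zero {Ω : Type*} [Fintype Ω] (F : Ω → ℝ) (h : ∑ x, F x = 0) (x : Ω) :
    avg ⊤ F x = 0 := by
  classical
  unfold avg
  have : (Finset.univ.filter (fun y => (⊤ : Setoid Ω) x y)) = Finset.univ := by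
    ext y; simp
  rw [this, h, zero_div]

/-- Dirichlet form of one box -/
noncomputable def boxForm (F : Tables r c → ℝ) (q : Fin m × Fin m × Fin n × Fin n) : ℝ :=
  ∑ x, (F x - avg (boxSetoid r c q.1 q.2.1 q.2.2.1 q.2.2.2) F x) ^ 2

theorem boxForm_nonneg (F : Tables r c → ℝ) (q : Fin m × Fin m × Fin n × Fin n) :
    0 ≤ boxForm r c F q := Finset.sum_nonneg fun _ _ => sq_nonneg _

theorem boxSetoid_swap_rows (i i' : Fin m) (j k : Fin n) :
    boxSetoid r c i i' j k = boxSetoid r c i' i j k := by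
  ext x y
  constructor <;>
  · intro h a b hab
    exact h a b (fun hc => hab ⟨hc.1.symm, hc.2⟩)

theorem boxSetoid_swap_cols (i i' : Fin m) (j k : Fin n) :
    boxSetoid r c i i' j k = boxSetoid r c i i' k j := by
  ext x y
  constructor <;>
  · intro h a b hab
    exact h a b (fun hc => hab ⟨hc.1, hc.2.symm⟩)

/-- the chain that resamples a uniformly random `2 × 2` minor (rows `i, i'`, columns `j, k`
chosen independently and uniformly) -/
noncomputable def chain : Matrix (Tables r c) (Tables r c) ℝ :=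
  mixKer fun q : Fin m × Fin m × Fin n × Fin n => boxSetoid r c q.1 q.2.1 q.2.2.1 q.2.2.2

theorem four_variance_le (F : Tables r c → ℝ) :
    4 * ∑ x, (F x - avg ⊤ F x) ^ 2 ≤
      ∑ q : Fin m × Fin m × Fin n × Fin n, boxForm r c F q := by
  have h := variance_box r c F
  have h1 : ∑ p : {p : Fin n × Fin n // p.1 < p.2}, ∑ q : {q : Fin m × Fin m // q.1 < q.2},
        ∑ x, (F x - avg (boxSetoid r c q.1.1 q.1.2 p.1.1 p.1.2) F x) ^ 2 =
      ∑ p ∈ incPairs (Fin n), ∑ q ∈ incPairs (Fin m), boxForm r c F (q.1, q.2, p.1, p.2) := by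
    rw [← sum_incPairs]
    refine Finset.sum_congr rfl fun p _ => ?_
    rw [← sum_incPairs]
    rfl
  rw [h1] at h
  -- symmetrize in the rows
  have hrow : ∀ p : Fin n × Fin n, 2 * ∑ q ∈ incPairs (Fin m), boxForm r c F (q.1, q.2, p.1, p.2) ≤
      ∑ q : Fin m × Fin m, boxForm r c F (q.1, q.2, p.1, p.2) := by
    intro p
    have hs : ∑ q ∈ univ.filter (fun q : Fin m × Fin m => q.2 < q.1),
        boxForm r c F (q.1, q.2, p.1, p.2) =
        ∑ q ∈ incPairs (Fin m), boxForm r c F (q.1, q.2, p.1, p.2) := by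
      unfold incPairs
      refine Finset.sum_bij' (fun q _ => (q.2, q.1)) (fun q _ => (q.2, q.1)) ?_ ?_ ?_ ?_ ?_
      · intro q hq; simpa using hq
      · intro q hq; simpa using hq
      · intro q _; rfl
      · intro q _; rfl
      · intro q _
        unfold boxForm
        simp only
        rw [boxSetoid_swap_rows]
    have hd : Disjoint (incPairs (Fin m)) (univ.filter (fun q : Fin m × Fin m => q.2 < q.1)) := by
      rw [Finset.disjoint_left]
      intro q hq hq'
      simp only [incPairs, Finset.mem_filter, Finset.mem_univ, true_and] at hq hq'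
      exact lt_asymm hq hq'
    calc 2 * ∑ q ∈ incPairs (Fin m), boxForm r c F (q.1, q.2, p.1, p.2)
        = ∑ q ∈ (incPairs (Fin m)).disjUnion _ hd, boxForm r c F (q.1, q.2, p.1, p.2) := by
          rw [Finset.sum_disjUnion, hs]; ring
      _ ≤ _ := Finset.sum_le_sum_of_subset_of_nonneg (Finset.subset_univ _)
          fun q _ _ => boxForm_nonneg r c F _
  have hcol : 2 * ∑ p ∈ incPairs (Fin n), ∑ q : Fin m × Fin m, boxForm r c F (q.1, q.2, p.1, p.2) ≤
      ∑ p : Fin n × Fin n, ∑ q : Fin m × Fin m, boxForm r c F (q.1, q.2, p.1, p.2) := by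
    have hs : ∑ p ∈ univ.filter (fun p : Fin n × Fin n => p.2 < p.1),
        ∑ q : Fin m × Fin m, boxForm r c F (q.1, q.2, p.1, p.2) =
        ∑ p ∈ incPairs (Fin n), ∑ q : Fin m × Fin m, boxForm r c F (q.1, q.2, p.1, p.2) := by
      unfold incPairs
      refine Finset.sum_bij' (fun q _ => (q.2, q.1)) (fun q _ => (q.2, q.1)) ?_ ?_ ?_ ?_ ?_
      · intro q hq; simpa using hq
      · intro q hq; simpa using hq
      · intro q _; rfl
      · intro q _; rfl
      · intro p _
        refine Finset.sum_congr rfl fun q _ => ?_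
        unfold boxForm
        simp only
        rw [boxSetoid_swap_cols]
    have hd : Disjoint (incPairs (Fin n)) (univ.filter (fun q : Fin n × Fin n => q.2 < q.1)) := by
      rw [Finset.disjoint_left]
      intro q hq hq'
      simp only [incPairs, Finset.mem_filter, Finset.mem_univ, true_and] at hq hq'
      exact lt_asymm hq hq'
    calc 2 * ∑ p ∈ incPairs (Fin n), ∑ q : Fin m × Fin m, boxForm r c F (q.1, q.2, p.1, p.2)
        = ∑ p ∈ (incPairs (Fin n)).disjUnion _ hd,
            ∑ q : Fin m × Fin m, boxForm r c F (q.1, q.2, p.1, p.2) := by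
          rw [Finset.sum_disjUnion, hs]; ring
      _ ≤ _ := Finset.sum_le_sum_of_subset_of_nonneg (Finset.subset_univ _)
          fun p _ _ => Finset.sum_nonneg fun q _ => boxForm_nonneg r c F _
  have htot : ∑ q : Fin m × Fin m × Fin n × Fin n, boxForm r c F q =
      ∑ p : Fin n × Fin n, ∑ q : Fin m × Fin m, boxForm r c F (q.1, q.2, p.1, p.2) := by
    rw [Finset.sum_comm]
    simp only [Fintype.sum_prod_type]
  rw [htot]
  have h2 : 2 * ∑ p ∈ incPairs (Fin n), ∑ q ∈ incPairs (Fin m), boxForm r c F (q.1, q.2, p.1, p.2) ≤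
      ∑ p ∈ incPairs (Fin n), ∑ q : Fin m × Fin m, boxForm r c F (q.1, q.2, p.1, p.2) := by
    rw [Finset.mul_sum]
    exact Finset.sum_le_sum fun p _ => hrow p
  linarith

/-- **Rapid mixing for all margins**: the total variation distance to uniform after `t` steps of
the `2 × 2` heat-bath chain is at most `½ √|Ω| (1 - γ / (m² n²))^t`, for every `γ ≤ 4`. -/
theorem tv_chain_le' [Nonempty (Fin m)] [Nonempty (Fin n)] {γ : ℝ} (h4 : γ ≤ 4)
    (hγ : γ ≤ (m : ℝ) ^ 2 * (n : ℝ) ^ 2) (X : Tables r c) (t : ℕ) :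
    tv (fun Y => ((chain r c) ^ t) X Y) (fun _ => (1 : ℝ) / Fintype.card (Tables r c)) ≤
      (1 / 2) * (Real.sqrt (Fintype.card (Tables r c)) *
        (1 - γ / ((m : ℝ) ^ 2 * (n : ℝ) ^ 2)) ^ t) := by
  have : Nonempty (Tables r c) := ⟨X⟩
  have hcard : (Fintype.card (Fin m × Fin m × Fin n × Fin n) : ℝ) =
      (m : ℝ) ^ 2 * (n : ℝ) ^ 2 := by
    simp [Fintype.card_prod]; ring
  have h := tv_mixKer_pow_le (fun q : Fin m × Fin m × Fin n × Fin n =>
    boxSetoid r c q.1 q.2.1 q.2.2.1 q.2.2.2) (c := γ) (by rw [hcard]; exact hγ) ?_ X t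
  · rw [hcard] at h
    exact h
  · intro F hF
    have h1 := four_variance_le r c F
    have h2 : ∑ x, (F x - avg ⊤ F x) ^ 2 = ∑ x, F x ^ 2 :=
      Finset.sum_congr rfl fun x _ => by rw [avg_top_eq_zero F hF x, sub_zero]
    rw [h2] at h1
    have h3 : ∑ i : Fin m × Fin m × Fin n × Fin n, ∑ x,
        (F x - ((avgKer (boxSetoid r c i.1 i.2.1 i.2.2.1 i.2.2.2)).mulVec F) x) ^ 2 =
        ∑ q : Fin m × Fin m × Fin n × Fin n, boxForm r c F q := by
      refine Finset.sum_congr rfl fun q _ => Finset.sum_congr rfl fun x _ => ?_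
      rw [avg_eq_avgKer]
    rw [h3]
    refine le_trans ?_ h1
    exact mul_le_mul_of_nonneg_right h4 (Finset.sum_nonneg fun _ _ => sq_nonneg _)

/-- **Rapid mixing for all margins.** -/
theorem tv_chain_le (hm : 2 ≤ m) (hn : 2 ≤ n) (X : Tables r c) (t : ℕ) :
    tv (fun Y => ((chain r c) ^ t) X Y) (fun _ => (1 : ℝ) / Fintype.card (Tables r c)) ≤
      (1 / 2) * (Real.sqrt (Fintype.card (Tables r c)) *
        (1 - 4 / ((m : ℝ) ^ 2 * (n : ℝ) ^ 2)) ^ t) := by
  have : Nonempty (Fin m) := ⟨⟨0, by omega⟩⟩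
  have : Nonempty (Fin n) := ⟨⟨0, by omega⟩⟩
  refine tv_chain_le' r c le_rfl ?_ X t
  have h1 : (2 : ℝ) ≤ m := by exact_mod_cast hm
  have h2 : (2 : ℝ) ≤ n := by exact_mod_cast hn
  have h3 : (2 : ℝ) ^ 2 ≤ (m : ℝ) ^ 2 := by gcongr
  have h4 : (2 : ℝ) ^ 2 ≤ (n : ℝ) ^ 2 := by gcongr
  nlinarith

end Tables

end Vale.Agent.P328
end
end

section

section

/-!
Laws of iterated random maps driven by blocks of fair bits; perturbation of Markov chains in total
variation; the law of a random number modulo `M`.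
-/

namespace Vale.Agent.P328

open Finset Matrix
open Vale.Agent.Lib.PolyTime (val val_lt val_cons val_nil)

/-- The finite set of all binary words of length `ℓ`. -/
def words : ℕ → Finset (List Bool)
  | 0 => {[]}
  | ℓ + 1 => (words ℓ).image (List.cons false) ∪ (words ℓ).image (List.cons true)

theorem words_zero : words 0 = {[]} := by simp only [words]

theorem words_succ (ℓ : ℕ) :
    words (ℓ + 1) = (words ℓ).image (List.cons false) ∪ (words ℓ).image (List.cons true) := by
  simp only [words]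

theorem mem_words {ℓ : ℕ} : ∀ {w : List Bool}, w ∈ words ℓ ↔ w.length = ℓ := by
  induction ℓ with
  | zero => intro w; simp [words_zero]
  | succ ℓ ih =>
    intro w
    rw [words_succ]
    cases w with
    | nil => simp
    | cons b w => cases b <;> simp [ih]

theorem sum_words_succ {M : Type*} [AddCommMonoid M] (ℓ : ℕ) (f : List Bool → M) :
    ∑ w ∈ words (ℓ + 1), f w = ∑ w ∈ words ℓ, (f (false :: w) + f (true :: w)) := by
  rw [words_succ, Finset.sum_union, Finset.sum_image (by simp), Finset.sum_image (by simp),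
    Finset.sum_add_distrib]
  rw [Finset.disjoint_left]
  intro w hw hw'
  simp only [Finset.mem_image] at hw hw'
  obtain ⟨u, -, rfl⟩ := hw
  obtain ⟨v, -, hv⟩ := hw'
  simp at hv

theorem card_words (ℓ : ℕ) : (words ℓ).card = 2 ^ ℓ := by
  rw [Finset.card_eq_sum_ones]
  induction ℓ with
  | zero => simp [words_zero]
  | succ ℓ ih =>
    rw [sum_words_succ, Finset.sum_add_distrib, ih, pow_succ]; ring

theorem sum_words_add {M : Type*} [AddCommMonoid M] (a b : ℕ) : ∀ (f : List Bool → M),
    ∑ w ∈ words (a + b), f w = ∑ u ∈ words a, ∑ v ∈ words b, f (u ++ v) := by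
  induction a with
  | zero => intro f; simp [words_zero]
  | succ a ih =>
    intro f
    rw [show a + 1 + b = (a + b) + 1 by ring, sum_words_succ, ih, sum_words_succ]
    refine Finset.sum_congr rfl fun u _ => ?_
    rw [Finset.sum_add_distrib]
    simp

/-- The probability that `ℓ` fair bits satisfy `P`. -/
noncomputable def prob (ℓ : ℕ) (P : List Bool → Prop) : ℝ :=
  (({w : List Bool | w.length = ℓ ∧ P w}).ncard : ℝ) / 2 ^ ℓ

theorem prob_eq_sum (ℓ : ℕ) (P : List Bool → Prop) [DecidablePred P] :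
    prob ℓ P = (∑ w ∈ words ℓ, if P w then (1 : ℝ) else 0) / 2 ^ ℓ := by
  unfold prob
  congr 1
  rw [Finset.sum_boole]
  congr 1
  rw [← Set.ncard_coe_finset]
  congr 1
  ext w
  simp [mem_words]

section Run

set_option linter.unusedSectionVars false

variable {Ω : Type*} [Fintype Ω] [DecidableEq Ω]

/-- Run `t` steps of the random map `step`, each using a block of `b` bits of the word. -/
def runB (b : ℕ) (step : List Bool → Ω → Ω) : ℕ → List Bool → Ω → Ω
  | 0, _, x => x
  | t + 1, w, x => runB b step t (w.drop b) (step (w.take b) x)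

theorem runB_zero (b : ℕ) (step : List Bool → Ω → Ω) (w : List Bool) (x : Ω) :
    runB b step 0 w x = x := by simp only [runB]

theorem runB_succ (b : ℕ) (step : List Bool → Ω → Ω) (t : ℕ) (w : List Bool) (x : Ω) :
    runB b step (t + 1) w x = runB b step t (w.drop b) (step (w.take b) x) := by
  simp only [runB]

/-- The transition matrix of one step. -/
noncomputable def stepKer (b : ℕ) (step : List Bool → Ω → Ω) : Matrix Ω Ω ℝ := fun x y =>
  prob b (fun u => step u x = y)

/-- The law after `t` steps is the `t`-th power of the transition matrix. -/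
theorem prob_runB (b : ℕ) (step : List Bool → Ω → Ω) (t : ℕ) : ∀ (x y : Ω),
    prob (t * b) (fun w => runB b step t w x = y) = (stepKer b step ^ t) x y := by
  induction t with
  | zero =>
    intro x y
    rw [prob_eq_sum]
    simp [words_zero, runB_zero, Matrix.one_apply]
  | succ t ih =>
    intro x y
    rw [prob_eq_sum, show (t + 1) * b = b + t * b by ring, sum_words_add, pow_succ',
      Matrix.mul_apply]
    have h1 : ∀ u ∈ words b, ∑ v ∈ words (t * b),
        (if runB b step (t + 1) (u ++ v) x = y then (1 : ℝ) else 0) =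
        2 ^ (t * b) * (stepKer b step ^ t) (step u x) y := by
      intro u hu
      have hu' := mem_words.1 hu
      rw [← ih, prob_eq_sum]
      rw [mul_div_cancel₀ _ (by positivity)]
      refine Finset.sum_congr rfl fun v _ => ?_
      rw [runB_succ, List.drop_append_of_le_length (by omega), List.take_append_of_le_length
        (by omega), List.take_of_length_le (by omega), List.drop_eq_nil_of_le (by omega)]
      simp
    rw [Finset.sum_congr rfl h1]
    have h2 : ∀ u ∈ words b, 2 ^ (t * b) * (stepKer b step ^ t) (step u x) y =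
        ∑ z, (if step u x = z then (1 : ℝ) else 0) * (2 ^ (t * b) * (stepKer b step ^ t) z y) := by
      intro u _
      simp
    rw [Finset.sum_congr rfl h2, Finset.sum_comm, pow_add, Finset.sum_div]
    refine Finset.sum_congr rfl fun z _ => ?_
    rw [← Finset.sum_mul]
    have h3 : stepKer b step x z =
        (∑ u ∈ words b, if step u x = z then (1 : ℝ) else 0) / 2 ^ b := prob_eq_sum _ _
    rw [h3]
    field_simp

theorem stepKer_nonneg (b : ℕ) (step : List Bool → Ω → Ω) (x y : Ω) :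
    0 ≤ stepKer b step x y := by
  unfold stepKer prob; positivity

theorem stepKer_row (b : ℕ) (step : List Bool → Ω → Ω) (x : Ω) :
    ∑ y, stepKer b step x y = 1 := by
  have : ∀ y, stepKer b step x y =
      (∑ u ∈ words b, if step u x = y then (1 : ℝ) else 0) / 2 ^ b := fun y => prob_eq_sum _ _
  simp only [this]
  rw [← Finset.sum_div, Finset.sum_comm]
  simp [card_words]

end Run

section Perturb

variable {Ω : Type*} [Fintype Ω] [DecidableEq Ω]

theorem row_pow (K : Matrix Ω Ω ℝ) (hrow : ∀ x, ∑ y, K x y = 1) (t : ℕ) :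
    ∀ x, ∑ y, (K ^ t) x y = 1 := by
  induction t with
  | zero => intro x; simp [Matrix.one_apply]
  | succ t ih =>
    intro x
    simp only [pow_succ', Matrix.mul_apply]
    rw [Finset.sum_comm]
    simp only [← Finset.mul_sum, ih, mul_one]
    exact hrow x

theorem nonneg_pow (K : Matrix Ω Ω ℝ) (hK : ∀ x y, 0 ≤ K x y) (t : ℕ) :
    ∀ x y, 0 ≤ (K ^ t) x y := by
  induction t with
  | zero => intro x y; rw [pow_zero, Matrix.one_apply]; split_ifs <;> norm_num
  | succ t ih =>
    intro x y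
    rw [pow_succ', Matrix.mul_apply]
    exact Finset.sum_nonneg fun z _ => mul_nonneg (hK _ _) (ih _ _)

/-- Errors of size `η` per step add up to at most `t η` after `t` steps. -/
theorem tv_pow_perturb (Q K : Matrix Ω Ω ℝ) (hQ : ∀ x y, 0 ≤ Q x y) (hQrow : ∀ x, ∑ y, Q x y = 1)
    (hK : ∀ x y, 0 ≤ K x y) (hKrow : ∀ x, ∑ y, K x y = 1) {η : ℝ}
    (h : ∀ x, tv (Q x) (K x) ≤ η) (t : ℕ) : ∀ x, tv ((Q ^ t) x) ((K ^ t) x) ≤ t * η := by
  induction t with
  | zero => intro x; simp [tv_self]
  | succ t ih =>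
    intro x
    have h1 : tv ((Q ^ (t + 1)) x) (fun y => ∑ z, Q x z * (K ^ t) z y) ≤ t * η := by
      have : ∀ y, |(Q ^ (t + 1)) x y - ∑ z, Q x z * (K ^ t) z y| ≤
          ∑ z, Q x z * |(Q ^ t) z y - (K ^ t) z y| := by
        intro y
        rw [pow_succ', Matrix.mul_apply, ← Finset.sum_sub_distrib]
        refine (Finset.abs_sum_le_sum_abs _ _).trans (le_of_eq ?_)
        refine Finset.sum_congr rfl fun z _ => ?_
        rw [← mul_sub, abs_mul, abs_of_nonneg (hQ x z)]
      calc tv ((Q ^ (t + 1)) x) (fun y => ∑ z, Q x z * (K ^ t) z y)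
          ≤ (1 / 2) * ∑ y, ∑ z, Q x z * |(Q ^ t) z y - (K ^ t) z y| := by
            unfold tv
            gcongr with y _
            exact this y
        _ = ∑ z, Q x z * tv ((Q ^ t) z) ((K ^ t) z) := by
            rw [Finset.sum_comm, Finset.mul_sum]
            refine Finset.sum_congr rfl fun z _ => ?_
            unfold tv
            rw [← Finset.mul_sum]; ring
        _ ≤ ∑ z, Q x z * (t * η) := by
            gcongr with z _
            · exact hQ x z
            · exact ih z
        _ = t * η := by rw [← Finset.sum_mul, hQrow, one_mul]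
    have h2 : tv (fun y => ∑ z, Q x z * (K ^ t) z y) ((K ^ (t + 1)) x) ≤ η := by
      have : ∀ y, |∑ z, Q x z * (K ^ t) z y - (K ^ (t + 1)) x y| ≤
          ∑ z, |Q x z - K x z| * (K ^ t) z y := by
        intro y
        rw [pow_succ', Matrix.mul_apply, ← Finset.sum_sub_distrib]
        refine (Finset.abs_sum_le_sum_abs _ _).trans (le_of_eq ?_)
        refine Finset.sum_congr rfl fun z _ => ?_
        rw [← sub_mul, abs_mul, abs_of_nonneg (nonneg_pow K hK t z y)]
      calc tv (fun y => ∑ z, Q x z * (K ^ t) z y) ((K ^ (t + 1)) x)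
          ≤ (1 / 2) * ∑ y, ∑ z, |Q x z - K x z| * (K ^ t) z y := by
            unfold tv
            gcongr with y _
            exact this y
        _ = tv (Q x) (K x) := by
            rw [Finset.sum_comm]
            unfold tv
            congr 1
            refine Finset.sum_congr rfl fun z _ => ?_
            rw [← Finset.mul_sum, row_pow K hKrow, mul_one]
        _ ≤ η := h x
    calc tv ((Q ^ (t + 1)) x) ((K ^ (t + 1)) x)
        ≤ tv ((Q ^ (t + 1)) x) (fun y => ∑ z, Q x z * (K ^ t) z y) +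
          tv (fun y => ∑ z, Q x z * (K ^ t) z y) ((K ^ (t + 1)) x) := tv_triangle _ _ _
      _ ≤ t * η + η := add_le_add h1 h2
      _ = ((t + 1 : ℕ) : ℝ) * η := by push_cast; ring

end Perturb

section ModLaw

/-- The values of the words of length `b` are exactly the numbers below `2 ^ b`. -/
theorem sum_words_val {M : Type*} [AddCommMonoid M] (b : ℕ) : ∀ (f : ℕ → M),
    ∑ w ∈ words b, f (val w) = ∑ k ∈ Finset.range (2 ^ b), f k := by
  induction b with
  | zero => intro f; simp [words_zero]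
  | succ b ih =>
    intro f
    rw [sum_words_succ]
    have : ∀ w ∈ words b, f (val (false :: w)) + f (val (true :: w)) =
        (fun k => f (2 * k) + f (2 * k + 1)) (val w) := by
      intro w _
      simp only [val_cons, Bool.toNat_false, Bool.toNat_true, zero_add]
      rw [add_comm 1]
    rw [Finset.sum_congr rfl this, ih (fun k => f (2 * k) + f (2 * k + 1)), pow_succ,
      mul_comm (2 ^ b) 2]
    generalize 2 ^ b = n
    induction n with
    | zero => simp
    | succ n ihn =>
      rw [Finset.sum_range_succ, ihn, show 2 * (n + 1) = 2 * n + 1 + 1 by ring,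
        Finset.sum_range_succ, Finset.sum_range_succ, add_assoc]

/-- The number of `k < n` with `k % M = v` is `n / M` up to an error at most one. -/
theorem abs_count_mod (n M v : ℕ) (hv : v < M) :
    |(((Finset.range n).filter (fun k => k % M = v)).card : ℝ) - n / M| ≤ 1 := by
  have hM : 0 < M := by omega
  have hc : ((Finset.range n).filter (fun k => k % M = v)).card =
      n / M + if v < n % M then 1 else 0 := by
    have h := Nat.count_modEq_card n hM v
    rw [Nat.mod_eq_of_lt hv] at h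
    rw [← h, Nat.count_eq_card_filter_range]
    congr 1
    ext k
    simp only [Finset.mem_filter, Nat.ModEq, Nat.mod_eq_of_lt hv]
  rw [hc]
  have hM' : (0 : ℝ) < M := by exact_mod_cast hM
  have hlt : ((n % M : ℕ) : ℝ) < M := by exact_mod_cast Nat.mod_lt n hM
  have hge : (0 : ℝ) ≤ ((n % M : ℕ) : ℝ) := by positivity
  have hdm : (n : ℝ) / M = (n / M : ℕ) + ((n % M : ℕ) : ℝ) / M := by
    have h0 : ((M * (n / M) + n % M : ℕ) : ℝ) = (n : ℝ) := by rw [Nat.div_add_mod]
    rw [← h0]
    push_cast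
    field_simp
  have h1 : ((n % M : ℕ) : ℝ) / M < 1 := (div_lt_one hM').2 hlt
  have h2 : 0 ≤ ((n % M : ℕ) : ℝ) / M := by positivity
  rw [hdm, abs_le]
  split_ifs <;> push_cast <;> constructor <;> linarith

end ModLaw

section Push

variable {A B : Type*} [Fintype A] [DecidableEq A] [Fintype B] [DecidableEq B]

end Push

end Vale.Agent.P328
end
end

section

section

/-!
Correctness of the list-level algorithm: it works on contingency tables, and a step picks a block
and one of the possible values of this block.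
-/

namespace Vale.Agent.P328.Alg

open Vale.Agent.Lib.PolyTime

/-- The rows of a table, as lists. -/
def toLists {m n : ℕ} (X : Fin m → Fin n → ℕ) : List (List ℕ) :=
  List.ofFn fun i => List.ofFn (X i)

variable {m n : ℕ}

theorem ent_toLists (X : Fin m → Fin n → ℕ) (i : Fin m) (a : Fin n) :
    ent (toLists X) i a = X i a := by
  simp [ent, toLists, List.getD_eq_getElem?_getD]

theorem mk_eq_toLists (m n : ℕ) (g : ℕ → ℕ → ℕ) :
    mk m n g = toLists (fun (i : Fin m) (a : Fin n) => g i a) := by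
  unfold mk toLists
  apply List.ext_getElem
  · simp
  · intro i h1 h2
    simp only [List.getElem_map, List.getElem_range, List.getElem_ofFn]
    apply List.ext_getElem
    · simp
    · intro j h3 h4
      simp

/-- The table after the update. -/
def upX (X : Fin m → Fin n → ℕ) (i i' : Fin m) (a b : Fin n) (t : ℕ) : Fin m → Fin n → ℕ :=
  fun i1 a1 => upE (toLists X) i i' a b t i1 a1

/-- Number of values of a block. -/
def cntX (X : Fin m → Fin n → ℕ) (i i' : Fin m) (a b : Fin n) : ℕ := cnt (toLists X) i i' a b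

theorem cntX_eq (X : Fin m → Fin n → ℕ) (i i' : Fin m) (a b : Fin n) :
    cntX X i i' a b = if i = i' ∨ a = b then 1 else
      min (X i a + X i b) (X i a + X i' a) + 1 - ((X i a + X i b) + (X i a + X i' a) -
        (X i a + X i b + X i' a + X i' b)) := by
  unfold cntX cnt
  simp only [ent_toLists, Fin.val_inj]

theorem cntX_pos (X : Fin m → Fin n → ℕ) (i i' : Fin m) (a b : Fin n) : 0 < cntX X i i' a b := by
  rw [cntX_eq]
  split_ifs
  · exact one_pos
  · omega

theorem cntX_le {r : Fin m → ℕ} {c : Fin n → ℕ} (X : Tables r c) (i i' : Fin m) (a b : Fin n) :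
    cntX X.1 i i' a b ≤ ∑ i, r i + 1 := by
  rw [cntX_eq]
  split_ifs with h
  · omega
  · push Not at h
    have h1 : X.1 i a + X.1 i b ≤ r i := by
      rw [← X.2.1 i]
      have := Finset.sum_le_sum_of_subset (f := fun j => X.1 i j) (Finset.subset_univ {a, b})
      rwa [Finset.sum_pair h.2] at this
    have h2 : r i ≤ ∑ i, r i :=
      Finset.single_le_sum (f := r) (fun _ _ => Nat.zero_le _) (Finset.mem_univ i)
    omega

theorem upX_eq (X : Fin m → Fin n → ℕ) (i i' : Fin m) (a b : Fin n) (t : ℕ) (i1 : Fin m)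
    (a1 : Fin n) : upX X i i' a b t i1 a1 =
      if i = i' ∨ a = b then X i1 a1 else
      if i1 = i ∧ a1 = a then
        ((X i a + X i b) + (X i a + X i' a) - (X i a + X i b + X i' a + X i' b)) + t else
      if i1 = i ∧ a1 = b then (X i a + X i b) -
        (((X i a + X i b) + (X i a + X i' a) - (X i a + X i b + X i' a + X i' b)) + t) else
      if i1 = i' ∧ a1 = a then (X i a + X i' a) -
        (((X i a + X i b) + (X i a + X i' a) - (X i a + X i b + X i' a + X i' b)) + t) else
      if i1 = i' ∧ a1 = b then (X i a + X i b + X i' a + X i' b) +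
        (((X i a + X i b) + (X i a + X i' a) - (X i a + X i b + X i' a + X i' b)) + t) -
          (X i a + X i b) - (X i a + X i' a) else X i1 a1 := by
  unfold upX upE
  simp only [ent_toLists, Fin.val_inj]

theorem sum_eq_of_pair {ι : Type*} [Fintype ι] [DecidableEq ι] {f g : ι → ℕ} {a b : ι}
    (hab : a ≠ b) (h : f a + f b = g a + g b) (h' : ∀ x, x ≠ a → x ≠ b → f x = g x) :
    ∑ x, f x = ∑ x, g x := by
  rw [← Finset.add_sum_erase _ f (Finset.mem_univ a), ← Finset.add_sum_erase _ g (Finset.mem_univ a),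
    ← Finset.add_sum_erase _ f (a := b) (by simp [hab.symm]),
    ← Finset.add_sum_erase _ g (a := b) (by simp [hab.symm]), ← add_assoc, ← add_assoc, h]
  congr 1
  refine Finset.sum_congr rfl fun x hx => ?_
  simp only [Finset.mem_erase] at hx
  exact h' x hx.2.1 hx.1

/-- The update preserves the row sums. -/
theorem upX_row (X : Fin m → Fin n → ℕ) (i i' : Fin m) (a b : Fin n) {t : ℕ}
    (ht : t < cntX X i i' a b) (i1 : Fin m) : ∑ a1, upX X i i' a b t i1 a1 = ∑ a1, X i1 a1 := by
  rw [cntX_eq] at ht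
  by_cases h : i = i' ∨ a = b
  · exact Finset.sum_congr rfl fun a1 _ => by rw [upX_eq, if_pos h]
  · rw [if_neg h] at ht
    have h' := h
    push Not at h'
    apply sum_eq_of_pair h'.2
    · by_cases h1 : i1 = i
      · subst h1
        simp only [upX_eq, h'.1, h'.2, h'.2.symm, if_true, if_false, and_true, and_false, or_false]
        omega
      · by_cases h2 : i1 = i'
        · subst h2
          simp only [upX_eq, h'.1, h'.2, h'.2.symm, h1, true_and, if_true, if_false, and_true,
            false_and, or_false]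
          omega
        · simp only [upX_eq, if_neg h, h1, h2, if_false, false_and]
    · intro a1 h1 h2
      simp only [upX_eq, if_neg h, h1, h2, and_false, if_false]

/-- The update preserves the column sums. -/
theorem upX_col (X : Fin m → Fin n → ℕ) (i i' : Fin m) (a b : Fin n) {t : ℕ}
    (ht : t < cntX X i i' a b) (a1 : Fin n) : ∑ i1, upX X i i' a b t i1 a1 = ∑ i1, X i1 a1 := by
  rw [cntX_eq] at ht
  by_cases h : i = i' ∨ a = b
  · exact Finset.sum_congr rfl fun i1 _ => by rw [upX_eq, if_pos h]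
  · rw [if_neg h] at ht
    have h' := h
    push Not at h'
    apply sum_eq_of_pair h'.1
    · by_cases h1 : a1 = a
      · subst h1
        simp only [upX_eq, h'.1, h'.1.symm, h'.2, if_true, if_false, and_true, and_false,
          or_false]
        omega
      · by_cases h2 : a1 = b
        · subst h2
          simp only [upX_eq, h'.1, h'.1.symm, h'.2, h1, if_true, if_false, and_true, and_false,
            or_false]
          omega
        · simp only [upX_eq, if_neg h, h1, h2, if_false, and_false]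
    · intro i1 h1 h2
      simp only [upX_eq, if_neg h, h1, h2, false_and, if_false]

variable {r : Fin m → ℕ} {c : Fin n → ℕ}

/-- The updated table, as an element of `Tables r c`. -/
def upT (X : Tables r c) (i i' : Fin m) (a b : Fin n) (t : ℕ) (ht : t < cntX X.1 i i' a b) :
    Tables r c :=
  ⟨upX X.1 i i' a b t, fun i1 => (upX_row X.1 i i' a b ht i1).trans (X.2.1 i1),
    fun a1 => (upX_col X.1 i i' a b ht a1).trans (X.2.2 a1)⟩

theorem blk_upT (X : Tables r c) (i i' : Fin m) (a b : Fin n) (t : ℕ)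
    (ht : t < cntX X.1 i i' a b) : boxSetoid r c i i' a b X (upT X i i' a b t ht) := by
  intro i1 a1 h
  show X.1 i1 a1 = upX X.1 i i' a b t i1 a1
  rw [upX_eq]
  push Not at h
  by_cases h0 : i = i' ∨ a = b
  · rw [if_pos h0]
  · rw [if_neg h0, if_neg, if_neg, if_neg, if_neg]
    · rintro ⟨rfl, rfl⟩; exact (h (Or.inr rfl)).2 rfl
    · rintro ⟨rfl, rfl⟩; exact (h (Or.inr rfl)).1 rfl
    · rintro ⟨rfl, rfl⟩; exact (h (Or.inl rfl)).2 rfl
    · rintro ⟨rfl, rfl⟩; exact (h (Or.inl rfl)).1 rfl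

theorem eq_of_sum_eq {ι : Type*} [Fintype ι] [DecidableEq ι] {f g : ι → ℕ} {a : ι}
    (h : ∑ x, f x = ∑ x, g x) (h' : ∀ x, x ≠ a → f x = g x) : f a = g a := by
  rw [← Finset.add_sum_erase _ f (Finset.mem_univ a),
    ← Finset.add_sum_erase _ g (Finset.mem_univ a)] at h
  have : ∑ x ∈ Finset.univ.erase a, f x = ∑ x ∈ Finset.univ.erase a, g x :=
    Finset.sum_congr rfl fun x hx => h' x (Finset.ne_of_mem_erase hx)
  omega

theorem pair_eq_of_sum_eq {ι : Type*} [Fintype ι] [DecidableEq ι] {f g : ι → ℕ} {a b : ι}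
    (hab : a ≠ b) (h : ∑ x, f x = ∑ x, g x) (h' : ∀ x, x ≠ a → x ≠ b → f x = g x) :
    f a + f b = g a + g b := by
  rw [← Finset.add_sum_erase _ f (Finset.mem_univ a), ← Finset.add_sum_erase _ g (Finset.mem_univ a),
    ← Finset.add_sum_erase _ f (a := b) (by simp [hab.symm]),
    ← Finset.add_sum_erase _ g (a := b) (by simp [hab.symm])] at h
  have : ∑ x ∈ (Finset.univ.erase a).erase b, f x = ∑ x ∈ (Finset.univ.erase a).erase b, g x :=
    Finset.sum_congr rfl fun x hx => by
      simp only [Finset.mem_erase] at hx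
      exact h' x hx.2.1 hx.1
  omega

/-- In the degenerate case the class of a table is the table itself. -/
theorem eq_of_blk_degenerate {X Y : Tables r c} {i i' : Fin m} {a b : Fin n}
    (hd : i = i' ∨ a = b) (h : boxSetoid r c i i' a b X Y) : X = Y := by
  have h : ∀ i1 a1, ¬ ((i1 = i ∨ i1 = i') ∧ (a1 = a ∨ a1 = b)) → X.1 i1 a1 = Y.1 i1 a1 := h
  apply Subtype.ext
  funext i1 a1
  rcases hd with rfl | rfl
  · by_cases h1 : i1 = i
    · subst h1
      refine eq_of_sum_eq (f := fun j => X.1 j a1) (g := fun j => Y.1 j a1) (a := i1) ?_ ?_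
      · rw [X.2.2, Y.2.2]
      · intro x hx
        exact h x a1 (by tauto)
    · exact h i1 a1 (by tauto)
  · by_cases h1 : a1 = a
    · subst h1
      refine eq_of_sum_eq (f := fun j => X.1 i1 j) (g := fun j => Y.1 i1 j) (a := a1) ?_ ?_
      · rw [X.2.1, Y.2.1]
      · intro x hx
        exact h i1 x (by tauto)
    · exact h i1 a1 (by tauto)

/-- Every table in the class is obtained by an update. -/
theorem exists_upT {X Y : Tables r c} {i i' : Fin m} {a b : Fin n} (h : boxSetoid r c i i' a b X Y) :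
    ∃ t, ∃ ht : t < cntX X.1 i i' a b, upT X i i' a b t ht = Y := by
  by_cases hd : i = i' ∨ a = b
  · refine ⟨0, cntX_pos _ _ _ _ _, ?_⟩
    rw [← eq_of_blk_degenerate hd h]
    apply Subtype.ext
    funext i1 a1
    show upX X.1 i i' a b 0 i1 a1 = X.1 i1 a1
    rw [upX_eq, if_pos hd]
  · have h : ∀ i1 a1, ¬ ((i1 = i ∨ i1 = i') ∧ (a1 = a ∨ a1 = b)) → X.1 i1 a1 = Y.1 i1 a1 := h
    have hd' := hd
    push Not at hd'
    have e1 : X.1 i a + X.1 i b = Y.1 i a + Y.1 i b :=
      pair_eq_of_sum_eq (f := fun j => X.1 i j) (g := fun j => Y.1 i j) hd'.2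
        (by rw [X.2.1, Y.2.1]) fun x h1 h2 => h i x (by tauto)
    have e2 : X.1 i' a + X.1 i' b = Y.1 i' a + Y.1 i' b :=
      pair_eq_of_sum_eq (f := fun j => X.1 i' j) (g := fun j => Y.1 i' j) hd'.2
        (by rw [X.2.1, Y.2.1]) fun x h1 h2 => h i' x (by tauto)
    have e3 : X.1 i a + X.1 i' a = Y.1 i a + Y.1 i' a :=
      pair_eq_of_sum_eq (f := fun j => X.1 j a) (g := fun j => Y.1 j a) hd'.1
        (by rw [X.2.2, Y.2.2]) fun x h1 h2 => h x a (by tauto)
    refine ⟨Y.1 i a - ((X.1 i a + X.1 i b) + (X.1 i a + X.1 i' a) -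
      (X.1 i a + X.1 i b + X.1 i' a + X.1 i' b)), ?_, ?_⟩
    · rw [cntX_eq, if_neg hd]
      omega
    · apply Subtype.ext
      funext i1 a1
      show upX X.1 i i' a b _ i1 a1 = Y.1 i1 a1
      rw [upX_eq, if_neg hd]
      split_ifs with h1 h2 h3 h4
      · obtain ⟨rfl, rfl⟩ := h1; omega
      · obtain ⟨rfl, rfl⟩ := h2; omega
      · obtain ⟨rfl, rfl⟩ := h3; omega
      · obtain ⟨rfl, rfl⟩ := h4; omega
      · exact h i1 a1 (by tauto)

theorem upT_injective {X : Tables r c} {i i' : Fin m} {a b : Fin n} {s t : ℕ}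
    (hs : s < cntX X.1 i i' a b) (ht : t < cntX X.1 i i' a b)
    (h : upT X i i' a b s hs = upT X i i' a b t ht) : s = t := by
  by_cases hd : i = i' ∨ a = b
  · rw [cntX_eq, if_pos hd] at hs ht
    omega
  · have h1 : upX X.1 i i' a b s i a = upX X.1 i i' a b t i a :=
      congrFun (congrFun (congrArg Subtype.val h) i) a
    rw [upX_eq, upX_eq, if_neg hd, if_neg hd] at h1
    simp only [and_self, if_true] at h1
    omega

/-! ### The step driven by a number -/

/-- Decoding of a block index. -/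
def dec (m n : ℕ) : Fin (m * (m * (n * n))) ≃ Fin m × Fin m × Fin n × Fin n :=
  finProdFinEquiv.symm.trans (Equiv.prodCongr (Equiv.refl _)
    (finProdFinEquiv.symm.trans (Equiv.prodCongr (Equiv.refl _) finProdFinEquiv.symm)))

/-- The update of a table with a given block, driven by a number. -/
def upd (q : Fin m × Fin m × Fin n × Fin n) (X : Tables r c) (t : ℕ) : Tables r c :=
  upT X q.1 q.2.1 q.2.2.1 q.2.2.2 (t % cntX X.1 q.1 q.2.1 q.2.2.1 q.2.2.2)
    (Nat.mod_lt _ (cntX_pos _ _ _ _ _))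

/-- Number of values of a block. -/
def Lq (q : Fin m × Fin m × Fin n × Fin n) (X : Tables r c) : ℕ :=
  cntX X.1 q.1 q.2.1 q.2.2.1 q.2.2.2

/-- The step driven by a number `U`. -/
def stepT (hB : 0 < m * (m * (n * n))) (X : Tables r c) (U : ℕ) : Tables r c :=
  upd (dec m n ⟨U % (m * (m * (n * n))), Nat.mod_lt _ hB⟩) X (U / (m * (m * (n * n))))

theorem ofFn_sum (r : Fin m → ℕ) : (List.ofFn r).sum = ∑ i, r i := List.sum_ofFn

theorem le_total (X : Tables r c) (i : Fin m) (j : Fin n) : X.1 i j ≤ ∑ i, r i := by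
  have h1 : X.1 i j ≤ r i := by
    rw [← X.2.1 i]
    exact Finset.single_le_sum (f := fun j => X.1 i j) (fun _ _ => Nat.zero_le _)
      (Finset.mem_univ j)
  exact h1.trans (Finset.single_le_sum (f := r) (fun _ _ => Nat.zero_le _) (Finset.mem_univ i))

/-- The step on lists is the step on tables. -/
theorem step_toLists (hB : 0 < m * (m * (n * n))) (X : Tables r c) (U : ℕ) :
    step (List.ofFn r) (List.ofFn c) (toLists X.1) U = toLists (stepT hB X U).1 := by
  unfold step
  simp only [List.length_ofFn]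
  rw [mk_eq_toLists]
  congr 1
  funext i1 a1
  have h := le_total (stepT hB X U) i1 a1
  rw [ofFn_sum]
  set q := dec m n ⟨U % (m * (m * (n * n))), Nat.mod_lt _ hB⟩ with hq
  have e : upE (toLists X.1) (U % (m * (m * (n * n))) / (m * (n * n)))
      (U % (m * (m * (n * n))) % (m * (n * n)) / (n * n))
      (U % (m * (m * (n * n))) % (m * (n * n)) % (n * n) / n)
      (U % (m * (m * (n * n))) % (m * (n * n)) % (n * n) % n)
      (U / (m * (m * (n * n))) % cnt (toLists X.1) (U % (m * (m * (n * n))) / (m * (n * n)))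
      (U % (m * (m * (n * n))) % (m * (n * n)) / (n * n))
      (U % (m * (m * (n * n))) % (m * (n * n)) % (n * n) / n)
      (U % (m * (m * (n * n))) % (m * (n * n)) % (n * n) % n)) i1 a1 = (stepT hB X U).1 i1 a1 := rfl
  rw [e]
  exact min_eq_right h

/-- The run on lists is the run on tables. -/
theorem iterate_stepRaw (hB : 0 < m * (m * (n * n))) (ℓ t : ℕ) : ∀ (X : Tables r c) (w : Word),
    (stepRaw (List.ofFn r) (List.ofFn c) ℓ)^[t] (toLists X.1, ⟨w⟩) =
      (toLists (runB ℓ (fun u X => stepT hB X (val u)) t w X).1, ⟨w.drop (t * ℓ)⟩) := by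
  induction t with
  | zero => intro X w; simp [runB_zero]
  | succ t ih =>
    intro X w
    rw [Function.iterate_succ_apply, stepRaw]
    dsimp only
    rw [step_toLists hB, ih, runB_succ, List.drop_drop]
    congr 3
    ring

/-! ### The starting table -/

theorem psum_zero (l : List ℕ) : psum l 0 = 0 := by simp [psum]

theorem psum_succ (r : Fin m → ℕ) (i : Fin m) :
    psum (List.ofFn r) (i + 1) = psum (List.ofFn r) i + r i := by
  unfold psum
  rw [List.take_add_one, List.sum_append]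
  simp

theorem psum_length (r : Fin m → ℕ) : psum (List.ofFn r) m = ∑ i, r i := by
  unfold psum
  rw [List.take_of_length_le (by simp), ofFn_sum]

theorem psum_mono (l : List ℕ) : Monotone (psum l) := by
  intro i j h
  unfold psum
  have : l.take i = (l.take j).take i := by rw [List.take_take, min_eq_left h]
  rw [this]
  exact psum_le _ _

theorem nw_comm (r c : List ℕ) (i a : ℕ) : nw r c i a = nw c r a i := by
  unfold nw
  rw [min_comm (psum r (i + 1)), min_comm (psum r i) (psum c a), min_comm (psum r i),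
    min_comm (psum r (i + 1))]
  omega

theorem nw_row (r : Fin m → ℕ) (c : Fin n → ℕ) (h : ∑ i, r i = ∑ j, c j) (i : Fin m) :
    ∑ a : Fin n, nw (List.ofFn r) (List.ofFn c) i a = r i := by
  rw [Fin.sum_univ_eq_sum_range (fun a => nw (List.ofFn r) (List.ofFn c) i a) n]
  set R := psum (List.ofFn r) i with hR
  have hR' : psum (List.ofFn r) (i + 1) = R + r i := psum_succ r i
  set C := psum (List.ofFn c) with hC
  have e : ∀ a, nw (List.ofFn r) (List.ofFn c) i a =
      (min (R + r i) (C (a + 1)) - min R (C (a + 1))) - (min (R + r i) (C a) - min R (C a)) := by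
    intro a
    unfold nw
    rw [hR']
    have : C a ≤ C (a + 1) := psum_mono _ (Nat.le_succ a)
    simp only [← hC, ← hR]
    omega
  rw [Finset.sum_congr rfl fun a _ => e a]
  rw [Finset.sum_range_tsub (f := fun a => min (R + r i) (C a) - min R (C a))]
  · have h0 : C 0 = 0 := psum_zero _
    have hn : C n = ∑ j, c j := psum_length c
    have hle : R + r i ≤ ∑ i, r i := by
      rw [← hR', ← ofFn_sum]
      exact psum_le _ _
    rw [h0, hn, ← h]
    omega
  · intro a b hab
    have : C a ≤ C b := psum_mono _ hab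
    dsimp only
    omega

theorem nw_col (r : Fin m → ℕ) (c : Fin n → ℕ) (h : ∑ i, r i = ∑ j, c j) (a : Fin n) :
    ∑ i : Fin m, nw (List.ofFn r) (List.ofFn c) i a = c a := by
  rw [← nw_row c r h.symm a]
  exact Finset.sum_congr rfl fun i _ => nw_comm _ _ _ _

/-- The northwest corner table. -/
def nwT (r : Fin m → ℕ) (c : Fin n → ℕ) (h : ∑ i, r i = ∑ j, c j) : Tables r c :=
  ⟨fun i a => nw (List.ofFn r) (List.ofFn c) i a, nw_row r c h, nw_col r c h⟩

/-- The output of the sampler. -/
theorem sampler_eq (hB : 0 < m * (m * (n * n))) (h : ∑ i, r i = ∑ j, c j) (k : Un) (w : Word) :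
    sampler (((List.ofFn r, List.ofFn c), k), ⟨w⟩) =
      toLists (runB (clock ((List.ofFn r, List.ofFn c), k)) (fun u X => stepT hB X (val u))
        (clock ((List.ofFn r, List.ofFn c), k)) w (nwT r c h)).1 := by
  unfold sampler
  dsimp only
  simp only [List.length_ofFn]
  rw [mk_eq_toLists]
  have := iterate_stepRaw hB (clock ((List.ofFn r, List.ofFn c), k))
    (clock ((List.ofFn r, List.ofFn c), k)) (nwT r c h) w
  rw [show (fun (i : Fin m) (a : Fin n) => nw (List.ofFn r) (List.ofFn c) i a) = (nwT r c h).1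
    from rfl, this]

end Vale.Agent.P328.Alg
end
end

section

section

/-!
Bounds for the parameters of the algorithm.
-/

namespace Vale.Agent.P328.Alg

open Vale.Agent.Lib.PolyTime

variable {m n : ℕ} {r : Fin m → ℕ} {c : Fin n → ℕ}

theorem sum_succ_le (l : List ℕ) : l.sum + 1 ≤ 2 ^ esize l := by
  induction l with
  | nil => simpa using Nat.one_le_two_pow
  | cons a l ih =>
    rw [List.sum_cons, esize_list_cons]
    have h1 : a + 1 ≤ 2 ^ esize a := lt_two_pow_esize a
    calc a + l.sum + 1 ≤ (a + 1) * (l.sum + 1) := by nlinarith [Nat.zero_le (a * l.sum)]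
      _ ≤ 2 ^ esize a * 2 ^ esize l := Nat.mul_le_mul h1 ih
      _ = 2 ^ (esize a + esize l) := by rw [pow_add]
      _ ≤ _ := Nat.pow_le_pow_right (by norm_num) (by omega)

theorem card_tables_le (r : Fin m → ℕ) (c : Fin n → ℕ) :
    Fintype.card (Tables r c) ≤ (∑ i, r i + 1) ^ (m * n) := by
  have h := Fintype.card_le_of_injective
    (fun (X : Tables r c) => (fun p => (⟨X.1 p.1 p.2, Nat.lt_succ_of_le (le_total X p.1 p.2)⟩ :
      Fin (∑ i, r i + 1)) : Fin m × Fin n → Fin (∑ i, r i + 1))) ?_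
  · simpa using h
  · intro X Y h
    apply Subtype.ext
    funext i j
    exact congrArg Fin.val (congrFun h (i, j))

/-- The input of the sampler. -/
def inp (r : Fin m → ℕ) (c : Fin n → ℕ) (k : ℕ) : Input := ((List.ofFn r, List.ofFn c), ⟨k⟩)

theorem le_esize_inp (r : Fin m → ℕ) (c : Fin n → ℕ) (k : ℕ) :
    m ≤ esize (inp r c k) ∧ n ≤ esize (inp r c k) ∧ k ≤ esize (inp r c k) ∧
      ∑ i, r i + 1 ≤ 2 ^ esize (inp r c k) ∧ 1 ≤ esize (inp r c k) := by
  have h1 : esize (inp r c k) =
      2 * (2 * esize (List.ofFn r) + esize (List.ofFn c) + 1) + k + 1 := by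
    unfold inp
    rw [esize_pair, esize_pair, esize_un]
  have h2 := length_le_esize (List.ofFn r)
  have h3 := length_le_esize (List.ofFn c)
  have h4 := sum_succ_le (List.ofFn r)
  rw [List.length_ofFn] at h2 h3
  rw [ofFn_sum] at h4
  refine ⟨by omega, by omega, by omega, h4.trans (Nat.pow_le_pow_right (by norm_num) (by omega)),
    by omega⟩

theorem upd_mem (q : Fin m × Fin m × Fin n × Fin n) (X : Tables r c) (v : ℕ) :
    boxSetoid r c q.1 q.2.1 q.2.2.1 q.2.2.2 X (upd q X v) := blk_upT _ _ _ _ _ _ _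

theorem exists_upd {q : Fin m × Fin m × Fin n × Fin n} {X Y : Tables r c}
    (h : boxSetoid r c q.1 q.2.1 q.2.2.1 q.2.2.2 X Y) : ∃ v < Lq q X, upd q X v = Y := by
  obtain ⟨t, ht, e⟩ := exists_upT h
  refine ⟨t, ht, ?_⟩
  rw [← e]
  unfold upd
  congr 1
  exact Nat.mod_eq_of_lt ht

theorem upd_inj {q : Fin m × Fin m × Fin n × Fin n} {X : Tables r c} {s t : ℕ} (hs : s < Lq q X)
    (ht : t < Lq q X) (h : upd q X s = upd q X t) : s = t := by
  have := upT_injective _ _ h
  unfold Lq at hs ht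
  rwa [Nat.mod_eq_of_lt hs, Nat.mod_eq_of_lt ht] at this

theorem Lq_pos (q : Fin m × Fin m × Fin n × Fin n) (X : Tables r c) : 0 < Lq q X :=
  cntX_pos _ _ _ _ _

theorem Lq_le (q : Fin m × Fin m × Fin n × Fin n) (X : Tables r c) : Lq q X ≤ ∑ i, r i + 1 :=
  cntX_le _ _ _ _ _

end Vale.Agent.P328.Alg
end
end

section

section

/-!
One step of the sampler: choose an index and a new value from one random number; error against the
ideal resampling chain; final total variation estimate.
-/

namespace Vale.Agent.P328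

open Finset Matrix
open Vale.Agent.Lib.PolyTime (val val_lt val_cons val_nil)

section Step

variable {Ω : Type*} [Fintype Ω] [DecidableEq Ω] {ι : Type*} [Fintype ι] [DecidableEq ι]

/-- `U ≡ v` modulo `B` and `U / B ≡ t` modulo `L` means `U ≡ v + B t` modulo `B L`. -/
theorem mod_div_iff (B L U v t : ℕ) (hv : v < B) (ht : t < L) :
    (U % B = v ∧ (U / B) % L = t) ↔ U % (B * L) = v + B * t := by
  rw [Nat.mod_mul]
  have hB : 0 < B := by omega
  have h1 : U % B < B := Nat.mod_lt _ hB
  constructor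
  · rintro ⟨h, h'⟩; rw [h, h']
  · intro h
    have h2 : (U % B + B * (U / B % L)) % B = (v + B * t) % B := by rw [h]
    rw [Nat.add_mul_mod_self_left, Nat.add_mul_mod_self_left, Nat.mod_mod, Nat.mod_eq_of_lt hv]
      at h2
    refine ⟨h2, ?_⟩
    have h3 : B * (U / B % L) = B * t := by omega
    exact Nat.eq_of_mul_eq_mul_left hB h3

theorem prob_mod_div (ℓ B L v t : ℕ) (hv : v < B) (ht : t < L) :
    |prob ℓ (fun w => val w % B = v ∧ (val w / B) % L = t) - 1 / ((B : ℝ) * L)| ≤ 1 / 2 ^ ℓ := by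
  have hB : (0 : ℝ) < B := by exact_mod_cast (by omega : 0 < B)
  have hL : (0 : ℝ) < L := by exact_mod_cast (by omega : 0 < L)
  have hlt : v + B * t < B * L := by
    calc v + B * t < B + B * t := by omega
      _ = B * (t + 1) := by ring
      _ ≤ B * L := Nat.mul_le_mul_left _ ht
  have h1 : prob ℓ (fun w => val w % B = v ∧ (val w / B) % L = t) =
      (((Finset.range (2 ^ ℓ)).filter (fun k => k % (B * L) = v + B * t)).card : ℝ) / 2 ^ ℓ := by
    rw [prob_eq_sum, sum_words_val ℓ (fun k => if k % B = v ∧ (k / B) % L = t then (1 : ℝ) else 0),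
      Finset.sum_boole]
    simp only [mod_div_iff B L _ v t hv ht]
  have h2 := abs_count_mod (2 ^ ℓ) (B * L) (v + B * t) hlt
  rw [h1]
  have h3 : (((Finset.range (2 ^ ℓ)).filter (fun k => k % (B * L) = v + B * t)).card : ℝ) / 2 ^ ℓ
      - 1 / ((B : ℝ) * L) =
      ((((Finset.range (2 ^ ℓ)).filter (fun k => k % (B * L) = v + B * t)).card : ℝ) -
        ((2 ^ ℓ : ℕ) : ℝ) / ((B * L : ℕ) : ℝ)) / 2 ^ ℓ := by
    push_cast
    field_simp
  rw [h3, abs_div, abs_of_pos (show (0 : ℝ) < 2 ^ ℓ by positivity)]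
  gcongr

/-- The step of the algorithm: from the number `U` given by the bits, the index is
`idx (U % B)` and the new state is `upd i x ((U / B) % L i x)`. -/
def stepMap {B : ℕ} (hB : 0 < B) (idx : Fin B ≃ ι) (L : ι → Ω → ℕ) (upd : ι → Ω → ℕ → Ω)
    (u : List Bool) (x : Ω) : Ω :=
  upd (idx ⟨val u % B, Nat.mod_lt _ hB⟩) x
    ((val u / B) % L (idx ⟨val u % B, Nat.mod_lt _ hB⟩) x)

/-- One step of the algorithm is close to one step of the ideal resampling chain. -/
theorem tv_step_le {B : ℕ} (hB : 0 < B) (idx : Fin B ≃ ι) (r : ι → Setoid Ω) (L : ι → Ω → ℕ)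
    (upd : ι → Ω → ℕ → Ω) (hL : ∀ i x, 0 < L i x) {Lmax : ℕ} (hLmax : ∀ i x, L i x ≤ Lmax)
    (hmem : ∀ i x t, t < L i x → r i x (upd i x t))
    (hinj : ∀ i x t t', t < L i x → t' < L i x → upd i x t = upd i x t' → t = t')
    (hsurj : ∀ i x y, r i x y → ∃ t < L i x, upd i x t = y) (ℓ : ℕ) (x : Ω) :
    tv (stepKer ℓ (stepMap hB idx L upd) x) (mixKer r x) ≤ (B : ℝ) * Lmax / 2 ^ (ℓ + 1) := by
  classical
  have hBr : (0 : ℝ) < B := by exact_mod_cast hB
  -- the ideal law of one step as a sum over `(v, t)`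
  have hcls : ∀ i y, avgKer (r i) x y =
      ∑ t ∈ range (L i x), if upd i x t = y then 1 / (L i x : ℝ) else 0 := by
    intro i y
    have hcard : (cls (r i) x).card = L i x := by
      rw [← Finset.card_range (L i x)]
      symm
      refine Finset.card_bij (fun t _ => upd i x t) ?_ ?_ ?_
      · intro t ht; exact mem_cls.2 (hmem i x t (Finset.mem_range.1 ht))
      · intro t ht t' ht' h
        exact hinj i x t t' (Finset.mem_range.1 ht) (Finset.mem_range.1 ht') h
      · intro y hy
        obtain ⟨t, ht, h⟩ := hsurj i x y (mem_cls.1 hy)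
        exact ⟨t, Finset.mem_range.2 ht, h⟩
    unfold avgKer
    rw [hcard]
    split_ifs with hy
    · obtain ⟨t, ht, h⟩ := hsurj i x y (mem_cls.1 hy)
      rw [Finset.sum_eq_single t]
      · rw [if_pos h]
      · intro t' ht' hne
        rw [if_neg]
        intro h'
        exact hne (hinj i x t' t (Finset.mem_range.1 ht') ht (h'.trans h.symm))
      · intro hn; exact absurd (Finset.mem_range.2 ht) hn
    · symm
      refine Finset.sum_eq_zero fun t ht => ?_
      rw [if_neg]
      rintro rfl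
      exact hy (mem_cls.2 (hmem i x t (Finset.mem_range.1 ht)))
  have hcardι : (Fintype.card ι : ℝ) = B := by
    have := Fintype.card_congr idx
    rw [Fintype.card_fin] at this
    exact_mod_cast this.symm
  have hideal : ∀ y, mixKer r x y = ∑ v : Fin B, ∑ t ∈ range (L (idx v) x),
      if upd (idx v) x t = y then 1 / ((B : ℝ) * L (idx v) x) else 0 := by
    intro y
    unfold mixKer
    rw [hcardι, ← Equiv.sum_comp idx, Finset.mul_sum]
    refine Finset.sum_congr rfl fun v _ => ?_
    rw [hcls, Finset.mul_sum]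
    refine Finset.sum_congr rfl fun t _ => ?_
    split_ifs
    · field_simp
    · ring
  have hreal : ∀ y, stepKer ℓ (stepMap hB idx L upd) x y =
      ∑ v : Fin B, ∑ t ∈ range (L (idx v) x), if upd (idx v) x t = y then
        prob ℓ (fun w => val w % B = v ∧ (val w / B) % L (idx v) x = t) else 0 := by
    intro y
    unfold stepKer
    rw [prob_eq_sum]
    have h1 : ∀ v : Fin B, ∀ t ∈ range (L (idx v) x), (if upd (idx v) x t = y then
        prob ℓ (fun w => val w % B = v ∧ (val w / B) % L (idx v) x = t) else 0) =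
        (∑ w ∈ words ℓ, if upd (idx v) x t = y then
          (if val w % B = v ∧ (val w / B) % L (idx v) x = t then (1 : ℝ) else 0) else 0) /
            2 ^ ℓ := by
      intro v t _
      split_ifs with h
      · rw [prob_eq_sum]
      · simp
    rw [Finset.sum_congr rfl fun v _ => Finset.sum_congr rfl (h1 v)]
    simp only [← Finset.sum_div]
    congr 1
    have h2 : ∀ v : Fin B, ∑ t ∈ range (L (idx v) x), ∑ w ∈ words ℓ,
        (if upd (idx v) x t = y then
          (if val w % B = v ∧ (val w / B) % L (idx v) x = t then (1 : ℝ) else 0) else 0) =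
        ∑ w ∈ words ℓ, ∑ t ∈ range (L (idx v) x), (if upd (idx v) x t = y then
          (if val w % B = v ∧ (val w / B) % L (idx v) x = t then (1 : ℝ) else 0) else 0) :=
      fun v => Finset.sum_comm
    rw [Finset.sum_congr rfl fun v _ => h2 v, Finset.sum_comm]
    refine Finset.sum_congr rfl fun w _ => ?_
    rw [Finset.sum_eq_single (⟨val w % B, Nat.mod_lt _ hB⟩ : Fin B)]
    · rw [Finset.sum_eq_single ((val w / B) % L (idx ⟨val w % B, Nat.mod_lt _ hB⟩) x)]
      · simp only [and_self, if_true]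
        rfl
      · intro t _ ht
        split_ifs with h h'
        · exact absurd h'.2.symm ht
        · rfl
        · rfl
      · intro hn
        exact absurd (Finset.mem_range.2 (Nat.mod_lt _ (hL _ _))) hn
    · intro v _ hv
      refine Finset.sum_eq_zero fun t _ => ?_
      split_ifs with h h'
      · exact absurd (Fin.ext h'.1.symm) hv
      · rfl
      · rfl
    · intro hn; exact absurd (Finset.mem_univ _) hn
  have hdiff : ∀ y, |stepKer ℓ (stepMap hB idx L upd) x y - mixKer r x y| ≤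
      ∑ v : Fin B, ∑ t ∈ range (L (idx v) x), if upd (idx v) x t = y then (1 : ℝ) / 2 ^ ℓ
        else 0 := by
    intro y
    rw [hideal, hreal, ← Finset.sum_sub_distrib]
    refine (Finset.abs_sum_le_sum_abs _ _).trans (Finset.sum_le_sum fun v _ => ?_)
    rw [← Finset.sum_sub_distrib]
    refine (Finset.abs_sum_le_sum_abs _ _).trans (Finset.sum_le_sum fun t ht => ?_)
    split_ifs with h
    · exact prob_mod_div ℓ B _ v t v.2 (Finset.mem_range.1 ht)
    · simp
  calc tv (stepKer ℓ (stepMap hB idx L upd) x) (mixKer r x)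
      ≤ (1 / 2) * ∑ y, ∑ v : Fin B, ∑ t ∈ range (L (idx v) x),
          (if upd (idx v) x t = y then (1 : ℝ) / 2 ^ ℓ else 0) := by
        unfold tv
        gcongr with y _
        exact hdiff y
    _ = (1 / 2) * ∑ v : Fin B, ∑ t ∈ range (L (idx v) x), (1 : ℝ) / 2 ^ ℓ := by
        rw [Finset.sum_comm]
        congr 1
        refine Finset.sum_congr rfl fun v _ => ?_
        rw [Finset.sum_comm]
        refine Finset.sum_congr rfl fun t _ => ?_
        simp
    _ ≤ (1 / 2) * ∑ _v : Fin B, (Lmax : ℝ) * (1 / 2 ^ ℓ) := by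
        gcongr with v _
        rw [Finset.sum_const, Finset.card_range, nsmul_eq_mul]
        gcongr
        exact hLmax _ _
    _ = (B : ℝ) * Lmax / 2 ^ (ℓ + 1) := by
        rw [Finset.sum_const, Finset.card_univ, Fintype.card_fin, nsmul_eq_mul, pow_succ]
        field_simp

/-- **The law of the sampler.** After `t` steps of the algorithm, each driven by `ℓ` fair bits, the
law of the state is within `t B Lmax / 2^(ℓ+1) + ½ √|Ω| (1 - c/|ι|)^t` of uniform. -/
theorem tv_run_le [Nonempty Ω] {B : ℕ} (hB : 0 < B) (idx : Fin B ≃ ι) (r : ι → Setoid Ω)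
    (L : ι → Ω → ℕ) (upd : ι → Ω → ℕ → Ω) (hL : ∀ i x, 0 < L i x) {Lmax : ℕ}
    (hLmax : ∀ i x, L i x ≤ Lmax) (hmem : ∀ i x t, t < L i x → r i x (upd i x t))
    (hinj : ∀ i x t t', t < L i x → t' < L i x → upd i x t = upd i x t' → t = t')
    (hsurj : ∀ i x y, r i x y → ∃ t < L i x, upd i x t = y) {c : ℝ} (hc : c ≤ B)
    (hgap : ∀ F : Ω → ℝ, ∑ x, F x = 0 →
      c * ∑ x, F x ^ 2 ≤ ∑ i, ∑ x, (F x - (avgKer (r i) *ᵥ F) x) ^ 2)
    (ℓ t : ℕ) (x₀ : Ω) :
    tv (fun y => prob (t * ℓ) (fun w => runB ℓ (stepMap hB idx L upd) t w x₀ = y))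
      (fun _ => 1 / (Fintype.card Ω : ℝ)) ≤
      t * ((B : ℝ) * Lmax / 2 ^ (ℓ + 1)) +
        (1 / 2) * (√(Fintype.card Ω) * (1 - c / B) ^ t) := by
  classical
  have hne : Nonempty ι := ⟨idx ⟨0, hB⟩⟩
  have hcardι : (Fintype.card ι : ℝ) = B := by
    have := Fintype.card_congr idx
    rw [Fintype.card_fin] at this
    exact_mod_cast this.symm
  have h1 : (fun y => prob (t * ℓ) (fun w => runB ℓ (stepMap hB idx L upd) t w x₀ = y)) =
      (stepKer ℓ (stepMap hB idx L upd) ^ t) x₀ := by
    ext y; exact prob_runB ℓ _ t x₀ y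
  rw [h1]
  have h2 := tv_pow_perturb (stepKer ℓ (stepMap hB idx L upd)) (mixKer r) (stepKer_nonneg _ _)
    (stepKer_row _ _) (mixKer_nonneg r) (mixKer_row r)
    (tv_step_le hB idx r L upd hL hLmax hmem hinj hsurj ℓ) t x₀
  have h3 := tv_mixKer_pow_le r (c := c) (by rw [hcardι]; exact hc) hgap x₀ t
  rw [hcardι] at h3
  exact (tv_triangle _ _ _).trans (add_le_add h2 h3)

end Step

end Vale.Agent.P328
end
end

section

section

/-!
The randomized approximation algorithm for the number of contingency tables: definitions.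

One round, at margins `(r, c)` with total `N`: put `a = ⌈N / (m n)⌉`, draw `S` samples, choose a cell
for which at least `S / (m n)` samples have an entry `≥ a`, multiply the estimate by
`S / #{samples with entry ≥ a}` and lower the two margins of this cell by `a`.
-/

namespace Vale.Agent.P328.Fp

open Vale.Agent.Lib.PolyTime Function Vale.Agent.P328.Alg

/-- The sampler with `t` steps and `ℓ` bits per step. -/
def samp (t ℓ : ℕ) (r c : List ℕ) (w : Raw) : List (List ℕ) :=
  ((stepRaw r c ℓ)^[t] (mk r.length c.length (nw r c), w)).1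

/-- `S` samples, from consecutive blocks of `t * ℓ` bits. -/
def samples (t ℓ S : ℕ) (r c : List ℕ) (w : Raw) : List (List (List ℕ)) :=
  (List.range S).map fun q => samp t ℓ r c ⟨w.w.drop (q * (t * ℓ))⟩

/-- The threshold `⌈N / (m n)⌉`. -/
def thr (r c : List ℕ) : ℕ :=
  (r.sum + (r.length * c.length - 1)) / (r.length * c.length)

/-- The number of tables in the list with an entry `≥ a` in the cell `(v / n, v % n)`. -/
def hits (n a : ℕ) (Ts : List (List (List ℕ))) (v : ℕ) : ℕ :=
  (Ts.filter fun T => decide (a ≤ ent T (v / n) (v % n))).length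

/-- The chosen cell. -/
def pick (m n a : ℕ) (Ts : List (List (List ℕ))) : ℕ :=
  ((List.range (m * n)).filter fun v => decide (Ts.length ≤ m * n * hits n a Ts v)).headD 0

/-- Lower the `i`-th entry of a list by `a`. -/
def lower (l : List ℕ) (i a : ℕ) : List ℕ :=
  (List.range l.length).map fun j => l.getD j 0 - if j = i then a else 0

/-- States: margins, numerator and denominator of the estimate, random bits. -/
abbrev State := ((List ℕ × List ℕ) × (ℕ × ℕ)) × Raw

/-- One round. -/
def round (t ℓ S : ℕ) (s : State) : State :=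
  let r := s.1.1.1
  let c := s.1.1.2
  let Ts := samples t ℓ S r c s.2
  let a := thr r c
  let v := pick r.length c.length a Ts
  (((lower r (v / c.length) a, lower c (v % c.length) a),
    (s.1.2.1 * S, s.1.2.2 * hits c.length a Ts v)), ⟨s.2.w.drop (S * (t * ℓ))⟩)

/-- Inputs: row sums, column sums, `e` and `d` in unary (relative error `1 / e`, failure
probability `2⁻ᵈ`). -/
abbrev Input2 := (List ℕ × List ℕ) × (Un × Un)

/-- The size parameter. -/
def sz (x : Input2) : ℕ := esize x + 2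

/-- Number of steps of the sampler, and number of bits per step. -/
def clk (x : Input2) : ℕ := (8 * sz x + 2) ^ 8

/-- Number of samples in every round. -/
def smp (x : Input2) : ℕ := sz x ^ 20

/-- Number of rounds. -/
def rds (x : Input2) : ℕ := sz x ^ 3

/-- Number of random bits. -/
def bits2 (x : Input2) : ℕ := rds x * (smp x * (clk x * clk x))

/-- The approximation algorithm: numerator and denominator of the estimate. -/
def approx (p : Input2 × Raw) : ℕ × ℕ :=
  ((round (clk p.1) (clk p.1) (smp p.1))^[rds p.1] ((p.1.1, (1, 1)), p.2)).1.2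

end Vale.Agent.P328.Fp
end
end

section

section

/-!
One round of the approximation algorithm.
-/

namespace Vale.Agent.P328.Fp

open Vale.Agent.Lib.PolyTime Function Vale.Agent.P328.Alg

variable {m n : ℕ}

/-- Lower the entry with index `i` by `a`. -/
def lowerN (r : Fin m → ℕ) (i a : ℕ) : Fin m → ℕ := fun j => r j - if (j : ℕ) = i then a else 0

theorem lower_ofFn (r : Fin m → ℕ) (i a : ℕ) :
    lower (List.ofFn r) i a = List.ofFn (lowerN r i a) := by
  unfold lower lowerN
  apply List.ext_getElem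
  · simp
  · intro j h1 h2
    simp only [List.length_map, List.length_range, List.length_ofFn] at h1
    simp [List.getD_eq_getElem?_getD, List.getElem?_ofFn, h1]

theorem sum_lowerN (r : Fin m → ℕ) (i : Fin m) {a : ℕ} (ha : a ≤ r i) :
    ∑ j, lowerN r i a j + a = ∑ j, r j := by
  rw [← Finset.add_sum_erase _ (lowerN r i a) (Finset.mem_univ i),
    ← Finset.add_sum_erase _ r (Finset.mem_univ i)]
  have h1 : lowerN r i a i = r i - a := by simp [lowerN]
  have h2 : ∑ j ∈ Finset.univ.erase i, lowerN r i a j = ∑ j ∈ Finset.univ.erase i, r j := by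
    refine Finset.sum_congr rfl fun j hj => ?_
    have : (j : ℕ) ≠ i := fun h => Finset.ne_of_mem_erase hj (Fin.ext h)
    simp [lowerN, this]
  rw [h1, h2]
  omega

variable {r : Fin m → ℕ} {c : Fin n → ℕ}

theorem entry_le_row (X : Tables r c) (i : Fin m) (j : Fin n) : X.1 i j ≤ r i := by
  rw [← X.2.1 i]
  exact Finset.single_le_sum (f := fun j => X.1 i j) (fun _ _ => Nat.zero_le _)
    (Finset.mem_univ j)

theorem entry_le_col (X : Tables r c) (i : Fin m) (j : Fin n) : X.1 i j ≤ c j := by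
  rw [← X.2.2 j]
  exact Finset.single_le_sum (f := fun i => X.1 i j) (fun _ _ => Nat.zero_le _)
    (Finset.mem_univ i)

/-- The tables with an entry `≥ a` in the cell `(i, j)` correspond to the tables with lowered
margins. -/
def lowerEquiv (r : Fin m → ℕ) (c : Fin n → ℕ) (i : Fin m) (j : Fin n) (a : ℕ) (hr : a ≤ r i)
    (hc : a ≤ c j) : {X : Tables r c // a ≤ X.1 i j} ≃ Tables (lowerN r i a) (lowerN c j a) where
  toFun X := ⟨fun i' j' => X.1.1 i' j' - if i' = i ∧ j' = j then a else 0, by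
    constructor
    · intro i'
      by_cases hi : i' = i
      · subst hi
        have h1 := X.1.2.1 i'
        rw [← Finset.add_sum_erase _ _ (Finset.mem_univ j)] at h1
        rw [← Finset.add_sum_erase _ _ (Finset.mem_univ j)]
        have h2 : ∑ x ∈ Finset.univ.erase j, (X.1.1 i' x - if i' = i' ∧ x = j then a else 0) =
            ∑ x ∈ Finset.univ.erase j, X.1.1 i' x := by
          refine Finset.sum_congr rfl fun x hx => ?_
          simp [Finset.ne_of_mem_erase hx]
        rw [h2]
        have h3 := X.2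
        simp only [and_self, if_true, lowerN]
        omega
      · have h2 : ∑ x, (X.1.1 i' x - if i' = i ∧ x = j then a else 0) = ∑ x, X.1.1 i' x := by
          refine Finset.sum_congr rfl fun x hx => ?_
          simp [hi]
        rw [h2, X.1.2.1 i']
        have : (i' : ℕ) ≠ i := fun h => hi (Fin.ext h)
        simp [lowerN, this]
    · intro j'
      by_cases hj : j' = j
      · subst hj
        have h1 := X.1.2.2 j'
        rw [← Finset.add_sum_erase _ _ (Finset.mem_univ i)] at h1
        rw [← Finset.add_sum_erase _ _ (Finset.mem_univ i)]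
        have h2 : ∑ x ∈ Finset.univ.erase i, (X.1.1 x j' - if x = i ∧ j' = j' then a else 0) =
            ∑ x ∈ Finset.univ.erase i, X.1.1 x j' := by
          refine Finset.sum_congr rfl fun x hx => ?_
          simp [Finset.ne_of_mem_erase hx]
        rw [h2]
        have h3 := X.2
        simp only [and_self, if_true, lowerN]
        omega
      · have h2 : ∑ x, (X.1.1 x j' - if x = i ∧ j' = j then a else 0) = ∑ x, X.1.1 x j' := by
          refine Finset.sum_congr rfl fun x hx => ?_
          simp [hj]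
        rw [h2, X.1.2.2 j']
        have : (j' : ℕ) ≠ j := fun h => hj (Fin.ext h)
        simp [lowerN, this]⟩
  invFun Y := ⟨⟨fun i' j' => Y.1 i' j' + if i' = i ∧ j' = j then a else 0, by
    constructor
    · intro i'
      rw [Finset.sum_add_distrib, Y.2.1 i']
      by_cases hi : i' = i
      · subst hi
        simp only [true_and, Finset.sum_ite_eq', Finset.mem_univ, if_true, lowerN]
        omega
      · have : (i' : ℕ) ≠ i := fun h => hi (Fin.ext h)
        simp [hi, lowerN, this]
    · intro j'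
      rw [Finset.sum_add_distrib, Y.2.2 j']
      by_cases hj : j' = j
      · subst hj
        simp only [and_true, Finset.sum_ite_eq', Finset.mem_univ, if_true, lowerN]
        omega
      · have : (j' : ℕ) ≠ j := fun h => hj (Fin.ext h)
        simp [hj, lowerN, this]⟩, by simp⟩
  left_inv X := by
    apply Subtype.ext
    apply Subtype.ext
    funext i' j'
    show X.1.1 i' j' - (if i' = i ∧ j' = j then a else 0) + (if i' = i ∧ j' = j then a else 0) =
      X.1.1 i' j'
    split_ifs with h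
    · obtain ⟨rfl, rfl⟩ := h
      have := X.2
      omega
    · rfl
  right_inv Y := by
    apply Subtype.ext
    funext i' j'
    show Y.1 i' j' + (if i' = i ∧ j' = j then a else 0) - (if i' = i ∧ j' = j then a else 0) =
      Y.1 i' j'
    omega

theorem card_lower (r : Fin m → ℕ) (c : Fin n → ℕ) (i : Fin m) (j : Fin n) (a : ℕ) (hr : a ≤ r i)
    (hc : a ≤ c j) : Fintype.card (Tables (lowerN r i a) (lowerN c j a)) =
      (Finset.univ.filter fun X : Tables r c => a ≤ X.1 i j).card := by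
  classical
  rw [← Fintype.card_congr (lowerEquiv r c i j a hr hc), Fintype.card_subtype]

/-- The threshold. -/
def thrN (m n N : ℕ) : ℕ := (N + (m * n - 1)) / (m * n)

theorem thr_ofFn (r : Fin m → ℕ) (c : Fin n → ℕ) :
    thr (List.ofFn r) (List.ofFn c) = thrN m n (∑ i, r i) := by
  unfold thr thrN
  simp only [List.length_ofFn, ofFn_sum]

theorem thrN_spec {M N : ℕ} (hM : 0 < M) : N ≤ M * ((N + (M - 1)) / M) ∧
    ((N + (M - 1)) / M = 0 ∨ M * ((N + (M - 1)) / M - 1) < N) := by
  have h := Nat.div_add_mod (N + (M - 1)) M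
  have h2 := Nat.mod_lt (N + (M - 1)) hM
  constructor
  · omega
  · rcases Nat.eq_zero_or_pos ((N + (M - 1)) / M) with h0 | h0
    · exact Or.inl h0
    · right
      obtain ⟨q, hq⟩ : ∃ q, (N + (M - 1)) / M = q + 1 := ⟨(N + (M - 1)) / M - 1, by omega⟩
      rw [hq] at h ⊢
      have : M * (q + 1) = M * q + M := by ring
      simp only [Nat.add_sub_cancel]
      omega

/-- Every table has an entry at least `⌈N / (m n)⌉`. -/
theorem exists_large (hm : 0 < m) (hn : 0 < n) (X : Tables r c) :
    ∃ (i : Fin m) (j : Fin n), thrN m n (∑ i, r i) ≤ X.1 i j := by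
  by_contra hcon
  push Not at hcon
  have hM : 0 < m * n := by positivity
  obtain ⟨-, h2⟩ := thrN_spec (N := ∑ i, r i) hM
  rcases h2 with h2 | h2
  · exact absurd (hcon ⟨0, hm⟩ ⟨0, hn⟩) (by unfold thrN; omega)
  · have h3 : ∑ i, r i ≤ m * n * (thrN m n (∑ i, r i) - 1) := by
      calc ∑ i, r i = ∑ i, ∑ j, X.1 i j := Finset.sum_congr rfl fun i _ => (X.2.1 i).symm
        _ ≤ ∑ _i : Fin m, ∑ _j : Fin n, (thrN m n (∑ i, r i) - 1) := by
            gcongr with i _ j _
            have := hcon i j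
            omega
        _ = m * n * (thrN m n (∑ i, r i) - 1) := by
            simp [mul_assoc]
    unfold thrN at h3
    omega

end Vale.Agent.P328.Fp
end
end

section

section

/-!
The samples of one round, and the chosen cell.
-/

namespace Vale.Agent.P328.Fp

open Vale.Agent.Lib.PolyTime Function Vale.Agent.P328.Alg

theorem iterate_stepRaw_take (r c : List ℕ) (ℓ t : ℕ) : ∀ (T : List (List ℕ)) (w w' : Word),
    w.take (t * ℓ) = w'.take (t * ℓ) →
    ((stepRaw r c ℓ)^[t] (T, ⟨w⟩)).1 = ((stepRaw r c ℓ)^[t] (T, ⟨w'⟩)).1 := by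
  induction t with
  | zero => intro T w w' _; rfl
  | succ t ih =>
    intro T w w' h
    rw [iterate_succ_apply, iterate_succ_apply]
    unfold stepRaw
    dsimp only
    have h1 : w.take ℓ = w'.take ℓ := by
      have h2 : (w.take ((t + 1) * ℓ)).take ℓ = (w'.take ((t + 1) * ℓ)).take ℓ := by rw [h]
      rwa [List.take_take, List.take_take, min_eq_left (by nlinarith)] at h2
    rw [h1]
    apply ih
    rw [List.take_drop, List.take_drop, show ℓ + t * ℓ = (t + 1) * ℓ by ring, h]

theorem samp_congr (t ℓ : ℕ) (r c : List ℕ) {w w' : Word}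
    (h : w.take (t * ℓ) = w'.take (t * ℓ)) : samp t ℓ r c ⟨w⟩ = samp t ℓ r c ⟨w'⟩ :=
  iterate_stepRaw_take r c ℓ t _ w w' h

theorem samp_take (t ℓ : ℕ) (r c : List ℕ) (w : Word) :
    samp t ℓ r c ⟨w⟩ = samp t ℓ r c ⟨w.take (t * ℓ)⟩ :=
  samp_congr t ℓ r c (by rw [List.take_take, min_self])

theorem samples_congr (t ℓ S : ℕ) (r c : List ℕ) {w w' : Word}
    (h : w.take (S * (t * ℓ)) = w'.take (S * (t * ℓ))) :
    samples t ℓ S r c ⟨w⟩ = samples t ℓ S r c ⟨w'⟩ := by
  unfold samples
  apply List.map_congr_left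
  intro q hq
  rw [List.mem_range] at hq
  apply samp_congr
  have h1 : q * (t * ℓ) + t * ℓ ≤ S * (t * ℓ) := by
    calc q * (t * ℓ) + t * ℓ = (q + 1) * (t * ℓ) := by ring
      _ ≤ S * (t * ℓ) := Nat.mul_le_mul_right _ hq
  have h2 : (w.take (S * (t * ℓ))).take (q * (t * ℓ) + t * ℓ) =
      (w'.take (S * (t * ℓ))).take (q * (t * ℓ) + t * ℓ) := by rw [h]
  rw [List.take_take, List.take_take, min_eq_left h1] at h2
  rw [List.take_drop, List.take_drop, h2]

variable {m n : ℕ} {r : Fin m → ℕ} {c : Fin n → ℕ}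

theorem samp_table (hm : 0 < m) (hn : 0 < n) (h : ∑ i, r i = ∑ j, c j) (t ℓ : ℕ) (w : Word) :
    ∃ X : Tables r c, samp t ℓ (List.ofFn r) (List.ofFn c) ⟨w⟩ = toLists X.1 := by
  have hB : 0 < m * (m * (n * n)) := by positivity
  unfold samp
  simp only [List.length_ofFn]
  rw [mk_eq_toLists]
  have := iterate_stepRaw hB ℓ t (nwT r c h) w
  rw [show (fun (i : Fin m) (a : Fin n) => nw (List.ofFn r) (List.ofFn c) i a) = (nwT r c h).1
    from rfl, this]
  exact ⟨_, rfl⟩

theorem length_samples (t ℓ S : ℕ) (r c : List ℕ) (w : Raw) : (samples t ℓ S r c w).length = S := by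
  simp [samples]

/-- The test whether the entry in cell `v` of a sample is `≥ a`. -/
def test (t ℓ : ℕ) (r c : List ℕ) (n a v : ℕ) (u : Word) : Bool :=
  decide (a ≤ ent (samp t ℓ r c ⟨u⟩) (v / n) (v % n))

theorem hits_eq (t ℓ S : ℕ) (r c : List ℕ) (n a v : ℕ) (w : Word) :
    hits n a (samples t ℓ S r c ⟨w⟩) v =
      ((List.range S).filter fun q => test t ℓ r c n a v ((w.drop (q * (t * ℓ))).take (t * ℓ))).length
      := by
  unfold hits samples
  rw [List.filter_map, List.length_map]
  congr 1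
  apply List.filter_congr
  intro q _
  simp only [comp_apply, test]
  rw [samp_take]

theorem length_filter_eq_sum {α : Type*} (p : α → Bool) (l : List α) :
    (l.filter p).length = (l.map fun x => if p x then 1 else 0).sum := by
  induction l with
  | nil => rfl
  | cons x l ih =>
    by_cases hx : p x
    · simp [hx, ih, add_comm]
    · simp [hx, ih]

/-- Some cell is hit by at least `S / (m n)` of the samples. -/
theorem exists_hits (hm : 0 < m) (hn : 0 < n) (h : ∑ i, r i = ∑ j, c j) (t ℓ S : ℕ) (w : Word) :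
    ∃ v < m * n, S ≤ m * n * hits n (thrN m n (∑ i, r i))
      (samples t ℓ S (List.ofFn r) (List.ofFn c) ⟨w⟩) v := by
  set a := thrN m n (∑ i, r i) with ha
  set Ts := samples t ℓ S (List.ofFn r) (List.ofFn c) ⟨w⟩ with hTs
  by_contra hcon
  push Not at hcon
  have h1 : ∀ T ∈ Ts, 1 ≤ ∑ v ∈ Finset.range (m * n),
      if decide (a ≤ ent T (v / n) (v % n)) then 1 else 0 := by
    intro T hT
    rw [hTs, samples, List.mem_map] at hT
    obtain ⟨q, -, rfl⟩ := hT
    obtain ⟨X, hX⟩ := samp_table hm hn h t ℓ (w.drop (q * (t * ℓ)))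
    rw [show (Raw.mk w).w = w from rfl, hX]
    obtain ⟨i, j, hij⟩ := exists_large hm hn X
    have hv : (i : ℕ) * n + j < m * n := by
      calc (i : ℕ) * n + j < i * n + n := by have := j.2; omega
        _ = (i + 1) * n := by ring
        _ ≤ m * n := Nat.mul_le_mul_right _ i.2
    have e1 : ((i : ℕ) * n + j) / n = i := by
      rw [add_comm, Nat.add_mul_div_right _ _ hn, Nat.div_eq_of_lt j.2, zero_add]
    have e2 : ((i : ℕ) * n + j) % n = j := by
      rw [add_comm, Nat.add_mul_mod_self_right, Nat.mod_eq_of_lt j.2]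
    refine le_trans ?_ (Finset.single_le_sum (f := fun v =>
      if decide (a ≤ ent (toLists X.1) (v / n) (v % n)) then 1 else 0)
      (fun _ _ => Nat.zero_le _) (Finset.mem_range.2 hv))
    rw [e1, e2, ent_toLists]
    simp [ha, hij]
  have h2 : S ≤ ∑ v ∈ Finset.range (m * n), hits n a Ts v := by
    have h3 : ∀ l : List (List (List ℕ)), (∀ T ∈ l, 1 ≤ ∑ v ∈ Finset.range (m * n),
        if decide (a ≤ ent T (v / n) (v % n)) then 1 else 0) →
        l.length ≤ ∑ v ∈ Finset.range (m * n), hits n a l v := by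
      intro l
      induction l with
      | nil => intro _; simp
      | cons T l ih =>
        intro hl
        have h4 := ih fun T' hT' => hl T' (List.mem_cons_of_mem _ hT')
        have h5 := hl T List.mem_cons_self
        have h6 : ∀ v, hits n a (T :: l) v =
            (if decide (a ≤ ent T (v / n) (v % n)) then 1 else 0) + hits n a l v := by
          intro v
          unfold hits
          rw [length_filter_eq_sum, length_filter_eq_sum, List.map_cons, List.sum_cons]
        simp only [h6]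
        rw [Finset.sum_add_distrib, List.length_cons]
        omega
    have := h3 Ts h1
    rwa [hTs, length_samples] at this
  have h3 : m * n * ∑ v ∈ Finset.range (m * n), hits n a Ts v < m * n * S := by
    rw [Finset.mul_sum]
    calc ∑ v ∈ Finset.range (m * n), m * n * hits n a Ts v
        < ∑ _v ∈ Finset.range (m * n), S := by
          apply Finset.sum_lt_sum_of_nonempty
          · rw [Finset.nonempty_range_iff]
            positivity
          · intro v hv
            exact hcon v (Finset.mem_range.1 hv)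
      _ = m * n * S := by simp
  have h4 := Nat.lt_of_mul_lt_mul_left h3
  omega

/-- Specification of the chosen cell. -/
theorem pick_spec (hm : 0 < m) (hn : 0 < n) (h : ∑ i, r i = ∑ j, c j) (t ℓ S : ℕ) (w : Word) :
    pick m n (thrN m n (∑ i, r i)) (samples t ℓ S (List.ofFn r) (List.ofFn c) ⟨w⟩) < m * n ∧
    S ≤ m * n * hits n (thrN m n (∑ i, r i))
      (samples t ℓ S (List.ofFn r) (List.ofFn c) ⟨w⟩)
      (pick m n (thrN m n (∑ i, r i)) (samples t ℓ S (List.ofFn r) (List.ofFn c) ⟨w⟩)) := by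
  set a := thrN m n (∑ i, r i) with ha
  set Ts := samples t ℓ S (List.ofFn r) (List.ofFn c) ⟨w⟩ with hTs
  obtain ⟨v, hv1, hv2⟩ := exists_hits hm hn h t ℓ S w
  rw [← ha, ← hTs] at hv2
  have hmem : pick m n a Ts ∈
      (List.range (m * n)).filter fun v => decide (Ts.length ≤ m * n * hits n a Ts v) := by
    unfold pick
    have hne : (List.range (m * n)).filter
        (fun v => decide (Ts.length ≤ m * n * hits n a Ts v)) ≠ [] := by
      intro h0
      have : v ∈ (List.range (m * n)).filter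
          (fun v => decide (Ts.length ≤ m * n * hits n a Ts v)) := by
        rw [List.mem_filter]
        refine ⟨List.mem_range.2 hv1, ?_⟩
        rw [decide_eq_true_eq, hTs, length_samples, ← hTs]
        exact hv2
      rw [h0] at this
      exact absurd this List.not_mem_nil
    obtain ⟨x, l, hxl⟩ := List.exists_cons_of_ne_nil hne
    rw [hxl]
    exact List.mem_cons_self
  rw [List.mem_filter, List.mem_range, decide_eq_true_eq, hTs, length_samples, ← hTs] at hmem
  exact hmem

end Vale.Agent.P328.Fp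
end
end

section

section

/-!
Probabilities of events for random words: union bounds and a Hoeffding type bound for independent
blocks of random bits.
-/

namespace Vale.Agent.P328

open Finset

theorem prob_mono (L : ℕ) {P Q : List Bool → Prop} (h : ∀ w, w.length = L → P w → Q w) :
    prob L P ≤ prob L Q := by
  classical
  rw [prob_eq_sum, prob_eq_sum]
  gcongr with w hw
  have := h w (mem_words.1 hw)
  split_ifs with h1 h2
  · exact le_rfl
  · exact absurd (this h1) h2
  · exact zero_le_one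
  · exact le_rfl

theorem prob_nonneg (L : ℕ) (P : List Bool → Prop) : 0 ≤ prob L P := by
  unfold prob; positivity

theorem prob_le_one (L : ℕ) (P : List Bool → Prop) : prob L P ≤ 1 := by
  classical
  rw [prob_eq_sum, div_le_one (by positivity)]
  calc ∑ w ∈ words L, (if P w then (1 : ℝ) else 0) ≤ ∑ _w ∈ words L, (1 : ℝ) := by
        gcongr with w _
        split_ifs <;> norm_num
    _ = 2 ^ L := by simp [card_words]

theorem prob_or_le (L : ℕ) (P Q : List Bool → Prop) :
    prob L (fun w => P w ∨ Q w) ≤ prob L P + prob L Q := by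
  classical
  rw [prob_eq_sum, prob_eq_sum, prob_eq_sum, ← add_div, ← Finset.sum_add_distrib]
  gcongr with w _
  by_cases h1 : P w <;> by_cases h2 : Q w <;> simp [h1, h2]

theorem prob_exists_le (L M : ℕ) (P : ℕ → List Bool → Prop) {b : ℝ}
    (h : ∀ v < M, prob L (P v) ≤ b) : prob L (fun w => ∃ v < M, P v w) ≤ M * b := by
  induction M with
  | zero =>
    unfold prob
    simp
  | succ M ih =>
    have h1 : prob L (fun w => ∃ v < M + 1, P v w) ≤
        prob L (fun w => (∃ v < M, P v w) ∨ P M w) := by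
      apply prob_mono
      rintro w - ⟨v, hv, hP⟩
      rcases Nat.lt_succ_iff_lt_or_eq.1 hv with h2 | h2
      · exact Or.inl ⟨v, h2, hP⟩
      · subst h2
        exact Or.inr hP
    have h2 := prob_or_le L (fun w => ∃ v < M, P v w) (P M)
    have h3 := ih fun v hv => h v (by omega)
    have h4 := h M (by omega)
    push_cast
    linarith

/-- A bad event for the first block of bits, and a conditional bound for the remaining bits. -/
theorem prob_add_le (a b : ℕ) (Bad P : List Bool → Prop) {be ga : ℝ} (hga : 0 ≤ ga)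
    (h1 : prob a Bad ≤ be) (h2 : ∀ u, u.length = a → ¬ Bad u → prob b (fun v => P (u ++ v)) ≤ ga) :
    prob (a + b) P ≤ be + ga := by
  classical
  have h3 : ∀ u ∈ words a, ∑ v ∈ words b, (if P (u ++ v) then (1 : ℝ) else 0) ≤
      (if Bad u then (1 : ℝ) else 0) * 2 ^ b + ga * 2 ^ b := by
    intro u hu
    by_cases hb : Bad u
    · have h4 : ∑ v ∈ words b, (if P (u ++ v) then (1 : ℝ) else 0) ≤ 2 ^ b := by
        calc ∑ v ∈ words b, (if P (u ++ v) then (1 : ℝ) else 0) ≤ ∑ _v ∈ words b, (1 : ℝ) := by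
              gcongr with v _
              split_ifs <;> norm_num
          _ = 2 ^ b := by simp [card_words]
      rw [if_pos hb, one_mul]
      have : 0 ≤ ga * 2 ^ b := by positivity
      linarith
    · have h4 := h2 u (mem_words.1 hu) hb
      rw [prob_eq_sum, div_le_iff₀ (by positivity)] at h4
      rw [if_neg hb, zero_mul, zero_add]
      exact h4
  have h4 : prob (a + b) P ≤ (∑ u ∈ words a,
      ((if Bad u then (1 : ℝ) else 0) * 2 ^ b + ga * 2 ^ b)) / 2 ^ (a + b) := by
    rw [prob_eq_sum, sum_words_add]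
    gcongr with u hu
    exact h3 u hu
  rw [Finset.sum_add_distrib, ← Finset.sum_mul, Finset.sum_const, card_words, nsmul_eq_mul] at h4
  have h5 : prob a Bad = (∑ u ∈ words a, if Bad u then (1 : ℝ) else 0) / 2 ^ a :=
    prob_eq_sum _ _
  have h6 : ((∑ u ∈ words a, if Bad u then (1 : ℝ) else 0) * 2 ^ b +
      ((2 ^ a : ℕ) : ℝ) * (ga * 2 ^ b)) / 2 ^ (a + b) = prob a Bad + ga := by
    rw [h5, pow_add]
    push_cast
    field_simp
  rw [h6] at h4
  linarith

/-! ### Independent blocks -/

/-- The number of blocks which satisfy `f`. -/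
def blockCount (L : ℕ) (f : List Bool → Bool) (S : ℕ) (w : List Bool) : ℕ :=
  ((List.range S).filter fun q => f ((w.drop (q * L)).take L)).length

theorem blockCount_zero (L : ℕ) (f : List Bool → Bool) (w : List Bool) :
    blockCount L f 0 w = 0 := rfl

theorem blockCount_succ (L : ℕ) (f : List Bool → Bool) (S : ℕ) {u : List Bool}
    (hu : u.length = L) (v : List Bool) :
    blockCount L f (S + 1) (u ++ v) = (if f u then 1 else 0) + blockCount L f S v := by
  unfold blockCount
  rw [List.range_succ_eq_map, List.filter_cons]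
  have h1 : ((u ++ v).drop (0 * L)).take L = u := by
    rw [zero_mul, List.drop_zero, List.take_append_of_le_length (by omega),
      List.take_of_length_le (by omega)]
  have h2 : ((List.map Nat.succ (List.range S)).filter
      fun q => f (((u ++ v).drop (q * L)).take L)).length =
      ((List.range S).filter fun q => f ((v.drop (q * L)).take L)).length := by
    rw [List.filter_map, List.length_map]
    congr 1
    apply List.filter_congr
    intro q _
    simp only [Function.comp_apply]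
    have h3 : (u ++ v).drop (q.succ * L) = v.drop (q * L) := by
      have h4 : q.succ * L = L + q * L := by rw [Nat.succ_mul, add_comm]
      have h5 : L + q * L - u.length = q * L := by omega
      rw [h4, List.drop_append, h5, List.drop_eq_nil_of_le (by omega), List.nil_append]
    rw [h3]
  rw [h1]
  by_cases hf : f u = true
  · rw [if_pos hf, if_pos hf, List.length_cons, h2, add_comm]
  · rw [if_neg hf, if_neg hf, h2, zero_add]

/-- The exponential moment of the number of hits. -/
theorem sum_exp_blockCount (L : ℕ) (f : List Bool → Bool) (p lam : ℝ) (S : ℕ) :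
    ∑ w ∈ words (S * L), Real.exp (lam * ((blockCount L f S w : ℝ) - S * p)) =
      (∑ u ∈ words L, Real.exp (lam * ((if f u then 1 else 0) - p))) ^ S := by
  induction S with
  | zero => simp [words_zero, blockCount_zero]
  | succ S ih =>
    rw [show (S + 1) * L = L + S * L by ring, sum_words_add, pow_succ', ← ih, Finset.sum_mul]
    refine Finset.sum_congr rfl fun u hu => ?_
    rw [Finset.mul_sum]
    refine Finset.sum_congr rfl fun v _ => ?_
    rw [blockCount_succ L f S (mem_words.1 hu), ← Real.exp_add]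
    congr 1
    push_cast
    ring

theorem sum_exp_le (L : ℕ) (f : List Bool → Bool) {lam : ℝ} (h : |lam| ≤ 1) :
    ∑ u ∈ words L, Real.exp (lam * ((if f u then 1 else 0) - prob L (fun u => f u = true))) ≤
      2 ^ L * Real.exp (lam ^ 2) := by
  set p := prob L (fun u => f u = true) with hp
  have hp0 : 0 ≤ p := prob_nonneg _ _
  have hp1 : p ≤ 1 := prob_le_one _ _
  have h1 : ∀ u, Real.exp (lam * ((if f u then 1 else 0) - p)) ≤
      1 + lam * ((if f u then 1 else 0) - p) + lam ^ 2 := by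
    intro u
    have h2 : |(if f u then (1 : ℝ) else 0) - p| ≤ 1 := by
      split_ifs <;> rw [abs_le] <;> constructor <;> linarith
    have h3 : |lam * ((if f u then (1 : ℝ) else 0) - p)| ≤ 1 := by
      rw [abs_mul]
      calc |lam| * |(if f u then (1 : ℝ) else 0) - p| ≤ 1 * 1 := by gcongr
        _ = 1 := one_mul 1
    have h4 := (abs_le.1 (Real.abs_exp_sub_one_sub_id_le h3)).2
    have h5 : (lam * ((if f u then (1 : ℝ) else 0) - p)) ^ 2 ≤ lam ^ 2 := by
      rw [mul_pow]
      have h6 : ((if f u then (1 : ℝ) else 0) - p) ^ 2 ≤ 1 := by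
        rw [← sq_abs]
        exact pow_le_one₀ (abs_nonneg _) h2
      nlinarith [sq_nonneg lam]
    linarith
  have h2 : ∑ u ∈ words L, (1 + lam * ((if f u then (1 : ℝ) else 0) - p) + lam ^ 2) =
      2 ^ L * (1 + lam ^ 2) := by
    rw [Finset.sum_add_distrib, Finset.sum_add_distrib, ← Finset.mul_sum, Finset.sum_sub_distrib]
    have h3 : ∑ u ∈ words L, (if f u then (1 : ℝ) else 0) = p * 2 ^ L := by
      rw [hp, prob_eq_sum, div_mul_cancel₀ _ (by positivity)]
    rw [h3]
    simp only [Finset.sum_const, card_words, nsmul_eq_mul]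
    push_cast
    ring
  calc ∑ u ∈ words L, Real.exp (lam * ((if f u then 1 else 0) - p))
      ≤ ∑ u ∈ words L, (1 + lam * ((if f u then (1 : ℝ) else 0) - p) + lam ^ 2) :=
        Finset.sum_le_sum fun u _ => h1 u
    _ = 2 ^ L * (1 + lam ^ 2) := h2
    _ ≤ 2 ^ L * Real.exp (lam ^ 2) := by
        gcongr
        have := Real.add_one_le_exp (lam ^ 2)
        linarith

theorem prob_tail (L S : ℕ) (f : List Bool → Bool) {lam η : ℝ} (h : |lam| ≤ 1) :
    prob (S * L) (fun w => S * η ≤
      lam * ((blockCount L f S w : ℝ) - S * prob L (fun u => f u = true))) ≤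
      Real.exp (S * (lam ^ 2 - η)) := by
  classical
  set p := prob L (fun u => f u = true) with hp
  rw [prob_eq_sum, div_le_iff₀ (by positivity)]
  calc ∑ w ∈ words (S * L), (if S * η ≤ lam * ((blockCount L f S w : ℝ) - S * p)
        then (1 : ℝ) else 0)
      ≤ ∑ w ∈ words (S * L), Real.exp (-(S * η)) *
          Real.exp (lam * ((blockCount L f S w : ℝ) - S * p)) := by
        gcongr with w _
        split_ifs with h1
        · rw [← Real.exp_add]
          apply Real.one_le_exp
          linarith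
        · positivity
    _ = Real.exp (-(S * η)) * (∑ u ∈ words L,
          Real.exp (lam * ((if f u then 1 else 0) - p))) ^ S := by
        rw [← Finset.mul_sum, sum_exp_blockCount]
    _ ≤ Real.exp (-(S * η)) * (2 ^ L * Real.exp (lam ^ 2)) ^ S := by
        gcongr
        exact sum_exp_le L f h
    _ = Real.exp (S * (lam ^ 2 - η)) * 2 ^ (S * L) := by
        rw [mul_pow, ← pow_mul, ← Real.exp_nat_mul, mul_comm L S, mul_left_comm, ← Real.exp_add,
          mul_comm]
        congr 2
        ring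

/-- **Hoeffding type bound** for the number of blocks which satisfy `f`. -/
theorem prob_count_dev (L S : ℕ) (hS : 0 < S) (f : List Bool → Bool) {η : ℝ} (h0 : 0 < η)
    (h1 : η ≤ 2) :
    prob (S * L) (fun w => η ≤ |((((List.range S).filter fun q =>
      f ((w.drop (q * L)).take L)).length : ℕ) : ℝ) / S - prob L (fun u => f u = true)|) ≤
      2 * Real.exp (-(S * η ^ 2 / 4)) := by
  set p := prob L (fun u => f u = true) with hp
  have hSr : (0 : ℝ) < S := by exact_mod_cast hS
  have hl : |η / 2| ≤ 1 := by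
    rw [abs_of_pos (by positivity)]
    linarith
  have hl' : |(-(η / 2))| ≤ 1 := by rwa [abs_neg]
  have t1 := prob_tail L S f (lam := η / 2) (η := η ^ 2 / 2) hl
  have t2 := prob_tail L S f (lam := -(η / 2)) (η := η ^ 2 / 2) hl'
  rw [← hp] at t1 t2
  have e1 : (S : ℝ) * ((η / 2) ^ 2 - η ^ 2 / 2) = -(S * η ^ 2 / 4) := by ring
  have e2 : (S : ℝ) * ((-(η / 2)) ^ 2 - η ^ 2 / 2) = -(S * η ^ 2 / 4) := by ring
  rw [e1] at t1
  rw [e2] at t2
  have h2 := prob_or_le (S * L) (fun w => S * (η ^ 2 / 2) ≤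
      η / 2 * ((blockCount L f S w : ℝ) - S * p)) (fun w => S * (η ^ 2 / 2) ≤
      -(η / 2) * ((blockCount L f S w : ℝ) - S * p))
  refine le_trans (prob_mono _ ?_) (h2.trans (by linarith))
  intro w _ hw
  have hb : ((((List.range S).filter fun q => f ((w.drop (q * L)).take L)).length : ℕ) : ℝ) =
      blockCount L f S w := rfl
  rw [hb] at hw
  have h3 : (blockCount L f S w : ℝ) / S - p = ((blockCount L f S w : ℝ) - S * p) / S := by
    field_simp
  rw [h3, abs_div, abs_of_pos hSr, le_div_iff₀ hSr] at hw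
  rcases le_abs.1 hw with h4 | h4
  · left
    nlinarith
  · right
    nlinarith

end Vale.Agent.P328
end
end

section

section

/-!
The approximation algorithm runs in polynomial time.
-/

namespace Vale.Agent.P328.Fp

open Vale.Agent.Lib.PolyTime Function Vale.Agent.P328.Alg

variable {A : Set Word} {α : Type} [Enc α]

theorem PT_samp {t ℓ : α → ℕ} {r c : α → List ℕ} {w : α → Raw} (ht : PT A t) (htb : PBd t)
    (hℓ : PT A ℓ) (hr : PT A r) (hc : PT A c) (hw : PT A w) :
    PT A (fun x => samp (t x) (ℓ x) (r x) (c x) (w x)) := by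
  have hnw : PT A (fun x => mk (r x).length (c x).length (nw (r x) (c x))) :=
    PT_mk hr.length (PBd.length hr) hc.length (PBd.length hc)
      (PT_nw (hr.comp PT.fst'.fst) (hc.comp PT.fst'.fst) PT.fst'.snd PT.snd')
  have c1 : ∀ {β : Type} [Enc β] {f : α → β}, PT A f →
    PT A (fun p : α × (List (List ℕ) × Raw) => f p.1) := fun hf => hf.comp PT.fst'
  have hN : PT A (fun x => 2 * (r x).sum) := (PT.const 2).mul (PT.sum hr)
  have hNb := PBd.esize_comp hN
  have hmb := PBd.length hr
  have hnb := PBd.length hc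
  have hρ : PBd (fun x => esize (w x)) := PBd.esize_comp hw
  refine (PT.iterate' (step := fun x s => stepRaw (r x) (c x) (ℓ x) s)
    ht htb (hnw.pair hw) (PT_stepRaw (c1 hr) (c1 hc) (c1 hℓ) PT.snd')
    (b := fun x => 2 * ((r x).length *
      (2 * ((c x).length * (2 * esize (2 * (r x).sum) + 1)) + 1)) + esize (w x) + 1)
    (by fun_prop) ?_).fst
  rintro x j -
  have key : esize ((stepRaw (r x) (c x) (ℓ x))^[j]
      (mk (r x).length (c x).length (nw (r x) (c x)), w x)).1 ≤
        (r x).length * (2 * ((c x).length * (2 * esize (2 * (r x).sum) + 1)) + 1) ∧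
      esize ((stepRaw (r x) (c x) (ℓ x))^[j]
      (mk (r x).length (c x).length (nw (r x) (c x)), w x)).2 ≤ esize (w x) := by
    induction j with
    | zero => exact ⟨esize_mk_le _ _ _ _ (nw_le _ _), le_rfl⟩
    | succ j ih =>
      rw [iterate_succ_apply']
      refine ⟨esize_mk_le _ _ _ _ fun i a => (min_le_left _ _).trans (by omega), ?_⟩
      refine le_trans ?_ ih.2
      rw [esize_raw, esize_raw]
      simp [stepRaw]
  have := esize_pair ((stepRaw (r x) (c x) (ℓ x))^[j]
      (mk (r x).length (c x).length (nw (r x) (c x)), w x)).1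
      ((stepRaw (r x) (c x) (ℓ x))^[j]
      (mk (r x).length (c x).length (nw (r x) (c x)), w x)).2
  simp only [Prod.mk.eta] at this
  rw [this]
  omega

theorem PT_samples {t ℓ S : α → ℕ} {r c : α → List ℕ} {w : α → Raw} (ht : PT A t) (htb : PBd t)
    (hℓ : PT A ℓ) (hS : PT A S) (hSb : PBd S) (hr : PT A r) (hc : PT A c) (hw : PT A w) :
    PT A (fun x => samples (t x) (ℓ x) (S x) (r x) (c x) (w x)) := by
  have c1 : ∀ {β : Type} [Enc β] {f : α → β}, PT A f → PT A (fun p : α × ℕ => f p.1) :=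
    fun hf => hf.comp PT.fst'
  exact PT.map (f := fun (x : α) q => samp (t x) (ℓ x) (r x) (c x)
    ⟨(w x).w.drop (q * (t x * ℓ x))⟩) (PT.range hS hSb)
    (PT_samp (c1 ht) (htb.comp (PT.fst' (A := A))) (c1 hℓ) (c1 hr) (c1 hc)
      (PT.rawDrop (c1 hw) (PT.snd'.mul ((c1 ht).mul (c1 hℓ)))))

theorem PT_thr {r c : α → List ℕ} (hr : PT A r) (hc : PT A c) :
    PT A (fun x => thr (r x) (c x)) := by
  have hM := hr.length.mul hc.length
  exact ((PT.sum hr).add (hM.sub (PT.const 1))).div hM

theorem PT_hits {n a v : α → ℕ} {Ts : α → List (List (List ℕ))} (hn : PT A n) (ha : PT A a)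
    (hT : PT A Ts) (hv : PT A v) : PT A (fun x => hits (n x) (a x) (Ts x) (v x)) := by
  have c1 : ∀ {β : Type} [Enc β] {f : α → β}, PT A f →
    PT A (fun p : α × List (List ℕ) => f p.1) := fun hf => hf.comp PT.fst'
  exact (PT.filter (f := fun (x : α) T => decide (a x ≤ ent T (v x / n x) (v x % n x))) hT
    (PT.le (c1 ha) (PT_ent PT.snd' ((c1 hv).div (c1 hn)) ((c1 hv).mod (c1 hn))))).length

theorem PT_pick {m n a : α → ℕ} {Ts : α → List (List (List ℕ))} (hm : PT A m) (hmb : PBd m)
    (hn : PT A n) (hnb : PBd n) (ha : PT A a) (hT : PT A Ts) :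
    PT A (fun x => pick (m x) (n x) (a x) (Ts x)) := by
  have c1 : ∀ {β : Type} [Enc β] {f : α → β}, PT A f → PT A (fun p : α × ℕ => f p.1) :=
    fun hf => hf.comp PT.fst'
  exact PT.headD (PT.filter (f := fun (x : α) v =>
      decide ((Ts x).length ≤ m x * n x * hits (n x) (a x) (Ts x) v))
    (PT.range (hm.mul hn) (hmb.mul hnb))
    (PT.le (c1 hT).length (((c1 hm).mul (c1 hn)).mul (PT_hits (c1 hn) (c1 ha) (c1 hT) PT.snd'))))
    (PT.const 0)

theorem PT_lower {l : α → List ℕ} {i a : α → ℕ} (hl : PT A l) (hi : PT A i) (ha : PT A a) :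
    PT A (fun x => lower (l x) (i x) (a x)) := by
  have c1 : ∀ {β : Type} [Enc β] {f : α → β}, PT A f → PT A (fun p : α × ℕ => f p.1) :=
    fun hf => hf.comp PT.fst'
  exact PT.map (f := fun (x : α) j => (l x).getD j 0 - if j = i x then a x else 0)
    (PT.range hl.length (PBd.length hl))
    ((PT.getD (c1 hl) PT.snd' (PT.const 0)).sub
      (PT.ite (p := fun p : α × ℕ => p.2 = i p.1) (PT.eqNat PT.snd' (c1 hi)) (c1 ha) (PT.const 0)))

theorem PT_round {t ℓ S : α → ℕ} {s : α → State} (ht : PT A t) (htb : PBd t)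
    (hℓ : PT A ℓ) (hS : PT A S) (hSb : PBd S) (hs : PT A s) :
    PT A (fun x => round (t x) (ℓ x) (S x) (s x)) := by
  have hr := hs.fst.fst.fst
  have hc := hs.fst.fst.snd
  have hT := PT_samples ht htb hℓ hS hSb hr hc hs.snd
  have ha := PT_thr hr hc
  have hv := PT_pick hr.length (PBd.length hr) hc.length (PBd.length hc) ha hT
  have hh := PT_hits hc.length ha hT hv
  exact (((PT_lower hr (hv.div hc.length) ha).pair (PT_lower hc (hv.mod hc.length) ha)).pair
    ((hs.fst.snd.fst.mul hS).pair (hs.fst.snd.snd.mul hh))).pair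
    (PT.rawDrop hs.snd (hS.mul (ht.mul hℓ)))

theorem PT_sz {x : α → Input2} (hx : PT A x) : PT A (fun a => sz (x a)) :=
  (PT.size hx).add (PT.const 2)

theorem PBd_sz {x : α → Input2} (hx : PT A x) : PBd (fun a => sz (x a)) :=
  PBd.add (PBd.esize_comp hx) (PBd.const 2)

theorem length_lower (l : List ℕ) (i a : ℕ) : (lower l i a).length = l.length := by
  simp [lower]

theorem mem_lower_le {l : List ℕ} {i a B : ℕ} (h : ∀ x ∈ l, x ≤ B) :
    ∀ x ∈ lower l i a, x ≤ B := by
  intro x hx
  unfold lower at hx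
  obtain ⟨j, hj, rfl⟩ := List.mem_map.1 hx
  rw [List.mem_range] at hj
  refine (Nat.sub_le _ _).trans ?_
  rw [List.getD_eq_getElem?_getD, List.getElem?_eq_getElem hj, Option.getD_some]
  exact h _ (List.getElem_mem hj)

theorem hits_le (n a : ℕ) (Ts : List (List (List ℕ))) (v : ℕ) : hits n a Ts v ≤ Ts.length :=
  List.length_filter_le _ _

theorem esize_of_entries {l : List ℕ} {B : ℕ} (h : ∀ x ∈ l, x ≤ B) :
    esize l ≤ l.length * (2 * esize B + 1) :=
  esize_list_le fun x hx => esize_nat_mono (h x hx)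

/-- Size bounds for the state during the run. -/
theorem round_inv (t ℓ S : ℕ) (rc : List ℕ × List ℕ) (w : Raw) (j : ℕ) : ∀ s : State,
      s = (round t ℓ S)^[j] ((rc, (1, 1)), w) →
      (s.1.1.1.length = rc.1.length ∧ ∀ x ∈ s.1.1.1, x ≤ rc.1.sum) ∧
      (s.1.1.2.length = rc.2.length ∧ ∀ x ∈ s.1.1.2, x ≤ rc.2.sum) ∧
      s.1.2.1 ≤ S ^ j ∧ s.1.2.2 ≤ S ^ j ∧ esize s.2 ≤ esize w := by
  induction j with
  | zero =>
    rintro s rfl
    refine ⟨⟨rfl, fun x hx => List.le_sum_of_mem hx⟩, ⟨rfl, fun x hx => List.le_sum_of_mem hx⟩,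
      le_rfl, le_rfl, le_rfl⟩
  | succ j ih =>
    rintro s hs
    obtain ⟨⟨i1, i2⟩, ⟨i3, i4⟩, i5, i6, i7⟩ := ih _ rfl
    rw [iterate_succ_apply'] at hs
    generalize (round t ℓ S)^[j] ((rc, (1, 1)), w) = s' at *
    subst hs
    refine ⟨⟨(length_lower _ _ _).trans i1, mem_lower_le i2⟩,
      ⟨(length_lower _ _ _).trans i3, mem_lower_le i4⟩, ?_, ?_, ?_⟩
    · rw [pow_succ]
      exact Nat.mul_le_mul_right _ i5
    · rw [pow_succ]
      refine Nat.mul_le_mul i6 ((hits_le _ _ _ _).trans ?_)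
      simp [samples]
    · refine le_trans ?_ i7
      rw [esize_raw, esize_raw]
      simp [round]

/-- The bound for the size of the state. -/
def stBound (K S : ℕ) (rc : List ℕ × List ℕ) (w : Raw) : ℕ :=
  2 * (2 * (2 * (rc.1.length * (2 * esize rc.1.sum + 1)) +
      rc.2.length * (2 * esize rc.2.sum + 1) + 1) +
      (2 * (K * esize S + 1) + (K * esize S + 1) + 1) + 1) + esize w + 1

theorem esize_round_le (t ℓ S K : ℕ) (rc : List ℕ × List ℕ) (w : Raw) {j : ℕ} (hj : j ≤ K) :
    esize ((round t ℓ S)^[j] ((rc, (1, 1)), w)) ≤ stBound K S rc w := by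
  obtain ⟨⟨i1, i2⟩, ⟨i3, i4⟩, i5, i6, i7⟩ := round_inv t ℓ S rc w j _ rfl
  generalize (round t ℓ S)^[j] ((rc, (1, 1)), w) = s at *
  obtain ⟨⟨⟨r', c'⟩, ⟨x, y⟩⟩, w'⟩ := s
  dsimp only at i1 i2 i3 i4 i5 i6 i7
  rw [esize_pair, esize_pair, esize_pair, esize_pair]
  have j1 := esize_of_entries i2
  have j2 := esize_of_entries i4
  rw [i1] at j1
  rw [i3] at j2
  have j0 : ∀ z : ℕ, z ≤ S ^ j → esize z ≤ K * esize S + 1 := by
    intro z hz
    refine (esize_nat_mono hz).trans ((esize_pow_le _ _).trans ?_)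
    have := Nat.mul_le_mul_right (esize S) hj
    omega
  have j3 := j0 x i5
  have j4 := j0 y i6
  unfold stBound
  omega

theorem PT_run {K t ℓ S : α → ℕ} {rc : α → List ℕ × List ℕ} {w : α → Raw} (hK : PT A K)
    (hKb : PBd K) (ht : PT A t) (htb : PBd t) (hℓ : PT A ℓ) (hS : PT A S) (hSb : PBd S)
    (hrc : PT A rc) (hw : PT A w) :
    PT A (fun x => ((round (t x) (ℓ x) (S x))^[K x] ((rc x, (1, 1)), w x)).1.2) := by
  have c1 : ∀ {β : Type} [Enc β] {f : α → β}, PT A f →
    PT A (fun p : α × State => f p.1) := fun hf => hf.comp PT.fst'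
  have hinit : PT A (fun x => (((rc x, (1, 1)), w x) : State)) :=
    (hrc.pair (PT.const (1, 1))).pair hw
  have hRb := PBd.esize_comp (PT.sum hrc.fst)
  have hCb := PBd.esize_comp (PT.sum hrc.snd)
  have hmb := PBd.length hrc.fst
  have hnb := PBd.length hrc.snd
  have hSzb := PBd.esize_comp hS
  have hρ := PBd.esize_comp hw
  have hb : PBd (fun x => stBound (K x) (S x) (rc x) (w x)) := by
    unfold stBound
    fun_prop
  exact (PT.iterate' (step := fun (x : α) s => round (t x) (ℓ x) (S x) s)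
    hK hKb hinit (PT_round (c1 ht) (htb.comp (PT.fst' (A := A))) (c1 hℓ) (c1 hS)
      (hSb.comp (PT.fst' (A := A))) PT.snd') hb
    (fun x j hj => esize_round_le _ _ _ _ _ _ hj)).fst.snd

theorem PT_approx : PT A approx := by
  have hx : PT A (fun p : Input2 × Raw => p.1) := PT.fst'
  have hsz := PT_sz hx
  have hszb := PBd_sz hx
  have hclk : PT A (fun p : Input2 × Raw => clk p.1) :=
    (((PT.const 8).mul hsz).add (PT.const 2)).powConst 8
  have hclkb : PBd (fun p : Input2 × Raw => clk p.1) :=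
    (((PBd.const 8).mul hszb).add (PBd.const 2)).pow 8
  exact PT_run (hsz.powConst 3) (hszb.pow 3) hclk hclkb hclk (hsz.powConst 20) (hszb.pow 20)
    hx.fst PT.snd'

end Vale.Agent.P328.Fp
end
end

section

section

namespace Vale.Agent.P328.RM

open Finset Matrix

variable {m n : ℕ} (r : Fin m → ℕ) (c : Fin n → ℕ)

open scoped Classical in
theorem box_entry (i i' : Fin m) (j k : Fin n) (X Y : Tables r c) :
    avgKer (boxSetoid r c i i' j k) X Y =
      if SameOff i i' j k X.1 Y.1 then
        1 / (Nat.card {Z : Tables r c // SameOff i i' j k X.1 Z.1} : ℝ) else 0 := by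
  have hcard : (Nat.card {Z : Tables r c // SameOff i i' j k X.1 Z.1} : ℝ) =
      ((cls (boxSetoid r c i i' j k) X).card : ℝ) := by
    rw [Nat.card_eq_fintype_card, Fintype.card_subtype]
    unfold cls
    congr
  have hmem : SameOff i i' j k X.1 Y.1 ↔ Y ∈ cls (boxSetoid r c i i' j k) X := by
    rw [mem_cls]; rfl
  unfold avgKer
  rw [hcard]
  by_cases hs : SameOff i i' j k X.1 Y.1
  · rw [if_pos hs, if_pos (hmem.1 hs)]
  · rw [if_neg hs, if_neg (fun h => hs (hmem.2 h))]

theorem step_eq : step r c = chain r c := by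
  classical
  funext X Y
  unfold step chain mixKer
  have hc : (Fintype.card (Fin m × Fin m × Fin n × Fin n) : ℝ) = (m : ℝ) ^ 2 * (n : ℝ) ^ 2 := by
    simp [Fintype.card_prod]; ring
  rw [hc]
  congr 1
  simp only [Fintype.sum_prod_type]
  refine Finset.sum_congr rfl fun i _ => Finset.sum_congr rfl fun i' _ =>
    Finset.sum_congr rfl fun j _ => Finset.sum_congr rfl fun k _ => ?_
  exact (box_entry r c i i' j k X Y).symm

theorem card_le : (Fintype.card (Omega r c) : ℝ) ≤ ((∑ i, r i : ℕ) + 1 : ℝ) ^ (m * n) := by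
  classical
  have hinj : Function.Injective (fun (X : Omega r c) (p : Fin m × Fin n) =>
      (⟨X.1 p.1 p.2, by
        have h1 : X.1 p.1 p.2 ≤ r p.1 := by
          rw [← X.2.1 p.1]
          exact Finset.single_le_sum (f := fun j => X.1 p.1 j) (fun _ _ => Nat.zero_le _)
            (Finset.mem_univ p.2)
        have h2 : r p.1 ≤ ∑ i, r i :=
          Finset.single_le_sum (f := r) (fun _ _ => Nat.zero_le _) (Finset.mem_univ p.1)
        omega⟩ : Fin (∑ i, r i + 1))) := by
    intro X Y h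
    apply Subtype.ext
    funext i j
    have := congrFun h (i, j)
    simpa using this
  have := Fintype.card_le_of_injective _ hinj
  rw [Fintype.card_fun, Fintype.card_fin, Fintype.card_prod, Fintype.card_fin,
    Fintype.card_fin] at this
  exact_mod_cast this

theorem gap_form' (hm : 2 ≤ m) (hn : 2 ≤ n) (F : Tables r c → ℝ) (hF : ∑ X, F X = 0) :
    ∑ X, ∑ Y, F X * chain r c X Y * F Y ≤
      (1 - 4 / ((m : ℝ) ^ 2 * (n : ℝ) ^ 2)) * ∑ X, F X ^ 2 := by
  have hmn : (0 : ℝ) < (m : ℝ) ^ 2 * (n : ℝ) ^ 2 := by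
    have h1 : (0 : ℝ) < m := by exact_mod_cast (by omega : 0 < m)
    have h2 : (0 : ℝ) < n := by exact_mod_cast (by omega : 0 < n)
    positivity
  have h1 := four_variance_le r c F
  have h2 : ∑ x, (F x - avg ⊤ F x) ^ 2 = ∑ x, F x ^ 2 :=
    Finset.sum_congr rfl fun x _ => by rw [avg_top_eq_zero F hF x, sub_zero]
  have h3 : ∑ q : Fin m × Fin m × Fin n × Fin n, boxForm r c F q =
      ∑ q : Fin m × Fin m × Fin n × Fin n,
        (F ⬝ᵥ F - F ⬝ᵥ avgKer (boxSetoid r c q.1 q.2.1 q.2.2.1 q.2.2.2) *ᵥ F) := by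
    refine Finset.sum_congr rfl fun q _ => ?_
    rw [← avgKer_dirichlet]
    unfold boxForm
    refine Finset.sum_congr rfl fun x _ => ?_
    rw [avg_eq_avgKer]
  have e : F ⬝ᵥ F = ∑ x, F x ^ 2 := by
    simp only [dotProduct]; exact Finset.sum_congr rfl fun x _ => by ring
  have hcard : (Fintype.card (Fin m × Fin m × Fin n × Fin n) : ℝ) =
      (m : ℝ) ^ 2 * (n : ℝ) ^ 2 := by
    simp [Fintype.card_prod]; ring
  have hform : F ⬝ᵥ (chain r c) *ᵥ F = (1 / ((m : ℝ) ^ 2 * (n : ℝ) ^ 2)) *
      ∑ q : Fin m × Fin m × Fin n × Fin n,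
        F ⬝ᵥ avgKer (boxSetoid r c q.1 q.2.1 q.2.2.1 q.2.2.2) *ᵥ F := by
    unfold chain
    rw [mixKer_form, hcard]
  have hlhs : ∑ X, ∑ Y, F X * chain r c X Y * F Y = F ⬝ᵥ (chain r c) *ᵥ F := by
    simp only [dotProduct, mulVec, Finset.mul_sum]
    refine Finset.sum_congr rfl fun X _ => Finset.sum_congr rfl fun Y _ => by ring
  rw [h2, h3, Finset.sum_sub_distrib, Finset.sum_const, Finset.card_univ, nsmul_eq_mul, hcard,
    e] at h1
  rw [hlhs, hform]
  set A := ∑ x, F x ^ 2
  set B := ∑ q : Fin m × Fin m × Fin n × Fin n,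
        F ⬝ᵥ avgKer (boxSetoid r c q.1 q.2.1 q.2.2.1 q.2.2.2) *ᵥ F
  have : B ≤ ((m : ℝ) ^ 2 * (n : ℝ) ^ 2) * A - 4 * A := by linarith
  calc 1 / ((m : ℝ) ^ 2 * (n : ℝ) ^ 2) * B
      ≤ 1 / ((m : ℝ) ^ 2 * (n : ℝ) ^ 2) * (((m : ℝ) ^ 2 * (n : ℝ) ^ 2) * A - 4 * A) := by
        gcongr
    _ = (1 - 4 / ((m : ℝ) ^ 2 * (n : ℝ) ^ 2)) * A := by field_simp

theorem gap_form (hm : 2 ≤ m) (hn : 2 ≤ n) (F : Omega r c → ℝ) (hF : ∑ X, F X = 0) :
    ∑ X, ∑ Y, F X * step r c X Y * F Y ≤
      (1 - 4 / ((m : ℝ) ^ 2 * (n : ℝ) ^ 2)) * ∑ X, F X ^ 2 := by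
  rw [step_eq]
  exact gap_form' r c hm hn F hF

theorem mixing (hm : 2 ≤ m) (hn : 2 ≤ n) (X : Omega r c) (ε : ℝ) (hε : 0 < ε) (t : ℕ)
    (ht : (m : ℝ) ^ 2 * (n : ℝ) ^ 2 / 4 *
      ((m : ℝ) * n / 2 * Real.log ((∑ i, r i : ℕ) + 1) + Real.log (1 / ε)) ≤ t) :
    (1 / 2) * ∑ Y, |(step r c ^ t) X Y - 1 / (Fintype.card (Omega r c) : ℝ)| ≤ ε := by
  have h := tv_chain_le r c hm hn X t
  rw [step_eq]
  refine h.trans ?_
  have hm0 : (2 : ℝ) ≤ m := by exact_mod_cast hm
  have hn0 : (2 : ℝ) ≤ n := by exact_mod_cast hn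
  have hmn : (0 : ℝ) < (m : ℝ) ^ 2 * (n : ℝ) ^ 2 := by positivity
  have hmn4 : 4 ≤ (m : ℝ) ^ 2 * (n : ℝ) ^ 2 := by
    have h3 : (2 : ℝ) ^ 2 ≤ (m : ℝ) ^ 2 := by gcongr
    have h4 : (2 : ℝ) ^ 2 ≤ (n : ℝ) ^ 2 := by gcongr
    nlinarith
  set g : ℝ := 4 / ((m : ℝ) ^ 2 * (n : ℝ) ^ 2) with hg
  have hg0 : 0 < g := by positivity
  have hg1 : g ≤ 1 := by rw [hg, div_le_one hmn]; exact hmn4
  have hpow : (1 - g) ^ t ≤ Real.exp (-(g * t)) := by
    have h1 : 1 - g ≤ Real.exp (-g) := by
      have := Real.add_one_le_exp (-g); linarith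
    calc (1 - g) ^ t ≤ (Real.exp (-g)) ^ t := by gcongr
      _ = Real.exp (-(g * t)) := by rw [← Real.exp_nat_mul]; congr 1; ring
  set N1 : ℝ := (∑ i, r i : ℕ) + 1 with hN1
  have hN1pos : (0 : ℝ) < N1 := by positivity
  have hsq : Real.sqrt (Fintype.card (Tables r c)) ≤
      Real.exp ((m : ℝ) * n / 2 * Real.log N1) := by
    have h1 : (Fintype.card (Tables r c) : ℝ) ≤ N1 ^ (m * n) := card_le r c
    have h2 : N1 ^ (m * n) = (Real.exp ((m : ℝ) * n / 2 * Real.log N1)) ^ 2 := by
      rw [← Real.exp_nat_mul]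
      have : ((2 : ℕ) : ℝ) * ((m : ℝ) * n / 2 * Real.log N1) = ((m * n : ℕ) : ℝ) * Real.log N1 := by
        push_cast; ring
      rw [this, Real.exp_nat_mul, Real.exp_log hN1pos]
    rw [h2] at h1
    calc Real.sqrt (Fintype.card (Tables r c)) ≤
        Real.sqrt ((Real.exp ((m : ℝ) * n / 2 * Real.log N1)) ^ 2) := Real.sqrt_le_sqrt h1
      _ = _ := Real.sqrt_sq (Real.exp_pos _).le
  have hgt : (m : ℝ) * n / 2 * Real.log N1 + Real.log (1 / ε) ≤ g * t := by
    have : (m : ℝ) * n / 2 * Real.log N1 + Real.log (1 / ε) =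
        g * ((m : ℝ) ^ 2 * (n : ℝ) ^ 2 / 4 *
          ((m : ℝ) * n / 2 * Real.log N1 + Real.log (1 / ε))) := by
      rw [hg]; field_simp
    rw [this]
    exact mul_le_mul_of_nonneg_left ht hg0.le
  have h0 : (0 : ℝ) ≤ (1 - g) ^ t := pow_nonneg (by linarith) t
  calc (1 / 2) * (Real.sqrt (Fintype.card (Tables r c)) * (1 - g) ^ t)
      ≤ (1 / 2) * (Real.exp ((m : ℝ) * n / 2 * Real.log N1) * Real.exp (-(g * t))) := by
        gcongr
    _ = (1 / 2) * Real.exp ((m : ℝ) * n / 2 * Real.log N1 - g * t) := by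
        rw [← Real.exp_add]; rfl
    _ ≤ (1 / 2) * Real.exp (-Real.log (1 / ε)) := by
        gcongr; linarith
    _ = (1 / 2) * ε := by
        rw [Real.log_div one_ne_zero hε.ne', Real.log_one, zero_sub, neg_neg, Real.exp_log hε]
    _ ≤ ε := by linarith

theorem psd_form (F : Omega r c → ℝ) : 0 ≤ ∑ X, ∑ Y, F X * step r c X Y * F Y := by
  rw [step_eq]
  have h : ∀ F : Tables r c → ℝ, 0 ≤ ∑ X, ∑ Y, F X * chain r c X Y * F Y := by
    intro F
    have hlhs : ∑ X, ∑ Y, F X * chain r c X Y * F Y = F ⬝ᵥ (chain r c) *ᵥ F := by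
      simp only [dotProduct, mulVec, Finset.mul_sum]
      refine Finset.sum_congr rfl fun X _ => Finset.sum_congr rfl fun Y _ => by ring
    rw [hlhs]
    exact mixKer_psd _ F
  exact h F

theorem step_symm (X Y : Omega r c) : step r c X Y = step r c Y X := by
  rw [step_eq]
  have h : ∀ X Y : Tables r c, chain r c X Y = chain r c Y X := fun X Y =>
    congrFun (congrFun (mixKer_symm (fun q : Fin m × Fin m × Fin n × Fin n =>
      boxSetoid r c q.1 q.2.1 q.2.2.1 q.2.2.2)) Y) X
  exact h X Y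

theorem step_nonneg (X Y : Omega r c) : 0 ≤ step r c X Y := by
  rw [step_eq]
  exact mixKer_nonneg _ _ _

theorem step_row (hm : 2 ≤ m) (hn : 2 ≤ n) (X : Omega r c) : ∑ Y, step r c X Y = 1 := by
  have : Nonempty (Fin m) := ⟨⟨0, by omega⟩⟩
  have : Nonempty (Fin n) := ⟨⟨0, by omega⟩⟩
  rw [step_eq]
  exact mixKer_row (fun q : Fin m × Fin m × Fin n × Fin n =>
      boxSetoid r c q.1 q.2.1 q.2.2.1 q.2.2.2) X

theorem all_parts (hm : 2 ≤ m) (hn : 2 ≤ n) :
    ((∀ X Y, 0 ≤ step r c X Y ∧ step r c X Y = step r c Y X) ∧ ∀ X, ∑ Y, step r c X Y = 1) ∧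
    SecondEigLe (step r c) (1 - 4 / ((m : ℝ) ^ 2 * (n : ℝ) ^ 2)) ∧
    ∀ (X : Omega r c) (ε : ℝ), 0 < ε → ∀ t : ℕ,
      (m : ℝ) ^ 2 * (n : ℝ) ^ 2 / 4 *
        ((m : ℝ) * n / 2 * Real.log ((∑ i, r i : ℕ) + 1) + Real.log (1 / ε)) ≤ t →
      tv ((step r c ^ t) X) (fun _ => 1 / (Fintype.card (Omega r c) : ℝ)) ≤ ε :=
  ⟨⟨fun X Y => ⟨step_nonneg r c X Y, step_symm r c X Y⟩, step_row r c hm hn⟩,
    fun F hF => ⟨psd_form r c F, gap_form r c hm hn F hF⟩,
    fun X ε hε t ht => mixing r c hm hn X ε hε t ht⟩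

end Vale.Agent.P328.RM
end
end

section

section

/-!
The law of the output of the sampler.
-/

namespace Vale.Agent.P328.Alg

open Vale.Agent.Lib.PolyTime

/-- The numerical estimate behind the choice of the parameters. -/
theorem estimate {s k B L C : ℕ} (hk : k ≤ s) (hs : 1 ≤ s) (hB0 : 0 < B) (hB : B ≤ s ^ 4)
    (hL : L ≤ 2 ^ s) (hC : C ≤ 2 ^ (s * s ^ 2)) :
    ((((s + 2) ^ 8 : ℕ) : ℝ) * ((B : ℝ) * L / 2 ^ ((s + 2) ^ 8 + 1))) +
      (1 / 2) * (√(C : ℝ) * (1 - 1 / (B : ℝ)) ^ ((s + 2) ^ 8)) ≤ (1 / 2) ^ k := by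
  have h1 : (((s + 2) ^ 8 : ℕ) : ℝ) * ((B : ℝ) * L / 2 ^ ((s + 2) ^ 8 + 1)) ≤
      (1 / 2) * (1 / 2) ^ k := by
    have e1 : (s + 2) ^ 8 ≤ 2 ^ (8 * s + 8) := by
      have : s + 2 ≤ 2 ^ (s + 1) := by
        have := Nat.lt_two_pow_self (n := s + 1)
        omega
      calc (s + 2) ^ 8 ≤ (2 ^ (s + 1)) ^ 8 := Nat.pow_le_pow_left this 8
        _ = 2 ^ (8 * s + 8) := by rw [← pow_mul]; congr 1; ring
    have e2 : B ≤ 2 ^ (4 * s) := by
      refine hB.trans ?_
      calc s ^ 4 ≤ (2 ^ s) ^ 4 := Nat.pow_le_pow_left Nat.lt_two_pow_self.le 4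
        _ = 2 ^ (4 * s) := by rw [← pow_mul]; congr 1; ring
    have e3 : 14 * s + 8 ≤ (s + 2) ^ 8 := by
      have : (s + 2) ^ 8 = (s + 2) * (s + 2) ^ 7 := by ring
      have h7 : 2 ^ 7 ≤ (s + 2) ^ 7 := Nat.pow_le_pow_left (by omega) 7
      nlinarith
    have e4 : (s + 2) ^ 8 * (B * L) * 2 ^ k ≤ 2 ^ ((s + 2) ^ 8) := by
      calc (s + 2) ^ 8 * (B * L) * 2 ^ k ≤ 2 ^ (8 * s + 8) * (2 ^ (4 * s) * 2 ^ s) * 2 ^ s := by
            gcongr
            norm_num
        _ = 2 ^ (14 * s + 8) := by rw [← pow_add, ← pow_add, ← pow_add]; congr 1; ring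
        _ ≤ _ := Nat.pow_le_pow_right (by norm_num) e3
    have e5 : ((((s + 2) ^ 8 * (B * L) * 2 ^ k : ℕ)) : ℝ) ≤ ((2 ^ ((s + 2) ^ 8) : ℕ) : ℝ) := by
      exact_mod_cast e4
    rw [Nat.cast_mul, Nat.cast_mul, Nat.cast_mul, Nat.cast_pow 2 k,
      Nat.cast_pow 2 ((s + 2) ^ 8), Nat.cast_ofNat] at e5
    rw [pow_succ (2 : ℝ), one_div, inv_pow, ← mul_div_assoc, div_le_iff₀ (by positivity)]
    have e6 : (2 : ℝ)⁻¹ * ((2 : ℝ) ^ k)⁻¹ * (2 ^ ((s + 2) ^ 8) * 2) =
        2 ^ ((s + 2) ^ 8) / 2 ^ k := by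
      field_simp
    rw [e6, le_div_iff₀ (by positivity)]
    exact e5
  have h2 : √(C : ℝ) * (1 - 1 / (B : ℝ)) ^ ((s + 2) ^ 8) ≤ (1 / 2) ^ k := by
    have hBr : (0 : ℝ) < B := by exact_mod_cast hB0
    have f1 : √(C : ℝ) ≤ 2 ^ (s * s ^ 2) := by
      rw [Real.sqrt_le_left (by positivity)]
      have : (C : ℝ) ≤ 2 ^ (s * s ^ 2) := by exact_mod_cast hC
      have h1 : (1 : ℝ) ≤ 2 ^ (s * s ^ 2) := one_le_pow₀ (by norm_num)
      nlinarith
    have f2 : (1 - 1 / (B : ℝ)) ^ ((s + 2) ^ 8) ≤ (1 / 2) ^ ((s + 2) ^ 4) := by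
      have g1 : 0 ≤ 1 - 1 / (B : ℝ) := by
        rw [sub_nonneg, div_le_one hBr]; exact_mod_cast hB0
      have g2 : 1 - 1 / (B : ℝ) ≤ Real.exp (-(1 / (B : ℝ))) := Real.one_sub_le_exp_neg _
      have g3 : Real.exp (-1) ≤ 1 / 2 := by
        rw [Real.exp_neg, one_div]
        gcongr
        have := Real.add_one_le_exp (1 : ℝ)
        linarith
      have g4 : (((s + 2) ^ 4 : ℕ) : ℝ) ≤ (((s + 2) ^ 8 : ℕ) : ℝ) * (1 / (B : ℝ)) := by
        rw [mul_one_div, le_div_iff₀ hBr]
        have : (s + 2) ^ 4 * B ≤ (s + 2) ^ 8 := by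
          calc (s + 2) ^ 4 * B ≤ (s + 2) ^ 4 * (s + 2) ^ 4 :=
                Nat.mul_le_mul_left _ (hB.trans (Nat.pow_le_pow_left (by omega) 4))
            _ = (s + 2) ^ 8 := by ring
        exact_mod_cast this
      calc (1 - 1 / (B : ℝ)) ^ ((s + 2) ^ 8)
          ≤ Real.exp (-(1 / (B : ℝ))) ^ ((s + 2) ^ 8) := by gcongr
        _ = Real.exp (-((((s + 2) ^ 8 : ℕ) : ℝ) * (1 / (B : ℝ)))) := by
            rw [← Real.exp_nat_mul]; congr 1; ring
        _ ≤ Real.exp (-(((s + 2) ^ 4 : ℕ) : ℝ)) := by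
            rw [Real.exp_le_exp]; linarith
        _ = Real.exp (-1) ^ ((s + 2) ^ 4) := by
            rw [← Real.exp_nat_mul]; congr 1; ring
        _ ≤ _ := by gcongr
    have f3 : s * s ^ 2 + k ≤ (s + 2) ^ 4 := by
      have : (s + 2) ^ 4 = s ^ 4 + 8 * s ^ 3 + 24 * s ^ 2 + 32 * s + 16 := by ring
      nlinarith [Nat.zero_le (s ^ 4), Nat.zero_le (s ^ 2), Nat.zero_le (s ^ 3)]
    calc √(C : ℝ) * (1 - 1 / (B : ℝ)) ^ ((s + 2) ^ 8)
        ≤ 2 ^ (s * s ^ 2) * (1 / 2) ^ ((s + 2) ^ 4) := by
          have g1 : 0 ≤ 1 - 1 / (B : ℝ) := by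
            rw [sub_nonneg, div_le_one hBr]; exact_mod_cast hB0
          exact mul_le_mul f1 f2 (by positivity) (by positivity)
      _ ≤ 2 ^ (s * s ^ 2) * (1 / 2) ^ (s * s ^ 2 + k) := by
          gcongr ?_ * ?_
          exact pow_le_pow_of_le_one (by norm_num) (by norm_num) f3
      _ = (1 / 2) ^ k := by
          rw [pow_add, ← mul_assoc, ← mul_pow]
          norm_num
  linarith

variable {m n : ℕ} {r : Fin m → ℕ} {c : Fin n → ℕ}

/-- The output of the sampler is always a table. -/
theorem sampler_isTable (hm : 0 < m) (hn : 0 < n) (h : ∑ i, r i = ∑ j, c j) (k : ℕ) (w : Word) :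
    ∃ Y : Tables r c, sampler (inp r c k, ⟨w⟩) = toLists Y.1 :=
  ⟨_, sampler_eq (by positivity) h ⟨k⟩ w⟩

theorem toLists_injective {X Y : Fin m → Fin n → ℕ} (h : toLists X = toLists Y) : X = Y := by
  funext i a
  rw [← ent_toLists X, ← ent_toLists Y, h]

/-- **The law of the output of the sampler** is within `2⁻ᵏ` of uniform. -/
theorem sampler_law (hm : 0 < m) (hn : 0 < n) (h : ∑ i, r i = ∑ j, c j) (k : ℕ) :
    tv (fun Y : Tables r c => prob (clock (inp r c k) * clock (inp r c k))
        (fun w => sampler (inp r c k, ⟨w⟩) = toLists Y.1))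
      (fun _ => 1 / (Fintype.card (Tables r c) : ℝ)) ≤ (1 / 2) ^ k := by
  have hB : 0 < m * (m * (n * n)) := by positivity
  have : Nonempty (Fin m) := ⟨⟨0, hm⟩⟩
  have : Nonempty (Fin n) := ⟨⟨0, hn⟩⟩
  have : Nonempty (Tables r c) := ⟨nwT r c h⟩
  set t := clock (inp r c k) with ht
  have e1 : (fun Y : Tables r c => prob (t * t)
        (fun w => sampler (inp r c k, ⟨w⟩) = toLists Y.1)) =
      fun Y : Tables r c => prob (t * t)
        (fun w => runB t (stepMap hB (dec m n) Lq upd) t w (nwT r c h) = Y) := by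
    funext Y
    congr 1
    funext w
    have e2 : sampler (inp r c k, ⟨w⟩) =
        toLists (runB t (fun u X => stepT hB X (val u)) t w (nwT r c h)).1 :=
      sampler_eq hB h ⟨k⟩ w
    have e3 : (fun (u : List Bool) (X : Tables r c) => stepT hB X (val u)) =
        stepMap hB (dec m n) Lq upd := by
      funext u X
      unfold stepMap stepT upd Lq
      congr 1
      exact (Nat.mod_mod _ _).symm
    rw [e2, e3, eq_iff_iff]
    exact ⟨fun h => Subtype.ext (toLists_injective h), fun h => by rw [h]⟩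
  rw [e1]
  obtain ⟨s1, s2, s3, s4, s5⟩ := le_esize_inp r c k
  set s := esize (inp r c k) with hs
  have hts : t = (s + 2) ^ 8 := rfl
  have hgap : ∀ F : Tables r c → ℝ, ∑ x, F x = 0 →
      (1 : ℝ) * ∑ x, F x ^ 2 ≤ ∑ q : Fin m × Fin m × Fin n × Fin n, ∑ x,
        (F x - ((avgKer (boxSetoid r c q.1 q.2.1 q.2.2.1 q.2.2.2)).mulVec F) x) ^ 2 := by
    intro F hF
    have h1 := four_variance_le r c F
    have h2 : ∑ x, (F x - avg ⊤ F x) ^ 2 = ∑ x, F x ^ 2 :=
      Finset.sum_congr rfl fun x _ => by rw [avg_top_eq_zero F hF x, sub_zero]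
    rw [h2] at h1
    have h3 : ∑ q : Fin m × Fin m × Fin n × Fin n, ∑ x,
        (F x - ((avgKer (boxSetoid r c q.1 q.2.1 q.2.2.1 q.2.2.2)).mulVec F) x) ^ 2 =
        ∑ q : Fin m × Fin m × Fin n × Fin n, boxForm r c F q := by
      refine Finset.sum_congr rfl fun q _ => Finset.sum_congr rfl fun x _ => ?_
      rw [avg_eq_avgKer]
    rw [h3]
    have : 0 ≤ ∑ x, F x ^ 2 := Finset.sum_nonneg fun _ _ => sq_nonneg _
    linarith
  have h1 := tv_run_le hB (dec m n) (fun q => boxSetoid r c q.1 q.2.1 q.2.2.1 q.2.2.2) Lq upd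
    Lq_pos Lq_le (fun q X v _ => upd_mem q X v) (fun q X v v' => upd_inj) (fun q X Y => exists_upd)
    (c := 1) (by exact_mod_cast hB) hgap t t (nwT r c h)
  refine h1.trans ?_
  rw [hts]
  refine estimate s3 s5 hB ?_ s4 ?_
  · calc m * (m * (n * n)) ≤ s * (s * (s * s)) := by gcongr
      _ = s ^ 4 := by ring
  · calc Fintype.card (Tables r c) ≤ (∑ i, r i + 1) ^ (m * n) := card_tables_le r c
      _ ≤ (2 ^ s) ^ (s * s) := (Nat.pow_le_pow_left s4 _).trans
          (Nat.pow_le_pow_right (by positivity) (Nat.mul_le_mul s1 s2))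
      _ = 2 ^ (s * s ^ 2) := by rw [← pow_mul]; congr 1; ring

end Vale.Agent.P328.Alg
end
end

section

section

namespace Vale.Agent.P328.SM

open Vale.Agent.P328.RM Vale.Agent.Lib.PolyTime Vale.Agent.P328.Alg

theorem block_eq (u v : List Bool) : block u v = pr u v := by
  induction u with
  | nil => rfl
  | cons b u ih => simp only [block, pr, ih]

theorem numbers_eq (l : List ℕ) : numbers l = enc l := by
  induction l with
  | nil => rfl
  | cons x l ih =>
    rw [enc_cons, ← ih, ← block_eq]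
    rfl

variable {m n : ℕ}

theorem inputWord_eq (r : Fin m → ℕ) (c : Fin n → ℕ) (k : ℕ) : inputWord r c k = enc (inp r c k) := by
  unfold inputWord inp
  rw [enc_pair, enc_pair, enc_un, ← numbers_eq, ← numbers_eq, block_eq, block_eq]

theorem foldr_block (l : List (List ℕ)) : (l.map numbers).foldr block [] = enc l := by
  induction l with
  | nil => rfl
  | cons x l ih =>
    rw [enc_cons, ← ih, ← block_eq, ← numbers_eq]
    rfl

theorem tableWord_eq (X : Fin m → Fin n → ℕ) : tableWord X = enc (toLists X) := by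
  unfold tableWord
  rw [← foldr_block]
  congr 1
  unfold toLists
  rw [List.map_ofFn]
  rfl

theorem enc_list_inj {α : Type*} [Enc α] (h : Function.Injective (enc : α → Word)) :
    Function.Injective (enc : List α → Word) := by
  intro l
  induction l with
  | nil =>
    intro l' hl
    cases l' with
    | nil => rfl
    | cons a l' =>
      rw [enc_nil, enc_cons] at hl
      have := congrArg List.length hl
      rw [length_pr] at this
      simp at this
  | cons a l ih =>
    intro l' hl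
    cases l' with
    | nil =>
      rw [enc_nil, enc_cons] at hl
      have := congrArg List.length hl
      rw [length_pr] at this
      simp at this
    | cons a' l' =>
      rw [enc_cons, enc_cons] at hl
      obtain ⟨h1, h2⟩ := pr_inj hl
      rw [h h1, ih h2]

theorem enc_nat_inj : Function.Injective (enc : ℕ → Word) := by
  intro a b h
  rw [enc_nat, enc_nat] at h
  rw [← val_bits a, ← val_bits b, h]

/-- There is an almost-uniform sampler for contingency tables. -/
theorem exists_sampler : ∃ f q, IsSampler f q := by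
  obtain ⟨g, hg, hg'⟩ := PT_sampler (A := ∅)
  have hq : ∀ x : ℕ, (((Polynomial.X + 2) ^ 16 : Polynomial ℕ)).eval x = (x + 2) ^ 16 := by
    intro x
    simp
  have key : ∀ (m n : ℕ) (r : Fin m → ℕ) (c : Fin n → ℕ) (k : ℕ) (w : List Bool),
      g (block (inputWord r c k) w) = enc (sampler (inp r c k, ⟨w⟩)) := by
    intro m n r c k w
    rw [← hg', enc_pair, block_eq, inputWord_eq]
    rfl
  refine ⟨g, (Polynomial.X + 2) ^ 16,
    exists_tm2_of_polyTimeFun id id g g (polyTimeFun_iff.2 hg) fun _ => rfl, ?_⟩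
  intro m n r c hm hn h k
  refine ⟨fun w _ => ?_, ?_⟩
  · obtain ⟨Y, hY⟩ := sampler_isTable hm hn h k w
    exact ⟨Y.1, Y.2, by rw [key, hY, tableWord_eq]⟩
  · have h1 := sampler_law hm hn h k
    have hT : clock (inp r c k) * clock (inp r c k) = ((inputWord r c k).length + 2) ^ 16 := by
      rw [inputWord_eq]
      unfold clock esize
      ring
    rw [hq]
    rw [hT] at h1
    have e : (fun X : Omega r c => prob (((inputWord r c k).length + 2) ^ 16) fun w =>
        g (block (inputWord r c k) w) = tableWord X.1) =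
        fun Y : Tables r c => Vale.Agent.P328.prob (((inputWord r c k).length + 2) ^ 16)
        (fun w => sampler (inp r c k, ⟨w⟩) = toLists Y.1) := by
      funext Y
      have e1 : (fun w => g (block (inputWord r c k) w) = tableWord Y.1) =
          (fun w => sampler (inp r c k, ⟨w⟩) = toLists Y.1) := by
        funext w
        rw [key, tableWord_eq, eq_iff_iff]
        exact (enc_list_inj (enc_list_inj enc_nat_inj)).eq_iff
      rw [e1]
      rfl
    rw [e]
    exact h1

theorem length_numbers (l : List ℕ) : (numbers l).length = 2 * (l.map Nat.size).sum + l.length := by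
  rw [numbers_eq]
  change esize l = _
  induction l with
  | nil => rfl
  | cons x l ih =>
    rw [esize_list_cons, ih, esize_nat]
    simp
    ring

/-- The length of the input word. -/
theorem length_inputWord (r : Fin m → ℕ) (c : Fin n → ℕ) (k : ℕ) :
    (inputWord r c k).length ≤ 8 * (inputSize r c + 1) + k := by
  unfold inputWord
  rw [block_eq, length_pr, block_eq, length_pr, length_numbers, length_numbers]
  simp only [List.map_ofFn, List.length_ofFn, List.length_replicate, List.sum_ofFn,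
    Function.comp]
  unfold inputSize
  omega

end Vale.Agent.P328.SM
end
end

section

section

/-!
The approximation algorithm: analysis of one round, and induction over the rounds.
-/

namespace Vale.Agent.P328.Fp

open Vale.Agent.Lib.PolyTime Function Vale.Agent.P328.Alg

variable {m n : ℕ} {r : Fin m → ℕ} {c : Fin n → ℕ}

/-- The proportion of the tables with an entry `≥ a` in the cell `(i, j)`. -/
noncomputable def pr1 (r : Fin m → ℕ) (c : Fin n → ℕ) (i : Fin m) (j : Fin n) (a : ℕ) : ℝ :=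
  ((Finset.univ.filter fun X : Tables r c => a ≤ X.1 i j).card : ℝ) /
    Fintype.card (Tables r c)

/-- The law of a sample. -/
noncomputable def law (t ℓ : ℕ) (r : Fin m → ℕ) (c : Fin n → ℕ) (Y : Tables r c) : ℝ :=
  prob (t * ℓ) fun w => samp t ℓ (List.ofFn r) (List.ofFn c) ⟨w⟩ = toLists Y.1

theorem prob_test (hm : 0 < m) (hn : 0 < n) (h : ∑ i, r i = ∑ j, c j) (t ℓ a : ℕ) (i : Fin m)
    (j : Fin n) {v : ℕ} (hi : v / n = i) (hj : v % n = j) :
    prob (t * ℓ) (fun u => test t ℓ (List.ofFn r) (List.ofFn c) n a v u = true) =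
      ∑ Y : Tables r c, if a ≤ Y.1 i j then law t ℓ r c Y else 0 := by
  classical
  unfold law
  simp only [prob_eq_sum]
  have h1 : ∀ Y : Tables r c, (if a ≤ Y.1 i j then
      (∑ w ∈ words (t * ℓ), if samp t ℓ (List.ofFn r) (List.ofFn c) ⟨w⟩ = toLists Y.1
        then (1 : ℝ) else 0) / 2 ^ (t * ℓ) else 0) =
      (∑ w ∈ words (t * ℓ), if samp t ℓ (List.ofFn r) (List.ofFn c) ⟨w⟩ = toLists Y.1
        then (if a ≤ Y.1 i j then (1 : ℝ) else 0) else 0) / 2 ^ (t * ℓ) := by
    intro Y
    split_ifs <;> simp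
  rw [Finset.sum_congr rfl fun Y _ => h1 Y, ← Finset.sum_div, Finset.sum_comm]
  congr 1
  refine Finset.sum_congr rfl fun w _ => ?_
  obtain ⟨X, hX⟩ := samp_table hm hn h t ℓ w
  rw [Finset.sum_eq_single X]
  · rw [if_pos hX]
    unfold test
    rw [hX, hi, hj, ent_toLists]
    simp
  · intro Y _ hY
    rw [if_neg]
    rw [hX]
    intro h2
    exact hY (Subtype.ext (toLists_injective h2)).symm
  · intro h2
    exact absurd (Finset.mem_univ X) h2

theorem pr1_eq (r : Fin m → ℕ) (c : Fin n → ℕ) (i : Fin m) (j : Fin n) (a : ℕ) :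
    pr1 r c i j a = ∑ Y : Tables r c, if a ≤ Y.1 i j then 1 / (Fintype.card (Tables r c) : ℝ) else 0
    := by
  unfold pr1
  rw [← Finset.sum_filter, Finset.sum_const, nsmul_eq_mul, mul_one_div]

theorem abs_prob_test (hm : 0 < m) (hn : 0 < n) (h : ∑ i, r i = ∑ j, c j) (t ℓ a : ℕ) (i : Fin m)
    (j : Fin n) {v : ℕ} (hi : v / n = i) (hj : v % n = j) {δ : ℝ}
    (hlaw : tv (law t ℓ r c) (fun _ => 1 / (Fintype.card (Tables r c) : ℝ)) ≤ δ) :
    |prob (t * ℓ) (fun u => test t ℓ (List.ofFn r) (List.ofFn c) n a v u = true) -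
      pr1 r c i j a| ≤ 2 * δ := by
  rw [prob_test hm hn h t ℓ a i j hi hj, pr1_eq, ← Finset.sum_sub_distrib]
  have h2 : ∑ Y : Tables r c, |law t ℓ r c Y - 1 / (Fintype.card (Tables r c) : ℝ)| ≤ 2 * δ := by
    unfold tv at hlaw
    linarith
  refine le_trans ?_ h2
  refine (Finset.abs_sum_le_sum_abs _ _).trans (Finset.sum_le_sum fun Y _ => ?_)
  split_ifs
  · exact le_rfl
  · simp

/-- The estimate is good. -/
def Good (θ : ℝ) (K : ℕ) (r : Fin m → ℕ) (c : Fin n → ℕ) (x y : ℕ) (z : ℕ × ℕ) : Prop :=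
  0 < z.2 ∧ (1 - θ) ^ K * Fintype.card (Tables r c) * (x / y) ≤ (z.1 : ℝ) / z.2 ∧
    (z.1 : ℝ) / z.2 ≤ (1 + θ) ^ K * Fintype.card (Tables r c) * (x / y)

theorem card_of_sum_zero (h : ∑ i, r i = ∑ j, c j) (h0 : ∑ i, r i = 0) :
    Fintype.card (Tables r c) = 1 := by
  rw [Fintype.card_eq_one_iff]
  have hr : ∀ i, r i = 0 := fun i => by
    have := Finset.single_le_sum (f := r) (fun _ _ => Nat.zero_le _) (Finset.mem_univ i)
    omega
  have hc : ∀ j, c j = 0 := fun j => by
    have := Finset.single_le_sum (f := c) (fun _ _ => Nat.zero_le _) (Finset.mem_univ j)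
    omega
  refine ⟨⟨fun _ _ => 0, fun i => by simp [hr], fun j => by simp [hc]⟩, fun Y => ?_⟩
  apply Subtype.ext
  funext i j
  have := entry_le_row Y i j
  rw [hr i] at this
  exact Nat.le_zero.1 this

theorem round_eq (t ℓ S : ℕ) (r : Fin m → ℕ) (c : Fin n → ℕ) (x y : ℕ) (w : Word) :
    round t ℓ S (((List.ofFn r, List.ofFn c), (x, y)), ⟨w⟩) =
      (((List.ofFn (lowerN r (pick m n (thrN m n (∑ i, r i))
          (samples t ℓ S (List.ofFn r) (List.ofFn c) ⟨w⟩) / n) (thrN m n (∑ i, r i))),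
        List.ofFn (lowerN c (pick m n (thrN m n (∑ i, r i))
          (samples t ℓ S (List.ofFn r) (List.ofFn c) ⟨w⟩) % n) (thrN m n (∑ i, r i)))),
        (x * S, y * hits n (thrN m n (∑ i, r i)) (samples t ℓ S (List.ofFn r) (List.ofFn c) ⟨w⟩)
          (pick m n (thrN m n (∑ i, r i))
            (samples t ℓ S (List.ofFn r) (List.ofFn c) ⟨w⟩)))), ⟨w.drop (S * (t * ℓ))⟩) := by
  unfold round
  dsimp only
  simp only [thr_ofFn, List.length_ofFn, lower_ofFn]

/-- Analysis of one round. -/
theorem round_good (hm : 0 < m) (hn : 0 < n) (h : ∑ i, r i = ∑ j, c j) {t ℓ S : ℕ} (hS : 0 < S)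
    {η : ℝ} (hη : 0 < η) (w : Word)
    (hlaw : tv (law t ℓ r c) (fun _ => 1 / (Fintype.card (Tables r c) : ℝ)) ≤ η / 2)
    (hw : ∀ v < m * n, |((((List.range S).filter fun q =>
      test t ℓ (List.ofFn r) (List.ofFn c) n (thrN m n (∑ i, r i)) v
        ((w.drop (q * (t * ℓ))).take (t * ℓ))).length : ℕ) : ℝ) / S -
      prob (t * ℓ) (fun u => test t ℓ (List.ofFn r) (List.ofFn c) n
        (thrN m n (∑ i, r i)) v u = true)| < η) :
    ∃ (i : Fin m) (j : Fin n) (g : ℕ), 0 < g ∧ thrN m n (∑ i, r i) ≤ r i ∧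
      thrN m n (∑ i, r i) ≤ c j ∧ S ≤ m * n * g ∧
      |(g : ℝ) / S - pr1 r c i j (thrN m n (∑ i, r i))| ≤ 2 * η ∧
      ∀ x y : ℕ, round t ℓ S (((List.ofFn r, List.ofFn c), (x, y)), ⟨w⟩) =
        (((List.ofFn (lowerN r i (thrN m n (∑ i, r i))),
          List.ofFn (lowerN c j (thrN m n (∑ i, r i)))), (x * S, y * g)),
          ⟨w.drop (S * (t * ℓ))⟩) := by
  set a := thrN m n (∑ i, r i) with ha
  obtain ⟨hv, hg⟩ := pick_spec hm hn h t ℓ S w
  rw [← ha] at hv hg
  set v := pick m n a (samples t ℓ S (List.ofFn r) (List.ofFn c) ⟨w⟩) with hvd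
  set g := hits n a (samples t ℓ S (List.ofFn r) (List.ofFn c) ⟨w⟩) v with hgd
  have hvi : v / n < m := by
    rw [Nat.div_lt_iff_lt_mul hn]
    exact hv
  have hvj : v % n < n := Nat.mod_lt _ hn
  have hg0 : 0 < g := by
    rcases Nat.eq_zero_or_pos g with h0 | h0
    · rw [h0] at hg
      omega
    · exact h0
  obtain ⟨X, hX⟩ : ∃ X : Tables r c, a ≤ X.1 ⟨v / n, hvi⟩ ⟨v % n, hvj⟩ := by
    have h1 : 0 < (((samples t ℓ S (List.ofFn r) (List.ofFn c) ⟨w⟩)).filter fun T =>
        decide (a ≤ ent T (v / n) (v % n))).length := hg0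
    obtain ⟨T, hT⟩ := List.exists_mem_of_length_pos h1
    rw [List.mem_filter, decide_eq_true_eq, samples, List.mem_map] at hT
    obtain ⟨⟨q, -, rfl⟩, h2⟩ := hT
    obtain ⟨X, hX⟩ := samp_table hm hn h t ℓ (w.drop (q * (t * ℓ)))
    refine ⟨X, ?_⟩
    rw [show (Raw.mk w).w = w from rfl, hX] at h2
    have h3 := ent_toLists X.1 ⟨v / n, hvi⟩ ⟨v % n, hvj⟩
    dsimp only at h3
    rwa [h3] at h2
  refine ⟨⟨v / n, hvi⟩, ⟨v % n, hvj⟩, g, hg0, hX.trans (entry_le_row X _ _),
    hX.trans (entry_le_col X _ _), hg, ?_, fun x y => round_eq t ℓ S r c x y w⟩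
  have h1 := hw v hv
  rw [← hits_eq, ← hgd] at h1
  have h2 := abs_prob_test hm hn h t ℓ a ⟨v / n, hvi⟩ ⟨v % n, hvj⟩ (v := v) rfl rfl hlaw
  have h3 := abs_sub_le ((g : ℝ) / S) (prob (t * ℓ) (fun u => test t ℓ (List.ofFn r) (List.ofFn c) n
        a v u = true)) (pr1 r c ⟨v / n, hvi⟩ ⟨v % n, hvj⟩ a)
  linarith

theorem round_append (t ℓ S : ℕ) (s : (List ℕ × List ℕ) × (ℕ × ℕ)) {u : Word}
    (hu : u.length = S * (t * ℓ)) (v : Word) :
    round t ℓ S (s, ⟨u ++ v⟩) = ((round t ℓ S (s, ⟨u⟩)).1, ⟨v⟩) := by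
  unfold round
  dsimp only
  have h1 : samples t ℓ S s.1.1 s.1.2 ⟨u ++ v⟩ = samples t ℓ S s.1.1 s.1.2 ⟨u⟩ := by
    apply samples_congr
    rw [List.take_append_of_le_length (by omega)]
  rw [h1, List.drop_append_of_le_length (by omega), List.drop_eq_nil_of_le (by omega)]
  rfl

theorem good_step {θ η : ℝ} {K S g a x y : ℕ} {i : Fin m} {j : Fin n} (hm : 0 < m) (hn : 0 < n)
    (hη : 0 < η) (hθ : θ = 2 * (m * n) * η) (hθ1 : θ ≤ 1) (hS : 0 < S) (hg : 0 < g)
    (hai : a ≤ r i) (haj : a ≤ c j) (hcard : 0 < Fintype.card (Tables r c))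
    (hSg : S ≤ m * n * g) (hp : |(g : ℝ) / S - pr1 r c i j a| ≤ 2 * η) (hx : 0 < x) (hy : 0 < y)
    {z : ℕ × ℕ} (hz : Good θ K (lowerN r i a) (lowerN c j a) (x * S) (y * g) z) :
    Good θ (K + 1) r c x y z := by
  obtain ⟨h1, h2, h3⟩ := hz
  have hmr : (0 : ℝ) < m := by exact_mod_cast hm
  have hnr : (0 : ℝ) < n := by exact_mod_cast hn
  have hSr : (0 : ℝ) < S := by exact_mod_cast hS
  have hgr : (0 : ℝ) < g := by exact_mod_cast hg
  have hxr : (0 : ℝ) < x := by exact_mod_cast hx
  have hyr : (0 : ℝ) < y := by exact_mod_cast hy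
  have hC : (0 : ℝ) < Fintype.card (Tables r c) := by exact_mod_cast hcard
  have hSg' : (S : ℝ) ≤ m * n * g := by exact_mod_cast hSg
  have hθ0 : 0 < θ := by rw [hθ]; positivity
  set p := pr1 r c i j a with hpdef
  have hcl : (Fintype.card (Tables (lowerN r i a) (lowerN c j a)) : ℝ) =
      p * Fintype.card (Tables r c) := by
    rw [card_lower r c i j a hai haj, hpdef, pr1, div_mul_cancel₀ _ hC.ne']
  have hĝ : 2 * η ≤ θ * (g / S) := by
    rw [hθ, ← mul_div_assoc, le_div_iff₀ hSr]
    nlinarith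
  have hpu : p ≤ (1 + θ) * (g / S) := by
    have := (abs_le.1 hp).1
    linarith
  have hpl : (1 - θ) * (g / S) ≤ p := by
    have := (abs_le.1 hp).2
    linarith
  have e1 : ((x * S : ℕ) : ℝ) / ((y * g : ℕ) : ℝ) = (x / y) / (g / S) := by
    push_cast
    field_simp
  have hq : 0 < (g : ℝ) / S := by positivity
  refine ⟨h1, le_trans ?_ h2, h3.trans ?_⟩
  · rw [hcl, e1, pow_succ]
    have h4 : (1 - θ) ≤ p / (g / S) := by rwa [le_div_iff₀ hq]
    calc (1 - θ) ^ K * (1 - θ) * Fintype.card (Tables r c) * ((x : ℝ) / y)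
        = ((1 - θ) ^ K * Fintype.card (Tables r c) * ((x : ℝ) / y)) * (1 - θ) := by ring
      _ ≤ ((1 - θ) ^ K * Fintype.card (Tables r c) * ((x : ℝ) / y)) * (p / (g / S)) := by
          apply mul_le_mul_of_nonneg_left h4
          have : 0 ≤ (1 - θ) ^ K := pow_nonneg (by linarith) K
          positivity
      _ = (1 - θ) ^ K * (p * Fintype.card (Tables r c)) * (x / y / (g / S)) := by
          field_simp
  · rw [hcl, e1, pow_succ]
    have h4 : p / (g / S) ≤ (1 + θ) := by rwa [div_le_iff₀ hq]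
    calc (1 + θ) ^ K * (p * Fintype.card (Tables r c)) * (x / y / (g / S))
        = ((1 + θ) ^ K * Fintype.card (Tables r c) * ((x : ℝ) / y)) * (p / (g / S)) := by
          field_simp
      _ ≤ ((1 + θ) ^ K * Fintype.card (Tables r c) * ((x : ℝ) / y)) * (1 + θ) := by
          apply mul_le_mul_of_nonneg_left h4
          positivity
      _ = (1 + θ) ^ K * (1 + θ) * Fintype.card (Tables r c) * ((x : ℝ) / y) := by ring

/-- Analysis of all rounds. -/
theorem rounds_good (hm : 0 < m) (hn : 0 < n) {t ℓ S N0 : ℕ} (hS : 0 < S) {η θ : ℝ} (hη : 0 < η)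
    (hη2 : η ≤ 2) (hθ : θ = 2 * (m * n) * η) (hθ1 : θ ≤ 1)
    (hlaw : ∀ (r : Fin m → ℕ) (c : Fin n → ℕ), ∑ i, r i = ∑ j, c j → ∑ i, r i ≤ N0 →
      tv (law t ℓ r c) (fun _ => 1 / (Fintype.card (Tables r c) : ℝ)) ≤ η / 2) :
    ∀ (K : ℕ) (r : Fin m → ℕ) (c : Fin n → ℕ) (x y : ℕ), ∑ i, r i = ∑ j, c j → ∑ i, r i ≤ N0 →
      ((∑ i, r i : ℕ) : ℝ) * (1 - 1 / (m * n)) ^ K < 1 → 0 < x → 0 < y →
      prob (K * (S * (t * ℓ))) (fun w => ¬ Good θ K r c x y
        ((round t ℓ S)^[K] (((List.ofFn r, List.ofFn c), (x, y)), ⟨w⟩)).1.2) ≤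
        K * ((m * n : ℕ) * (2 * Real.exp (-(S * η ^ 2 / 4)))) := by
  intro K
  induction K with
  | zero =>
    intro r c x y h _ hN hx hy
    have h0 : ∑ i, r i = 0 := by
      rw [pow_zero, mul_one] at hN
      have : (∑ i, r i : ℕ) < 1 := by exact_mod_cast hN
      omega
    have h1 : ∀ w : Word, Good θ 0 r c x y
        ((round t ℓ S)^[0] (((List.ofFn r, List.ofFn c), (x, y)), ⟨w⟩)).1.2 := by
      intro w
      refine ⟨hy, ?_, ?_⟩ <;>
      simp [card_of_sum_zero h h0]
    simp only [h1, not_true, Nat.cast_zero, zero_mul]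
    rw [prob]
    simp
  | succ K ih =>
    intro r c x y h hN0 hN hx hy
    have hmr : (0 : ℝ) < m := by exact_mod_cast hm
    have hnr : (0 : ℝ) < n := by exact_mod_cast hn
    have hM : 0 < m * n := by positivity
    set D := S * (t * ℓ) with hD
    set a := thrN m n (∑ i, r i) with ha
    set β := ((m * n : ℕ) : ℝ) * (2 * Real.exp (-(S * η ^ 2 / 4))) with hβ
    have e1 : (K + 1) * D = D + K * D := by ring
    have e2 : ((K + 1 : ℕ) : ℝ) * β = β + K * β := by push_cast; ring
    rw [e1, e2]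
    refine prob_add_le D (K * D) (fun u => ∃ v < m * n, η ≤ |((((List.range S).filter fun q =>
      test t ℓ (List.ofFn r) (List.ofFn c) n a v
        ((u.drop (q * (t * ℓ))).take (t * ℓ))).length : ℕ) : ℝ) / S -
      prob (t * ℓ) (fun u => test t ℓ (List.ofFn r) (List.ofFn c) n a v u = true)|) _
      (by positivity) ?_ ?_
    · rw [hβ]
      exact prob_exists_le _ _ _ fun v _ => prob_count_dev (t * ℓ) S hS _ hη hη2
    · intro u hu hbad
      push Not at hbad
      obtain ⟨i, j, g, hg, hai, haj, hSg, hp, hround⟩ :=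
        round_good hm hn h (t := t) (ℓ := ℓ) hS hη u (hlaw r c h hN0) hbad
      rw [← ha] at hai haj hp hround
      have hsr := sum_lowerN r i hai
      have hsc := sum_lowerN c j haj
      have hcard : 0 < Fintype.card (Tables r c) :=
        Fintype.card_pos_iff.2 ⟨nwT r c h⟩
      have haN : (∑ i, r i : ℕ) ≤ m * n * a := (thrN_spec (N := ∑ i, r i) hM).1
      have haN' : ((∑ i, r i : ℕ) : ℝ) ≤ m * n * a := by exact_mod_cast haN
      refine le_trans (prob_mono _ fun v _ hv => ?_) (ih (lowerN r i a) (lowerN c j a) (x * S)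
        (y * g) (by omega) (by omega) ?_ (by positivity) (by positivity))
      · intro hgood
        apply hv
        rw [iterate_succ_apply, round_append t ℓ S _ hu v, hround x y]
        exact good_step hm hn hη hθ hθ1 hS hg hai haj hcard hSg hp hx hy hgood
      · refine lt_of_le_of_lt ?_ hN
        have h1 : ((∑ j, lowerN r i a j : ℕ) : ℝ) + a = ((∑ i, r i : ℕ) : ℝ) := by
          exact_mod_cast hsr
        have h2 : (0 : ℝ) ≤ 1 - 1 / (m * n) := by
          rw [sub_nonneg, div_le_one (by positivity)]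
          exact_mod_cast hM
        have h3 : ((∑ j, lowerN r i a j : ℕ) : ℝ) ≤ ((∑ i, r i : ℕ) : ℝ) * (1 - 1 / (m * n)) := by
          have h4 : ((∑ i, r i : ℕ) : ℝ) / (m * n) ≤ a := by
            rw [div_le_iff₀ (by positivity)]
            linarith
          have h5 : ((∑ i, r i : ℕ) : ℝ) * (1 - 1 / (m * n)) =
              ((∑ i, r i : ℕ) : ℝ) - ((∑ i, r i : ℕ) : ℝ) / (m * n) := by ring
          rw [h5]
          linarith
        rw [pow_succ']
        calc ((∑ j, lowerN r i a j : ℕ) : ℝ) * (1 - 1 / (m * n)) ^ K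
            ≤ (((∑ i, r i : ℕ) : ℝ) * (1 - 1 / (m * n))) * (1 - 1 / (m * n)) ^ K :=
              mul_le_mul_of_nonneg_right h3 (pow_nonneg h2 K)
          _ = _ := by ring

end Vale.Agent.P328.Fp
end
end

section

section

/-!
The law of a sample with `T` steps and `T` bits per step.
-/

namespace Vale.Agent.P328.Fp

open Vale.Agent.Lib.PolyTime Function Vale.Agent.P328.Alg

variable {m n : ℕ} {r : Fin m → ℕ} {c : Fin n → ℕ}

theorem samp_law (hm : 0 < m) (hn : 0 < n) (h : ∑ i, r i = ∑ j, c j) {s k : ℕ} (hk : k ≤ s)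
    (hs : 1 ≤ s) (hms : m ≤ s) (hns : n ≤ s) (hN : ∑ i, r i + 1 ≤ 2 ^ s) :
    tv (fun Y : Tables r c => prob ((s + 2) ^ 8 * (s + 2) ^ 8)
        (fun w => samp ((s + 2) ^ 8) ((s + 2) ^ 8) (List.ofFn r) (List.ofFn c) ⟨w⟩ = toLists Y.1))
      (fun _ => 1 / (Fintype.card (Tables r c) : ℝ)) ≤ (1 / 2) ^ k := by
  have hB : 0 < m * (m * (n * n)) := by positivity
  have : Nonempty (Fin m) := ⟨⟨0, hm⟩⟩
  have : Nonempty (Fin n) := ⟨⟨0, hn⟩⟩
  have : Nonempty (Tables r c) := ⟨nwT r c h⟩
  obtain ⟨t, ht⟩ : ∃ t, t = (s + 2) ^ 8 := ⟨_, rfl⟩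
  rw [← ht]
  have e1 : (fun Y : Tables r c => prob (t * t)
        (fun w => samp t t (List.ofFn r) (List.ofFn c) ⟨w⟩ = toLists Y.1)) =
      fun Y : Tables r c => prob (t * t)
        (fun w => runB t (stepMap hB (dec m n) Lq upd) t w (nwT r c h) = Y) := by
    funext Y
    congr 1
    funext w
    have e2 : samp t t (List.ofFn r) (List.ofFn c) ⟨w⟩ =
        toLists (runB t (fun u X => stepT hB X (val u)) t w (nwT r c h)).1 := by
      unfold samp
      simp only [List.length_ofFn]
      rw [mk_eq_toLists]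
      have := iterate_stepRaw hB t t (nwT r c h) w
      rw [show (fun (i : Fin m) (a : Fin n) => nw (List.ofFn r) (List.ofFn c) i a) = (nwT r c h).1
        from rfl, this]
    have e3 : (fun (u : List Bool) (X : Tables r c) => stepT hB X (val u)) =
        stepMap hB (dec m n) Lq upd := by
      funext u X
      unfold stepMap stepT upd Lq
      congr 1
      exact (Nat.mod_mod _ _).symm
    rw [e2, e3, eq_iff_iff]
    exact ⟨fun h => Subtype.ext (toLists_injective h), fun h => by rw [h]⟩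
  rw [e1]
  have hgap : ∀ F : Tables r c → ℝ, ∑ x, F x = 0 →
      (1 : ℝ) * ∑ x, F x ^ 2 ≤ ∑ q : Fin m × Fin m × Fin n × Fin n, ∑ x,
        (F x - ((avgKer (boxSetoid r c q.1 q.2.1 q.2.2.1 q.2.2.2)).mulVec F) x) ^ 2 := by
    intro F hF
    have h1 := four_variance_le r c F
    have h2 : ∑ x, (F x - avg ⊤ F x) ^ 2 = ∑ x, F x ^ 2 :=
      Finset.sum_congr rfl fun x _ => by rw [avg_top_eq_zero F hF x, sub_zero]
    rw [h2] at h1
    have h3 : ∑ q : Fin m × Fin m × Fin n × Fin n, ∑ x,
        (F x - ((avgKer (boxSetoid r c q.1 q.2.1 q.2.2.1 q.2.2.2)).mulVec F) x) ^ 2 =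
        ∑ q : Fin m × Fin m × Fin n × Fin n, boxForm r c F q := by
      refine Finset.sum_congr rfl fun q _ => Finset.sum_congr rfl fun x _ => ?_
      rw [avg_eq_avgKer]
    rw [h3]
    have : 0 ≤ ∑ x, F x ^ 2 := Finset.sum_nonneg fun _ _ => sq_nonneg _
    linarith
  have h1 := tv_run_le hB (dec m n) (fun q => boxSetoid r c q.1 q.2.1 q.2.2.1 q.2.2.2) Lq upd
    Lq_pos Lq_le (fun q X v _ => upd_mem q X v) (fun q X v v' => upd_inj) (fun q X Y => exists_upd)
    (c := 1) (by exact_mod_cast hB) hgap t t (nwT r c h)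
  refine h1.trans ?_
  rw [ht]
  refine estimate hk hs hB ?_ hN ?_
  · calc m * (m * (n * n)) ≤ s * (s * (s * s)) := by gcongr
      _ = s ^ 4 := by ring
  · calc Fintype.card (Tables r c) ≤ (∑ i, r i + 1) ^ (m * n) := card_tables_le r c
      _ ≤ (2 ^ s) ^ (s * s) := (Nat.pow_le_pow_left hN _).trans
          (Nat.pow_le_pow_right (by positivity) (Nat.mul_le_mul hms hns))
      _ = 2 ^ (s * s ^ 2) := by rw [← pow_mul]; congr 1; ring

end Vale.Agent.P328.Fp
end
end

section

section

/-!
The approximation algorithm: choice of the parameters, and the final probability bound.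
-/

namespace Vale.Agent.P328.Fp

open Vale.Agent.Lib.PolyTime Function Vale.Agent.P328.Alg

variable {m n : ℕ}

/-- The input of the approximation algorithm. -/
def inp2 (r : Fin m → ℕ) (c : Fin n → ℕ) (e d : ℕ) : Input2 :=
  ((List.ofFn r, List.ofFn c), (⟨e⟩, ⟨d⟩))

theorem le_sz (r : Fin m → ℕ) (c : Fin n → ℕ) (e d : ℕ) :
    m ≤ sz (inp2 r c e d) ∧ n ≤ sz (inp2 r c e d) ∧ e ≤ sz (inp2 r c e d) ∧
      d ≤ sz (inp2 r c e d) ∧ ∑ i, r i + 1 ≤ 2 ^ sz (inp2 r c e d) ∧ 3 ≤ sz (inp2 r c e d) := by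
  have h1 : esize (inp2 r c e d) =
      2 * (2 * esize (List.ofFn r) + esize (List.ofFn c) + 1) + (2 * e + d + 1) + 1 := by
    unfold inp2
    rw [esize_pair, esize_pair, esize_pair, esize_un, esize_un]
  have h2 := length_le_esize (List.ofFn r)
  have h3 := length_le_esize (List.ofFn c)
  have h4 := sum_succ_le (List.ofFn r)
  rw [List.length_ofFn] at h2 h3
  rw [ofFn_sum] at h4
  unfold sz
  refine ⟨by omega, by omega, by omega, by omega,
    h4.trans (Nat.pow_le_pow_right (by norm_num) (by omega)), by omega⟩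

theorem pow_one_add_le {e K : ℕ} (he : 0 < e) (hK : 0 < K) :
    (1 + 1 / (2 * e * K : ℝ)) ^ K ≤ 1 + 1 / e := by
  have her : (1 : ℝ) ≤ e := by exact_mod_cast he
  have hKr : (0 : ℝ) < K := by exact_mod_cast hK
  have h1 : (1 + 1 / (2 * e * K : ℝ)) ≤ Real.exp (1 / (2 * e * K : ℝ)) := by
    have := Real.add_one_le_exp (1 / (2 * e * K : ℝ))
    linarith
  have h2 : Real.exp (1 / (2 * e * K : ℝ)) ^ K = Real.exp (1 / (2 * e)) := by
    rw [← Real.exp_nat_mul]
    congr 1
    field_simp
  have h3 : Real.exp (1 / (2 * (e : ℝ))) ≤ 1 + 1 / e := by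
    have hx : |1 / (2 * (e : ℝ))| ≤ 1 := by
      rw [abs_of_nonneg (by positivity), div_le_one (by positivity)]
      linarith
    have h4 := Real.abs_exp_sub_one_sub_id_le hx
    have h5 := (abs_le.1 h4).2
    have h6 : (1 / (2 * (e : ℝ))) ^ 2 ≤ 1 / (2 * (e : ℝ)) := by
      rw [sq]
      have h7 : 1 / (2 * (e : ℝ)) ≤ 1 := by
        rw [div_le_one (by positivity)]
        linarith
      have h8 : 0 ≤ 1 / (2 * (e : ℝ)) := by positivity
      nlinarith
    have h7 : 1 / (e : ℝ) = 1 / (2 * (e : ℝ)) + 1 / (2 * (e : ℝ)) := by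
      field_simp
      norm_num
    linarith
  calc (1 + 1 / (2 * e * K : ℝ)) ^ K ≤ Real.exp (1 / (2 * e * K : ℝ)) ^ K := by
        gcongr
    _ = Real.exp (1 / (2 * e)) := h2
    _ ≤ _ := h3

theorem one_sub_le_pow {e K : ℕ} (he : 0 < e) (hK : 0 < K) :
    1 - 1 / (e : ℝ) ≤ (1 - 1 / (2 * e * K : ℝ)) ^ K := by
  have her : (1 : ℝ) ≤ e := by exact_mod_cast he
  have hKr : (1 : ℝ) ≤ K := by exact_mod_cast hK
  have h0 : 1 / (2 * e * K : ℝ) ≤ 1 := by
    rw [div_le_one (by positivity)]
    nlinarith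
  have h1 := one_add_mul_le_pow (a := -(1 / (2 * e * K : ℝ))) (by linarith) K
  have h2 : (K : ℝ) * -(1 / (2 * e * K : ℝ)) = -(1 / (2 * e)) := by
    field_simp
  have h3 : 1 / (2 * (e : ℝ)) ≤ 1 / e := by
    apply one_div_le_one_div_of_le (by positivity)
    linarith
  rw [h2] at h1
  have h4 : (1 : ℝ) - 1 / (2 * e * K : ℝ) = 1 + -(1 / (2 * e * K : ℝ)) := by ring
  rw [h4]
  linarith

theorem halfpow_eq (k : ℕ) : ((1 : ℝ) / 2) ^ k = 1 / 2 ^ k := by
  rw [div_pow, one_pow]

theorem exp_neg_le (k : ℕ) : Real.exp (-(k : ℝ)) ≤ 1 / 2 ^ k := by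
  rw [Real.exp_neg, ← one_div]
  apply one_div_le_one_div_of_le (by positivity)
  have h := Real.add_one_le_exp (1 : ℝ)
  calc (2 : ℝ) ^ k ≤ Real.exp 1 ^ k := by
        gcongr
        linarith
    _ = Real.exp k := by rw [← Real.exp_nat_mul, mul_one]

theorem total_lt {s M K N : ℕ} (hM : 0 < M) (hMs : M * s ≤ K) (hN : N + 1 ≤ 2 ^ s) :
    (N : ℝ) * (1 - 1 / (M : ℝ)) ^ K < 1 := by
  have hMr : (0 : ℝ) < M := by exact_mod_cast hM
  have h1 : (1 : ℝ) - 1 / M ≤ Real.exp (-(1 / M)) := Real.one_sub_le_exp_neg _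
  have h0 : (0 : ℝ) ≤ 1 - 1 / M := by
    rw [sub_nonneg, div_le_one hMr]
    exact_mod_cast hM
  have h2 : (1 - 1 / (M : ℝ)) ^ K ≤ 1 / 2 ^ s := by
    calc (1 - 1 / (M : ℝ)) ^ K ≤ Real.exp (-(1 / M)) ^ K := by gcongr
      _ = Real.exp (-((K : ℝ) / M)) := by
          rw [← Real.exp_nat_mul]
          congr 1
          ring
      _ ≤ Real.exp (-(s : ℝ)) := by
          rw [Real.exp_le_exp, neg_le_neg_iff, le_div_iff₀ hMr]
          have : ((M * s : ℕ) : ℝ) ≤ K := by exact_mod_cast hMs
          push_cast at this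
          linarith
      _ ≤ _ := exp_neg_le s
  have h3 : (N : ℝ) + 1 ≤ 2 ^ s := by exact_mod_cast hN
  calc (N : ℝ) * (1 - 1 / (M : ℝ)) ^ K ≤ N * (1 / 2 ^ s) := by gcongr
    _ < 1 := by
        rw [mul_one_div, div_lt_one (by positivity)]
        linarith

/-- The sampling error is small enough. -/
theorem eta_bound {s e M : ℕ} (he0 : 0 < e) (hM0 : 0 < M) (he : e ≤ s) (hM : M ≤ s ^ 2)
    (hs : 3 ≤ s) : ((1 : ℝ) / 2) ^ (8 * s) ≤ 1 / (4 * e * (s ^ 3 : ℕ) * M) / 2 := by
  have her : (0 : ℝ) < e := by exact_mod_cast he0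
  have hMr : (0 : ℝ) < M := by exact_mod_cast hM0
  have hsr : (0 : ℝ) < ((s ^ 3 : ℕ) : ℝ) := by
    have : 0 < s ^ 3 := by positivity
    exact_mod_cast this
  rw [halfpow_eq, div_div]
  apply one_div_le_one_div_of_le (by positivity)
  have h1 : 4 * e * s ^ 3 * M * 2 ≤ 2 ^ (8 * s) := by
    have h2 : s ≤ 2 ^ s := Nat.lt_two_pow_self.le
    calc 4 * e * s ^ 3 * M * 2 ≤ 4 * s * s ^ 3 * s ^ 2 * 2 := by gcongr
      _ = 2 ^ 3 * s ^ 6 := by ring
      _ ≤ 2 ^ 3 * (2 ^ s) ^ 6 := by gcongr
      _ = 2 ^ (3 + 6 * s) := by rw [← pow_mul, ← pow_add]; congr 1; ring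
      _ ≤ 2 ^ (8 * s) := Nat.pow_le_pow_right (by norm_num) (by omega)
  exact_mod_cast h1

/-- The failure probability is small enough. -/
theorem fail_bound {s e M d : ℕ} (he0 : 0 < e) (hM0 : 0 < M) (he : e ≤ s) (hM : M ≤ s ^ 2)
    (hd : d ≤ s) (hs : 3 ≤ s) :
    ((s ^ 3 : ℕ) : ℝ) * ((M : ℕ) * (2 * Real.exp (-(((s ^ 20 : ℕ) : ℝ) *
      (1 / (4 * e * (s ^ 3 : ℕ) * M)) ^ 2 / 4)))) ≤ (1 / 2) ^ d := by
  have her : (0 : ℝ) < e := by exact_mod_cast he0
  have hMr : (0 : ℝ) < M := by exact_mod_cast hM0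
  have hs0 : (0 : ℝ) < s := by
    have : 0 < s := by omega
    exact_mod_cast this
  have her' : (e : ℝ) ≤ s := by exact_mod_cast he
  have hMr' : (M : ℝ) ≤ s ^ 2 := by exact_mod_cast hM
  have h1 : ((6 * s + 1 : ℕ) : ℝ) ≤ ((s ^ 20 : ℕ) : ℝ) *
      (1 / (4 * e * (s ^ 3 : ℕ) * M)) ^ 2 / 4 := by
    push_cast
    have h2 : (4 * e * s ^ 3 * M : ℝ) ≤ 4 * s * s ^ 3 * s ^ 2 := by gcongr
    have h3 : (1 : ℝ) / (4 * s * s ^ 3 * s ^ 2) ≤ 1 / (4 * e * s ^ 3 * M) :=
      one_div_le_one_div_of_le (by positivity) h2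
    have h4 : (s : ℝ) ^ 8 / 64 ≤ (s : ℝ) ^ 20 * (1 / (4 * e * s ^ 3 * M)) ^ 2 / 4 := by
      calc (s : ℝ) ^ 8 / 64 = (s : ℝ) ^ 20 * (1 / (4 * s * s ^ 3 * s ^ 2)) ^ 2 / 4 := by
            field_simp
            norm_num
        _ ≤ _ := by gcongr
    refine le_trans ?_ h4
    rw [le_div_iff₀ (by norm_num)]
    have h5 : (6 * s + 1) * 64 ≤ s ^ 8 := by
      calc (6 * s + 1) * 64 ≤ 3 ^ 7 * s := by omega
        _ ≤ s ^ 7 * s := by gcongr
        _ = s ^ 8 := by ring
    exact_mod_cast h5
  have h2 : Real.exp (-(((s ^ 20 : ℕ) : ℝ) * (1 / (4 * e * (s ^ 3 : ℕ) * M)) ^ 2 / 4)) ≤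
      1 / 2 ^ (6 * s + 1) := by
    refine le_trans ?_ (exp_neg_le _)
    rw [Real.exp_le_exp]
    linarith
  calc ((s ^ 3 : ℕ) : ℝ) * ((M : ℕ) * (2 * Real.exp (-(((s ^ 20 : ℕ) : ℝ) *
      (1 / (4 * e * (s ^ 3 : ℕ) * M)) ^ 2 / 4))))
      ≤ ((s ^ 3 : ℕ) : ℝ) * (((s ^ 2 : ℕ) : ℝ) * (2 * (1 / 2 ^ (6 * s + 1)))) := by
        gcongr
    _ = ((s ^ 5 : ℕ) : ℝ) * 2 / 2 ^ (6 * s + 1) := by
        push_cast
        ring
    _ ≤ (1 / 2) ^ d := by
        rw [halfpow_eq, div_le_div_iff₀ (by positivity) (by positivity), one_mul]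
        have h3 : s ^ 5 * 2 * 2 ^ d ≤ 2 ^ (6 * s + 1) := by
          have h2 : s ≤ 2 ^ s := Nat.lt_two_pow_self.le
          calc s ^ 5 * 2 * 2 ^ d ≤ (2 ^ s) ^ 5 * 2 * 2 ^ s := by
                gcongr
                norm_num
            _ = 2 ^ (6 * s + 1) := by rw [← pow_mul]; ring
        exact_mod_cast h3

/-- **The approximation algorithm is correct**: relative error `1 / e` except with probability
`2⁻ᵈ`. -/
theorem approx_good (hm : 0 < m) (hn : 0 < n) (r : Fin m → ℕ) (c : Fin n → ℕ)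
    (h : ∑ i, r i = ∑ j, c j) {e : ℕ} (he : 0 < e) (d : ℕ) :
    prob (bits2 (inp2 r c e d)) (fun w => ¬ (0 < (approx (inp2 r c e d, ⟨w⟩)).2 ∧
      (1 - 1 / (e : ℝ)) * Fintype.card (Tables r c) ≤
        ((approx (inp2 r c e d, ⟨w⟩)).1 : ℝ) / (approx (inp2 r c e d, ⟨w⟩)).2 ∧
      ((approx (inp2 r c e d, ⟨w⟩)).1 : ℝ) / (approx (inp2 r c e d, ⟨w⟩)).2 ≤
        (1 + 1 / (e : ℝ)) * Fintype.card (Tables r c))) ≤ (1 / 2) ^ d := by
  obtain ⟨h1, h2, h3, h4, h5, h6⟩ := le_sz r c e d
  obtain ⟨s, hs⟩ : ∃ s, s = sz (inp2 r c e d) := ⟨_, rfl⟩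
  rw [← hs] at h1 h2 h3 h4 h5 h6
  have hM0 : 0 < m * n := by positivity
  have hM : m * n ≤ s ^ 2 := by
    rw [sq]
    exact Nat.mul_le_mul h1 h2
  have hK0 : 0 < s ^ 3 := by positivity
  have hMr : (0 : ℝ) < ((m * n : ℕ) : ℝ) := by exact_mod_cast hM0
  have hM1 : (1 : ℝ) ≤ ((m * n : ℕ) : ℝ) := by exact_mod_cast hM0
  have hKr : (1 : ℝ) ≤ ((s ^ 3 : ℕ) : ℝ) := by exact_mod_cast hK0
  have her : (1 : ℝ) ≤ (e : ℝ) := by exact_mod_cast he
  set η : ℝ := 1 / (4 * e * (s ^ 3 : ℕ) * (m * n : ℕ)) with hη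
  set θ : ℝ := 1 / (2 * e * (s ^ 3 : ℕ)) with hθ
  have hη0 : 0 < η := by positivity
  have hη2 : η ≤ 2 := by
    rw [hη, div_le_iff₀ (by positivity)]
    have h7 : (1 : ℝ) ≤ e * (s ^ 3 : ℕ) * (m * n : ℕ) :=
      one_le_mul_of_one_le_of_one_le (one_le_mul_of_one_le_of_one_le her hKr) hM1
    nlinarith
  have hθη : θ = 2 * (m * n) * η := by
    rw [hθ, hη]
    push_cast
    field_simp
    norm_num
  have hθ1 : θ ≤ 1 := by
    rw [hθ, div_le_one (by positivity)]
    have h7 : (1 : ℝ) ≤ e * (s ^ 3 : ℕ) := one_le_mul_of_one_le_of_one_le her hKr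
    linarith
  have hclk : clk (inp2 r c e d) = (8 * s + 2) ^ 8 := by rw [clk, ← hs]
  have hsmp : smp (inp2 r c e d) = s ^ 20 := by rw [smp, ← hs]
  have hrds : rds (inp2 r c e d) = s ^ 3 := by rw [rds, ← hs]
  have key := rounds_good (m := m) (n := n) (t := (8 * s + 2) ^ 8) (ℓ := (8 * s + 2) ^ 8)
    (S := s ^ 20) (N0 := ∑ i, r i) hm hn (by positivity) hη0 hη2 hθη hθ1
    (fun r' c' h' hle => (samp_law hm hn h' (s := 8 * s) (k := 8 * s) le_rfl (by omega)
      (by omega) (by omega) (le_trans (by omega) (h5.trans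
        (Nat.pow_le_pow_right (by norm_num) (by omega))))).trans
        (eta_bound he hM0 h3 hM h6)) (s ^ 3) r c 1 1 h le_rfl
    (by
      have := total_lt hM0 (show m * n * s ≤ s ^ 3 by
        calc m * n * s ≤ s ^ 2 * s := Nat.mul_le_mul_right _ hM
          _ = s ^ 3 := by ring) h5
      push_cast at this ⊢
      exact this) one_pos one_pos
  refine le_trans ?_ (key.trans (fail_bound he hM0 h3 hM h4 h6))
  unfold bits2
  rw [hclk, hsmp, hrds]
  apply prob_mono
  intro w _ hw hgood
  apply hw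
  have e1 : approx (inp2 r c e d, ⟨w⟩) = ((round ((8 * s + 2) ^ 8) ((8 * s + 2) ^ 8)
      (s ^ 20))^[s ^ 3] (((List.ofFn r, List.ofFn c), (1, 1)), ⟨w⟩)).1.2 := by
    have e0 : (inp2 r c e d).1 = (List.ofFn r, List.ofFn c) := rfl
    simp only [approx, hclk, hsmp, hrds, e0]
  rw [e1]
  obtain ⟨g1, g2, g3⟩ := hgood
  refine ⟨g1, le_trans ?_ g2, g3.trans ?_⟩
  · have h8 : 1 - 1 / (e : ℝ) ≤ (1 - θ) ^ (s ^ 3) := one_sub_le_pow (e := e) he hK0
    rw [Nat.cast_one, div_one, mul_one]
    exact mul_le_mul_of_nonneg_right h8 (Nat.cast_nonneg _)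
  · have h8 : (1 + θ) ^ (s ^ 3) ≤ 1 + 1 / (e : ℝ) := pow_one_add_le (e := e) he hK0
    rw [Nat.cast_one, div_one, mul_one]
    exact mul_le_mul_of_nonneg_right h8 (Nat.cast_nonneg _)

end Vale.Agent.P328.Fp
end
end

section

section

namespace Vale.Agent.P328.SM

open Vale.Agent.P328.RM Vale.Agent.Lib.PolyTime Vale.Agent.P328.Alg Vale.Agent.P328.Fp

variable {m n : ℕ}

theorem countWord_eq (r : Fin m → ℕ) (c : Fin n → ℕ) (e d : ℕ) :
    countWord r c e d = enc (inp2 r c e d) := by
  unfold countWord inp2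
  rw [enc_pair, enc_pair, enc_pair, enc_un, enc_un, ← numbers_eq, ← numbers_eq, block_eq, block_eq,
    block_eq]

theorem prob_compl (L : ℕ) (P : List Bool → Prop) :
    Vale.Agent.P328.prob L P = 1 - Vale.Agent.P328.prob L (fun w => ¬ P w) := by
  classical
  rw [prob_eq_sum, prob_eq_sum, eq_sub_iff_add_eq, ← add_div, ← Finset.sum_add_distrib,
    div_eq_one_iff_eq (by positivity)]
  have : ∀ w ∈ words L, ((if P w then (1 : ℝ) else 0) + if ¬ P w then (1 : ℝ) else 0) = 1 := by
    intro w _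
    by_cases h : P w <;> simp [h]
  rw [Finset.sum_congr rfl this]
  simp [card_words]

/-- There is a fully polynomial randomized approximation scheme for the number of contingency
tables. -/
theorem exists_fpras : ∃ f q, IsFPRAS f q := by
  obtain ⟨g, hg, hg'⟩ := PT_approx (A := ∅)
  obtain ⟨q, hqd⟩ : ∃ q : Polynomial ℕ, q = (Polynomial.X + 2) ^ 3 * ((Polynomial.X + 2) ^ 20 *
    ((8 * (Polynomial.X + 2) + 2) ^ 8 * (8 * (Polynomial.X + 2) + 2) ^ 8)) := ⟨_, rfl⟩
  have hq : ∀ x : ℕ, q.eval x = (x + 2) ^ 3 * ((x + 2) ^ 20 *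
      ((8 * (x + 2) + 2) ^ 8 * (8 * (x + 2) + 2) ^ 8)) := by
    intro x
    rw [hqd]
    simp only [Polynomial.eval_mul, Polynomial.eval_pow, Polynomial.eval_add, Polynomial.eval_X,
      Polynomial.eval_ofNat]
  have key : ∀ (m n : ℕ) (r : Fin m → ℕ) (c : Fin n → ℕ) (e d : ℕ) (w : List Bool),
      g (block (countWord r c e d) w) = enc (approx (inp2 r c e d, ⟨w⟩)) := by
    intro m n r c e d w
    rw [← hg', enc_pair, block_eq, countWord_eq]
    rfl
  refine ⟨g, q, exists_tm2_of_polyTimeFun id id g g (polyTimeFun_iff.2 hg) fun _ => rfl, ?_⟩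
  intro m n r c hm hn h e d he
  have hT : q.eval (countWord r c e d).length = bits2 (inp2 r c e d) := by
    rw [hq, countWord_eq]
    rfl
  rw [hT]
  have h1 := approx_good hm hn r c h he d
  have hcard : Fintype.card (Omega r c) = Fintype.card (Tables r c) :=
    Fintype.card_congr (Equiv.refl _)
  rw [hcard]
  have h2 := prob_compl (bits2 (inp2 r c e d)) (fun w => 0 < (approx (inp2 r c e d, ⟨w⟩)).2 ∧
      (1 - 1 / (e : ℝ)) * Fintype.card (Tables r c) ≤
        ((approx (inp2 r c e d, ⟨w⟩)).1 : ℝ) / (approx (inp2 r c e d, ⟨w⟩)).2 ∧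
      ((approx (inp2 r c e d, ⟨w⟩)).1 : ℝ) / (approx (inp2 r c e d, ⟨w⟩)).2 ≤
        (1 + 1 / (e : ℝ)) * Fintype.card (Tables r c))
  have h3 : Vale.Agent.P328.prob (bits2 (inp2 r c e d)) (fun w =>
      0 < (approx (inp2 r c e d, ⟨w⟩)).2 ∧
      (1 - 1 / (e : ℝ)) * Fintype.card (Tables r c) ≤
        ((approx (inp2 r c e d, ⟨w⟩)).1 : ℝ) / (approx (inp2 r c e d, ⟨w⟩)).2 ∧
      ((approx (inp2 r c e d, ⟨w⟩)).1 : ℝ) / (approx (inp2 r c e d, ⟨w⟩)).2 ≤
        (1 + 1 / (e : ℝ)) * Fintype.card (Tables r c)) ≤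
      Vale.Agent.P328.prob (bits2 (inp2 r c e d)) (fun w =>
        ∃ a b : ℕ, 0 < b ∧ g (block (countWord r c e d) w) = fracWord a b ∧
          (1 - 1 / (e : ℝ)) * (Fintype.card (Tables r c) : ℝ) ≤ (a : ℝ) / b ∧
          (a : ℝ) / b ≤ (1 + 1 / (e : ℝ)) * (Fintype.card (Tables r c) : ℝ)) := by
    apply prob_mono
    intro w _ hw
    refine ⟨(approx (inp2 r c e d, ⟨w⟩)).1, (approx (inp2 r c e d, ⟨w⟩)).2, hw.1, ?_, hw.2.1, hw.2.2⟩
    rw [key, fracWord, block_eq]
    rfl
  have h4 : (1 : ℝ) - (1 / 2) ^ d ≤ Vale.Agent.P328.prob (bits2 (inp2 r c e d)) (fun w =>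
        ∃ a b : ℕ, 0 < b ∧ g (block (countWord r c e d) w) = fracWord a b ∧
          (1 - 1 / (e : ℝ)) * (Fintype.card (Tables r c) : ℝ) ≤ (a : ℝ) / b ∧
          (a : ℝ) / b ≤ (1 + 1 / (e : ℝ)) * (Fintype.card (Tables r c) : ℝ)) := by
    linarith
  exact h4

/-- The length of the input word of the counting algorithm. -/
theorem length_countWord (r : Fin m → ℕ) (c : Fin n → ℕ) (e d : ℕ) :
    (countWord r c e d).length ≤ 8 * (inputSize r c + 1) + 2 * e + d := by
  unfold countWord
  rw [block_eq, length_pr, block_eq, length_pr, length_numbers, length_numbers, block_eq,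
    length_pr]
  simp only [List.map_ofFn, List.length_ofFn, List.length_replicate, List.sum_ofFn,
    Function.comp]
  unfold inputSize
  omega

end Vale.Agent.P328.SM
end
end
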